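import Mathlib.Algebra.QuadraticAlgebra.NormDeterminant
import Mathlib.Analysis.SpecialFunctions.Complex.Circle
import Mathlib.Analysis.Complex.Basic
import Mathlib.RingTheory.PrincipalIdealDomain
import Mathlib.RingTheory.Ideal.Norm.AbsNorm
import Mathlib.Analysis.SpecialFunctions.Pow.Real

/-!
P006, block CR: the ring `O = ℤ[ω]` of Eisenstein integers (model: `QuadraticAlgebra ℤ (-1) (-1)`,
`ω² = -1 - ω`), its norm `N : O → ℕ`, its embedding `toC : O →+* ℂ`, division with remainder.
-/

namespace Vale.Agent.P006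

/-- The Eisenstein integers `ℤ[ω]`: elements `x = x.re + x.im * ω` with integers `x.re`, `x.im`. -/
abbrev O : Type := QuadraticAlgebra ℤ (-1) (-1)

/-- the cube root of unity `ω` in `O` -/
def om : O := ⟨0, 1⟩

/-- the prime `1 - ω` above `3` -/
def lam : O := ⟨1, -1⟩

/-- the cube root of unity `e^{2πi/3}` in `ℂ` -/
noncomputable def omC : ℂ := ⟨-1 / 2, Real.sqrt 3 / 2⟩

theorem om_sq : om * om = -1 - om := by decide

theorem omC_sq : omC * omC = -1 - omC := by
  have h : Real.sqrt 3 * Real.sqrt 3 = 3 := Real.mul_self_sqrt (by norm_num)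
  apply Complex.ext
  · simp only [omC, Complex.mul_re, Complex.sub_re, Complex.neg_re, Complex.one_re]
    nlinarith
  · simp only [omC, Complex.mul_im, Complex.sub_im, Complex.neg_im, Complex.one_im]
    ring

theorem one_add_omC : 1 + omC + omC ^ 2 = 0 := by
  rw [sq, omC_sq]; ring

theorem omC_cube : omC ^ 3 = 1 := by
  have : omC ^ 3 = omC * (omC * omC) := by ring
  rw [this, omC_sq, mul_sub, omC_sq]; ring

/-- the embedding of `O` in `ℂ` -/
noncomputable def toC : O →+* ℂ where
  toFun z := (z.re : ℂ) + (z.im : ℂ) * omC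
  map_one' := by simp [QuadraticAlgebra.re_one, QuadraticAlgebra.im_one]
  map_zero' := by simp
  map_add' x y := by simp; ring
  map_mul' x y := by
    have h := omC_sq
    simp only [QuadraticAlgebra.re_mul, QuadraticAlgebra.im_mul]
    push_cast
    linear_combination (-(x.im : ℂ) * y.im) * h

theorem toC_apply (z : O) : toC z = (z.re : ℂ) + (z.im : ℂ) * omC := rfl

@[simp] theorem toC_om : toC om = omC := by simp [toC_apply, om]

theorem toC_re (z : O) : (toC z).re = z.re - z.im / 2 := by
  simp [toC_apply, omC]; ring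

theorem toC_im (z : O) : (toC z).im = z.im * (Real.sqrt 3 / 2) := by
  simp [toC_apply, omC]

theorem toC_injective : Function.Injective toC := by
  intro x y h
  have h1 := congrArg Complex.im h
  have h2 := congrArg Complex.re h
  rw [toC_im, toC_im] at h1
  rw [toC_re, toC_re] at h2
  have h3 : (Real.sqrt 3 / 2 : ℝ) ≠ 0 := by positivity
  have h4 : (x.im : ℝ) = y.im := mul_right_cancel₀ h3 h1
  have h5 : (x.re : ℝ) = y.re := by rw [h4] at h2; linarith
  exact QuadraticAlgebra.ext (by exact_mod_cast h5) (by exact_mod_cast h4)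

@[simp] theorem toC_inj {x y : O} : toC x = toC y ↔ x = y := toC_injective.eq_iff

@[simp] theorem toC_eq_zero {x : O} : toC x = 0 ↔ x = 0 := by
  rw [← map_zero toC, toC_inj]

@[simp] theorem toC_natCast (n : ℕ) : toC (n : O) = n := map_natCast toC n

@[simp] theorem toC_intCast (n : ℤ) : toC (n : O) = n := map_intCast toC n

theorem toC_star (z : O) : toC (star z) = (starRingEnd ℂ) (toC z) := by
  apply Complex.ext
  · rw [Complex.conj_re, toC_re, toC_re]; simp; ring
  · rw [Complex.conj_im, toC_im, toC_im]; simp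

/-! ### The norm -/

theorem norm_eq (z : O) : z.norm = z.re * z.re - z.re * z.im + z.im * z.im := by
  rw [QuadraticAlgebra.norm_def]; ring

theorem qnorm_nonneg (z : O) : 0 ≤ z.norm := by
  rw [norm_eq]; nlinarith [sq_nonneg (z.re - z.im), sq_nonneg z.re, sq_nonneg z.im]

/-- the norm `N(z) = z * conj z`, as a natural number -/
def N (z : O) : ℕ := z.norm.natAbs

theorem N_cast_int (z : O) : (N z : ℤ) = z.norm := Int.natAbs_of_nonneg (qnorm_nonneg z)

theorem N_cast_int' (z : O) : (N z : ℤ) = z.re * z.re - z.re * z.im + z.im * z.im := by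
  rw [N_cast_int, norm_eq]

theorem N_mul_star (z : O) : ((N z : ℕ) : O) = z * star z := by
  have h := QuadraticAlgebra.algebraMap_norm_eq_mul_star z
  rw [← h, ← N_cast_int z]
  simp

theorem N_cast_real (z : O) : (N z : ℝ) = Complex.normSq (toC z) := by
  have h : (N z : ℝ) = ((N z : ℤ) : ℝ) := by simp
  rw [h, N_cast_int', Complex.normSq_apply, toC_re, toC_im]
  have h : Real.sqrt 3 * Real.sqrt 3 = 3 := Real.mul_self_sqrt (by norm_num)
  push_cast
  nlinarith

theorem N_eq_sq_norm (z : O) : (N z : ℝ) = ‖toC z‖ ^ 2 := by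
  rw [N_cast_real, Complex.normSq_eq_norm_sq]

theorem norm_toC (z : O) : ‖toC z‖ = Real.sqrt (N z) := by
  rw [N_eq_sq_norm, Real.sqrt_sq (norm_nonneg _)]

@[simp] theorem N_mul (x y : O) : N (x * y) = N x * N y := by
  simp [N, Int.natAbs_mul]

@[simp] theorem N_zero : N 0 = 0 := by simp [N]

@[simp] theorem N_one : N 1 = 1 := by simp [N]

@[simp] theorem N_neg (x : O) : N (-x) = N x := by simp [N]

@[simp] theorem N_star (x : O) : N (star x) = N x := by simp [N]

@[simp] theorem N_pow (x : O) (n : ℕ) : N (x ^ n) = N x ^ n := by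
  simp [N, Int.natAbs_pow]

@[simp] theorem N_om : N om = 1 := by decide

@[simp] theorem N_lam : N lam = 3 := by decide

theorem N_intCast (n : ℤ) : N (n : O) = n.natAbs ^ 2 := by
  simp [N, Int.natAbs_pow]

theorem N_natCast (n : ℕ) : N (n : O) = n ^ 2 := by
  simp [N, Int.natAbs_pow]

@[simp] theorem N_eq_zero {z : O} : N z = 0 ↔ z = 0 := by
  constructor
  · intro h
    have h1 : (N z : ℝ) = 0 := by simp [h]
    rw [N_cast_real, Complex.normSq_eq_zero] at h1
    exact toC_eq_zero.1 h1
  · rintro rfl; simp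

theorem N_pos {z : O} (h : z ≠ 0) : 0 < N z := Nat.pos_of_ne_zero (by simpa using h)

instance : NoZeroDivisors O where
  eq_zero_or_eq_zero_of_mul_eq_zero {a b} h := by
    have h1 : N (a * b) = 0 := by rw [h]; simp
    rw [N_mul, mul_eq_zero] at h1
    simpa using h1

instance : IsDomain O := NoZeroDivisors.to_isDomain O

theorem isUnit_iff_N {z : O} : IsUnit z ↔ N z = 1 := by
  rw [QuadraticAlgebra.isUnit_iff_norm_isUnit, Int.isUnit_iff_natAbs_eq]; rfl

theorem N_dvd_N {x y : O} (h : x ∣ y) : N x ∣ N y := by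
  obtain ⟨c, rfl⟩ := h; simp

theorem N_eq_of_associated {x y : O} (h : Associated x y) : N x = N y := by
  obtain ⟨u, rfl⟩ := h
  have : N (u : O) = 1 := isUnit_iff_N.1 u.isUnit
  simp [this]

/-! ### Division with remainder -/

/-- rounded division -/
def rdiv (a : ℤ) (n : ℤ) : ℤ := (2 * a + n) / (2 * n)

theorem rdiv_spec (a : ℤ) {n : ℤ} (hn : 0 < n) : 2 * |a - n * rdiv a n| ≤ n := by
  have h1 := Int.emod_add_mul_ediv (2 * a + n) (2 * n)
  have h2 := Int.emod_nonneg (2 * a + n) (show (2 * n : ℤ) ≠ 0 by omega)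
  have h3 := Int.emod_lt_of_pos (2 * a + n) (show (0 : ℤ) < 2 * n by omega)
  rw [rdiv]
  set q := (2 * a + n) / (2 * n)
  set r := (2 * a + n) % (2 * n)
  have h4 : 2 * (a - n * q) = r - n := by linarith
  rw [show (2 : ℤ) * |a - n * q| = |2 * (a - n * q)| by rw [abs_mul]; simp, h4, abs_le]
  constructor <;> linarith

/-- quotient of the division with remainder in `O` -/
def quo (x y : O) : O :=
  ⟨rdiv (x * star y).re y.norm, rdiv (x * star y).im y.norm⟩

theorem quo_zero (x : O) : quo x 0 = 0 := by
  simp [quo, rdiv]; rfl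

theorem N_rem_lt (x : O) {y : O} (hy : y ≠ 0) : N (x - y * quo x y) < N y := by
  have hn : 0 < y.norm := by
    have := N_pos hy
    rw [← N_cast_int]; exact_mod_cast this
  have hk : (x - y * quo x y) * star y = ⟨(x * star y).re - y.norm * (quo x y).re,
      (x * star y).im - y.norm * (quo x y).im⟩ := by
    have h := QuadraticAlgebra.algebraMap_norm_eq_mul_star y
    have h2 : (x - y * quo x y) * star y = x * star y - (y * star y) * quo x y := by ring
    rw [h2, ← h]
    ext <;> simp
  have h1 := rdiv_spec (x * star y).re hn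
  have h2 := rdiv_spec (x * star y).im hn
  have h3 : N ((x - y * quo x y) * star y) = N (x - y * quo x y) * N y := by simp
  have h4 : (N ((x - y * quo x y) * star y) : ℤ) < (N y : ℤ) * N y := by
    rw [hk, N_cast_int', N_cast_int]
    simp only [quo]
    set u := (x * star y).re - y.norm * rdiv (x * star y).re y.norm
    set v := (x * star y).im - y.norm * rdiv (x * star y).im y.norm
    have hu := abs_le.1 (show |u| ≤ |u| from le_rfl)
    have hv := abs_le.1 (show |v| ≤ |v| from le_rfl)
    have hu2 : u * u = |u| * |u| := (abs_mul_abs_self u).symm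
    have hv2 : v * v = |v| * |v| := (abs_mul_abs_self v).symm
    have huv : -(u * v) ≤ |u| * |v| := by rw [← abs_mul]; exact neg_le_abs _
    have hu0 := abs_nonneg u
    have hv0 := abs_nonneg v
    nlinarith
  rw [h3] at h4
  have h5 : N (x - y * quo x y) * N y < N y * N y := by exact_mod_cast h4
  exact lt_of_mul_lt_mul_right h5 (Nat.zero_le _)

instance : EuclideanDomain O where
  quotient := quo
  remainder x y := x - y * quo x y
  quotient_zero := quo_zero
  quotient_mul_add_remainder_eq x y := by ring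
  r x y := N x < N y
  r_wellFounded := (measure N).wf
  remainder_lt x y hy := N_rem_lt x hy
  mul_left_not_lt x y hy := by
    rw [not_lt, N_mul]
    exact Nat.le_mul_of_pos_right _ (N_pos hy)

example : (EuclideanDomain.toCommRing : CommRing O) = QuadraticAlgebra.instCommRing := rfl

/-! ### The additive character `e(Tr z) = exp(2πi (z + conj z))` -/

/-- `e(x) = exp(2πi x)` for real `x` -/
noncomputable def e (x : ℝ) : ℂ := Complex.exp (2 * Real.pi * Complex.I * x)

theorem e_add (x y : ℝ) : e (x + y) = e x * e y := by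
  rw [e, e, e, ← Complex.exp_add]; congr 1; push_cast; ring

@[simp] theorem e_zero : e 0 = 1 := by simp [e]

@[simp] theorem e_int (n : ℤ) : e n = 1 := by
  rw [e, Complex.exp_eq_one_iff]; exact ⟨n, by push_cast; ring⟩

theorem e_neg (x : ℝ) : e (-x) = (starRingEnd ℂ) (e x) := by
  rw [e, e, ← Complex.exp_conj]; congr 1
  rw [map_mul, map_mul, map_mul, Complex.conj_I, Complex.conj_ofReal, Complex.conj_ofReal,
    map_ofNat]
  push_cast; ring

theorem norm_e (x : ℝ) : ‖e x‖ = 1 := by
  rw [e, show (2 * Real.pi * Complex.I * x : ℂ) = ((2 * Real.pi * x : ℝ) : ℂ) * Complex.I by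
    push_cast; ring, Complex.norm_exp_ofReal_mul_I]

/-- the trace `z + conj z` as a real number -/
noncomputable def TrC (z : ℂ) : ℝ := 2 * z.re

@[simp] theorem TrC_add (z w : ℂ) : TrC (z + w) = TrC z + TrC w := by simp [TrC]; ring

@[simp] theorem TrC_neg (z : ℂ) : TrC (-z) = - TrC z := by simp [TrC]

@[simp] theorem TrC_zero : TrC 0 = 0 := by simp [TrC]

theorem TrC_toC (z : O) : TrC (toC z) = ((2 * z.re - z.im : ℤ) : ℝ) := by
  rw [TrC, toC_re]; push_cast; ring

@[simp] theorem e_TrC_toC (z : O) : e (TrC (toC z)) = 1 := by rw [TrC_toC, e_int]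

end Vale.Agent.P006
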