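import Vale.Agent.P006.CR.Basic
import Mathlib.NumberTheory.LegendreSymbol.AddCharacter
import Mathlib.RingTheory.DedekindDomain.PID
import Mathlib.FieldTheory.Finite.Basic

/-!
P006, block CR: residue rings `Rs c = O/(c)`, additive characters, primary elements.
-/

namespace Vale.Agent.P006

open scoped BigOperators

/-- the residue ring `O/(c)` -/
abbrev Rs (c : O) : Type := O ⧸ Ideal.span ({c} : Set O)

/-- the residue class map `O → O/(c)` -/
abbrev rs (c : O) : O →+* Rs c := Ideal.Quotient.mk (Ideal.span ({c} : Set O))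

theorem rs_eq {c x y : O} : rs c x = rs c y ↔ c ∣ x - y := by
  rw [Ideal.Quotient.eq, Ideal.mem_span_singleton]

theorem rs_eq_zero {c x : O} : rs c x = 0 ↔ c ∣ x := by
  rw [Ideal.Quotient.eq_zero_iff_dvd]

instance decidable_dvd (c d : O) : Decidable (c ∣ d) :=
  decidable_of_iff (d % c = 0) EuclideanDomain.mod_eq_zero

theorem rs_surj (c : O) : Function.Surjective (rs c) := Ideal.Quotient.mk_surjective

theorem algebra_norm_eq (c : O) : Algebra.norm ℤ c = c.norm := by
  rw [Algebra.norm_apply, ← QuadraticAlgebra.det_toLinearMap_eq_norm]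
  congr 1

theorem card_Rs (c : O) : Nat.card (Rs c) = N c := by
  have h := Ideal.absNorm_span_singleton (S := O) c
  rw [Ideal.absNorm_apply, Submodule.cardQuot_apply, algebra_norm_eq] at h
  exact h

instance finite_Rs (c : O) [NeZero c] : Finite (Rs c) := by
  apply Nat.finite_of_card_ne_zero
  rw [card_Rs]
  exact (N_pos (NeZero.ne c)).ne'

noncomputable instance fintype_Rs (c : O) [NeZero c] : Fintype (Rs c) := Fintype.ofFinite _

theorem fcard_Rs (c : O) [NeZero c] : Fintype.card (Rs c) = N c := by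
  rw [← Nat.card_eq_fintype_card, card_Rs]

/-! ### Units and divisibility by `3` and `lam` -/

theorem re_one' : (1 : O).re = 1 := rfl
theorem im_one' : (1 : O).im = 0 := rfl
theorem re_three : (3 : O).re = 3 := rfl
theorem im_three : (3 : O).im = 0 := rfl

theorem dvd_three_iff {z : O} : (3 : O) ∣ z ↔ (3 : ℤ) ∣ z.re ∧ (3 : ℤ) ∣ z.im := by
  constructor
  · rintro ⟨w, rfl⟩
    constructor
    · exact ⟨w.re, by simp [re_three, im_three]⟩
    · exact ⟨w.im, by simp [re_three, im_three]⟩
  · rintro ⟨⟨a, ha⟩, ⟨b, hb⟩⟩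
    refine ⟨⟨a, b⟩, ?_⟩
    ext
    · simp [ha, re_three, im_three]
    · simp [hb, re_three, im_three]

theorem lam_dvd_iff {z : O} : lam ∣ z ↔ (3 : ℤ) ∣ z.re + z.im := by
  constructor
  · rintro ⟨w, rfl⟩
    refine ⟨w.im, ?_⟩
    simp [lam]; ring
  · rintro ⟨y, hy⟩
    refine ⟨⟨z.re - y, y⟩, ?_⟩
    ext
    · simp [lam]
    · simp [lam]; linarith

theorem prime_lam : Prime lam := by
  refine ⟨by decide, ?_, ?_⟩
  · rw [isUnit_iff_N]; decide
  · intro a b h
    rw [lam_dvd_iff] at h ⊢
    rw [lam_dvd_iff]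
    have : (a * b).re + (a * b).im = (a.re + a.im) * (b.re + b.im) - 3 * (a.im * b.im) := by
      simp; ring
    rw [this] at h
    have h2 : (3 : ℤ) ∣ (a.re + a.im) * (b.re + b.im) := by
      have h3 : (3 : ℤ) ∣ 3 * (a.im * b.im) := dvd_mul_right _ _
      simpa using dvd_add h h3
    exact Int.prime_three.dvd_or_dvd h2

theorem three_eq : (3 : O) = -(om ^ 2) * lam ^ 2 := by decide

theorem lam_dvd_three : lam ∣ (3 : O) := by
  rw [three_eq]; exact Dvd.intro_left (-(om ^ 2) * lam) (by ring)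

theorem om_cube : om ^ 3 = 1 := by decide

theorem one_add_om : 1 + om + om ^ 2 = 0 := by decide

theorem isUnit_om : IsUnit om := by rw [isUnit_iff_N]; decide

theorem isUnit_cases {u : O} (h : IsUnit u) :
    u = 1 ∨ u = om ∨ u = om ^ 2 ∨ u = -1 ∨ u = -om ∨ u = -(om ^ 2) := by
  rw [isUnit_iff_N] at h
  have h1 := N_cast_int' u
  rw [h] at h1
  have h2 : u.re ^ 2 ≤ 1 := by push_cast at h1; nlinarith [sq_nonneg (u.re - 2 * u.im)]
  have h3 : u.im ^ 2 ≤ 1 := by push_cast at h1; nlinarith [sq_nonneg (2 * u.re - u.im)]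
  have h4 : u.re ≤ 1 := by nlinarith
  have h5 : -1 ≤ u.re := by nlinarith
  have h6 : u.im ≤ 1 := by nlinarith
  have h7 : -1 ≤ u.im := by nlinarith
  obtain ⟨a, b⟩ := u
  simp only at h1 h4 h5 h6 h7
  interval_cases a <;> interval_cases b <;> first | (exfalso; revert h1; decide) | decide

/-- `b` is primary: `b ≡ 1 mod 3` -/
def Primary (b : O) : Prop := (3 : O) ∣ b - 1

theorem primary_iff {b : O} : Primary b ↔ (3 : ℤ) ∣ b.re - 1 ∧ (3 : ℤ) ∣ b.im := by
  rw [Primary, dvd_three_iff]; simp [re_one', im_one']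

instance (b : O) : Decidable (Primary b) := decidable_of_iff _ primary_iff.symm

theorem primary_one : Primary 1 := by simp [Primary]

theorem Primary.mul {a b : O} (ha : Primary a) (hb : Primary b) : Primary (a * b) := by
  have : a * b - 1 = (a - 1) * b + (b - 1) := by ring
  rw [Primary, this]
  exact dvd_add (Dvd.dvd.mul_right ha _) hb

theorem Primary.of_mul {a b : O} (ha : Primary a) (hab : Primary (a * b)) : Primary b := by
  have : b - 1 = (a * b - 1) - (a - 1) * b := by ring
  rw [Primary, this]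
  exact dvd_sub hab (Dvd.dvd.mul_right ha _)

theorem Primary.star {a : O} (ha : Primary a) : Primary (star a) := by
  rw [primary_iff] at ha ⊢
  simp only [QuadraticAlgebra.re_star, QuadraticAlgebra.im_star]
  constructor
  · have : a.re + -1 * a.im - 1 = (a.re - 1) - a.im := by ring
    rw [this]
    exact dvd_sub ha.1 ha.2
  · exact (dvd_neg).2 ha.2

theorem primary_star_iff {a : O} : Primary (star a) ↔ Primary a :=
  ⟨fun h => by simpa using h.star, Primary.star⟩

theorem Primary.pow {a : O} (ha : Primary a) (n : ℕ) : Primary (a ^ n) := by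
  induction n with
  | zero => simpa using primary_one
  | succ n ih => rw [pow_succ]; exact ih.mul ha

theorem Primary.ne_zero {a : O} (ha : Primary a) : a ≠ 0 := by
  rintro rfl
  rw [primary_iff] at ha
  norm_num at ha

theorem Primary.not_lam_dvd {a : O} (ha : Primary a) : ¬ lam ∣ a := by
  rw [lam_dvd_iff]
  rw [primary_iff] at ha
  omega

theorem Primary.isCoprime_lam {a : O} (ha : Primary a) : IsCoprime lam a :=
  (prime_lam.coprime_iff_not_dvd).2 ha.not_lam_dvd

theorem Primary.isCoprime_three {a : O} (ha : Primary a) : IsCoprime (3 : O) a := by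
  obtain ⟨t, ht⟩ := ha
  exact ⟨-t, 1, by linear_combination ht⟩

theorem Primary.eq_one {a : O} (ha : Primary a) (hu : IsUnit a) : a = 1 := by
  rcases isUnit_cases hu with h | h | h | h | h | h <;> subst h <;>
    first | rfl | (exfalso; revert ha; decide)

theorem exists_unit_mul_primary {z : O} (hz : ¬ lam ∣ z) : ∃ u : O, IsUnit u ∧ Primary (u * z) := by
  rw [lam_dvd_iff] at hz
  have hu : ∀ u : O, u = 1 ∨ u = om ∨ u = om ^ 2 ∨ u = -1 ∨ u = -om ∨ u = -(om ^ 2) → IsUnit u := by
    intro u hu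
    rw [isUnit_iff_N]
    rcases hu with h | h | h | h | h | h <;> subst h <;> decide
  have key : ∃ u : O, (u = 1 ∨ u = om ∨ u = om ^ 2 ∨ u = -1 ∨ u = -om ∨ u = -(om ^ 2)) ∧
      Primary (u * z) := by
    have e1 : (om * z).re = - z.im ∧ (om * z).im = z.re - z.im := by
      constructor <;> simp [om]; ring
    have e2 : (om ^ 2 * z).re = z.im - z.re ∧ (om ^ 2 * z).im = - z.re := by
      have : om ^ 2 = ⟨-1, -1⟩ := by decide
      rw [this]
      constructor <;> simp; ring
    have h : ((3 : ℤ) ∣ z.re - 1 ∧ (3 : ℤ) ∣ z.im) ∨ ((3 : ℤ) ∣ z.re + 1 ∧ (3 : ℤ) ∣ z.im) ∨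
        ((3 : ℤ) ∣ -z.im - 1 ∧ (3 : ℤ) ∣ z.re - z.im) ∨ ((3 : ℤ) ∣ -z.im + 1 ∧ (3 : ℤ) ∣ z.re - z.im) ∨
        ((3 : ℤ) ∣ z.im - z.re - 1 ∧ (3 : ℤ) ∣ z.re) ∨ ((3 : ℤ) ∣ z.im - z.re + 1 ∧ (3 : ℤ) ∣ z.re) := by
      clear e1 e2
      have h1 : z.re % 3 = 0 ∨ z.re % 3 = 1 ∨ z.re % 3 = 2 := by omega
      have h2 : z.im % 3 = 0 ∨ z.im % 3 = 1 ∨ z.im % 3 = 2 := by omega
      rcases h1 with h1 | h1 | h1 <;> rcases h2 with h2 | h2 | h2 <;> omega
    rcases h with h | h | h | h | h | h
    · exact ⟨1, by simp, by rw [primary_iff]; simpa using h⟩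
    · refine ⟨-1, by simp, by rw [primary_iff]; simp; omega⟩
    · refine ⟨om, by simp, ?_⟩
      rw [primary_iff, e1.1, e1.2]; omega
    · refine ⟨-om, by simp, ?_⟩
      rw [primary_iff, neg_mul, QuadraticAlgebra.re_neg, QuadraticAlgebra.im_neg, e1.1, e1.2]; omega
    · refine ⟨om ^ 2, by simp, ?_⟩
      rw [primary_iff, e2.1, e2.2]; omega
    · refine ⟨-(om ^ 2), by simp, ?_⟩
      rw [primary_iff, neg_mul, QuadraticAlgebra.re_neg, QuadraticAlgebra.im_neg, e2.1, e2.2]; omega
  obtain ⟨u, h1, h2⟩ := key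
  exact ⟨u, hu u h1, h2⟩

theorem Primary.N_mod {a : O} (ha : Primary a) : N a % 3 = 1 := by
  rw [primary_iff] at ha
  obtain ⟨⟨m, hm⟩, ⟨n, hn⟩⟩ := ha
  have h := N_cast_int' a
  have h1 : a.re = 3 * m + 1 := by linarith
  rw [h1, hn] at h
  have h2 : (N a : ℤ) = 3 * (3 * m * m + 2 * m - 3 * m * n - n + 3 * n * n) + 1 := by rw [h]; ring
  omega

theorem primary_intCast {n : ℤ} : Primary (n : O) ↔ n % 3 = 1 := by
  rw [primary_iff]; simp; omega

theorem N_mod_of_not_lam_dvd {a : O} (ha : ¬ lam ∣ a) : N a % 3 = 1 := by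
  obtain ⟨u, hu, h⟩ := exists_unit_mul_primary ha
  have := h.N_mod
  rwa [N_mul, isUnit_iff_N.1 hu, one_mul] at this

/-- induction on the factorisation of a primary number into primary primes -/
theorem Primary.induction {P : O → Prop} (h1 : P 1)
    (hmul : ∀ π b : O, Prime π → Primary π → Primary b → P b → P (π * b)) :
    ∀ b : O, Primary b → P b := by
  intro b
  induction hn : N b using Nat.strong_induction_on generalizing b with
  | _ n ih => ?_
  intro hb
  by_cases hu : IsUnit b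
  · rw [hb.eq_one hu]; exact h1
  · obtain ⟨π₀, hπ₀, hd⟩ := WfDvdMonoid.exists_irreducible_factor hu hb.ne_zero
    have hl : ¬ lam ∣ π₀ := fun h => hb.not_lam_dvd (h.trans hd)
    obtain ⟨u, hu, hp⟩ := exists_unit_mul_primary hl
    have hpr : Prime (u * π₀) := by
      have : Associated π₀ (u * π₀) := associated_unit_mul_right π₀ u hu
      exact this.prime hπ₀.prime
    obtain ⟨c, hc⟩ : u * π₀ ∣ b := by
      have : Associated π₀ (u * π₀) := associated_unit_mul_right π₀ u hu
      exact this.symm.dvd.trans hd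
    have hcp : Primary c := hp.of_mul (hc ▸ hb)
    have hN : N c < n := by
      rw [← hn, hc, N_mul]
      have h2 : N (u * π₀) ≠ 1 := fun h => hpr.not_isUnit (isUnit_iff_N.2 h)
      have h3 : 0 < N (u * π₀) := N_pos hpr.ne_zero
      have h4 : 0 < N c := N_pos hcp.ne_zero
      nlinarith [show 2 ≤ N (u * π₀) by omega]
    rw [hc]
    exact hmul _ _ hpr hp hcp (ih _ hN c rfl hcp)

/-! ### The residue field of a prime -/

instance fact_neZero (π : O) [h : Fact (Prime π)] : NeZero π := ⟨h.out.ne_zero⟩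

theorem isMaximal_span {π : O} (hπ : Prime π) : (Ideal.span ({π} : Set O)).IsMaximal :=
  PrincipalIdealRing.isMaximal_of_irreducible hπ.irreducible

noncomputable instance field_Rs (π : O) [h : Fact (Prime π)] : Field (Rs π) :=
  @Ideal.Quotient.field _ _ (Ideal.span ({π} : Set O)) (isMaximal_span h.out)

theorem N_pow_pred_eq_one {π a : O} (hπ : Prime π) (ha : ¬ π ∣ a) : π ∣ a ^ (N π - 1) - 1 := by
  have : Fact (Prime π) := ⟨hπ⟩
  rw [← rs_eq_zero, map_sub, map_pow, map_one, sub_eq_zero]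
  have h : rs π a ≠ 0 := by rwa [Ne, rs_eq_zero]
  have := FiniteField.pow_card_sub_one_eq_one (rs π a) h
  rwa [fcard_Rs] at this

/-! ### The additive character -/

/-- the additive character `x ↦ e(Tr(x/c))` of `O/(c)` -/
noncomputable def psi (c : O) : AddChar (Rs c) ℂ where
  toFun := fun x => Quotient.liftOn' x (fun d => e (TrC (toC d / toC c))) (by
    intro a b h
    have h1 : c ∣ b - a := by
      have := QuotientAddGroup.leftRel_apply.1 h
      rw [← Ideal.mem_span_singleton]
      have h2 : -a + b = b - a := by ring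
      rw [← h2]; exact this
    obtain ⟨t, ht⟩ := h1
    have h3 : b = a + c * t := by rw [← ht]; ring
    by_cases hc : c = 0
    · subst hc; simp only [map_zero, div_zero]
    · have hc' : toC c ≠ 0 := by simpa using hc
      rw [h3, map_add, map_mul, add_div, mul_div_cancel_left₀ _ hc', TrC_add, e_add, e_TrC_toC,
        mul_one])
  map_zero_eq_one' := by
    show e (TrC (toC 0 / toC c)) = 1
    simp
  map_add_eq_mul' := by
    intro x y
    obtain ⟨a, rfl⟩ := rs_surj c x
    obtain ⟨b, rfl⟩ := rs_surj c y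
    show e (TrC (toC (a + b) / toC c)) = e (TrC (toC a / toC c)) * e (TrC (toC b / toC c))
    rw [map_add, add_div, TrC_add, e_add]

@[simp] theorem psi_rs (c d : O) : psi c (rs c d) = e (TrC (toC d / toC c)) := rfl

theorem e_eq_one_iff {x : ℝ} : e x = 1 ↔ ∃ n : ℤ, x = n := by
  rw [e, Complex.exp_eq_one_iff]
  constructor
  · rintro ⟨n, hn⟩
    refine ⟨n, ?_⟩
    have h2 : (2 * Real.pi * Complex.I : ℂ) ≠ 0 := Complex.two_pi_I_ne_zero
    have h3 : (x : ℂ) = n := by
      apply mul_left_cancel₀ h2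
      rw [hn]; ring
    exact_mod_cast h3
  · rintro ⟨n, rfl⟩
    exact ⟨n, by push_cast; ring⟩

/-- If `Tr(x)` and `Tr(x ω)` are integers then `x ∈ (1/√-3) O`. -/
theorem exists_of_TrC_int {x : ℂ} (h1 : ∃ m : ℤ, TrC x = m) (h2 : ∃ n : ℤ, TrC (x * omC) = n) :
    ∃ z : O, toC lam * x = toC z := by
  obtain ⟨m, hm⟩ := h1
  obtain ⟨n, hn⟩ := h2
  have hs : Real.sqrt 3 * Real.sqrt 3 = 3 := Real.mul_self_sqrt (by norm_num)
  simp only [TrC, omC, Complex.mul_re] at hm hn
  have hre : x.re = m / 2 := by linarith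
  have him : x.im * Real.sqrt 3 = -(n : ℝ) - m / 2 := by
    rw [hre] at hn; linarith
  have him' : 3 * x.im = (-(n : ℝ) - m / 2) * Real.sqrt 3 := by
    rw [← him, mul_assoc, hs]; ring
  refine ⟨⟨-n, -(n + m)⟩, ?_⟩
  apply Complex.ext
  · rw [Complex.mul_re, toC_re, toC_im, toC_re, hre]
    simp only [lam]
    push_cast
    linarith
  · rw [Complex.mul_im, toC_re, toC_im, toC_im, hre]
    simp only [lam]
    push_cast
    linarith

/-- the multiplication map `O/(b) → O/(c)`, `x ↦ a x`, where `c = a * b` -/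
def mulL (a b c : O) (h : c = a * b) : Rs b →ₗ[O] Rs c :=
  Submodule.mapQ _ _ (LinearMap.mulLeft O a) (by
    intro x hx
    rw [Ideal.mem_span_singleton] at hx
    rw [Submodule.mem_comap, LinearMap.mulLeft_apply, Ideal.mem_span_singleton, h]
    exact mul_dvd_mul_left a hx)

@[simp] theorem mulL_rs (a b c : O) (h : c = a * b) (x : O) :
    mulL a b c h (rs b x) = rs c (a * x) := rfl

/-- the reduction map `O/(c) → O/(a)` for `a ∣ c` -/
def redR (a c : O) (h : a ∣ c) : Rs c →+* Rs a :=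
  Ideal.Quotient.factor (Ideal.span_singleton_le_span_singleton.2 h)

@[simp] theorem redR_rs (a c : O) (h : a ∣ c) (x : O) : redR a c h (rs c x) = rs a x := rfl

theorem exists_TrC_div_lam (w : O) : ∃ n : ℤ, TrC (toC w / toC lam) = n := by
  have hl : toC lam ≠ 0 := by simpa using prime_lam.ne_zero
  have h2 : toC w / toC lam = toC (w * star lam) / 3 := by
    have : toC lam * toC (star lam) = 3 := by
      rw [← map_mul, ← N_mul_star, N_lam, toC_natCast]; norm_num
    rw [div_eq_div_iff hl (by norm_num), ← this, map_mul]; ring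
  refine ⟨w.re - w.im, ?_⟩
  have h3 : TrC (toC (w * star lam) / 3) = TrC (toC (w * star lam)) / 3 := by
    have : toC (w * star lam) / 3 = toC (w * star lam) / ((3 : ℝ) : ℂ) := by norm_num
    rw [TrC, this, Complex.div_ofReal_re, TrC]; ring
  rw [h2, h3, TrC_toC]
  have h4 : star lam = ⟨2, 1⟩ := by decide
  rw [h4]
  simp
  ring

theorem psi_trivial_iff {c d : O} (hc : c ≠ 0) :
    (∀ t : O, psi c (rs c (d * t)) = 1) ↔ c ∣ lam * d := by
  have hc' : toC c ≠ 0 := by simpa using hc
  constructor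
  · intro h
    have h1 : ∃ m : ℤ, TrC (toC d / toC c) = m := by
      have := h 1
      rw [mul_one, psi_rs] at this
      exact e_eq_one_iff.1 this
    have h2 : ∃ m : ℤ, TrC (toC d / toC c * omC) = m := by
      have := h om
      rw [psi_rs] at this
      obtain ⟨m, hm⟩ := e_eq_one_iff.1 this
      refine ⟨m, ?_⟩
      rw [← hm, map_mul, toC_om]
      congr 1; ring
    obtain ⟨z, hz⟩ := exists_of_TrC_int h1 h2
    refine ⟨z, ?_⟩
    apply toC_injective
    rw [map_mul, map_mul, ← hz]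
    field_simp
  · rintro ⟨z, hz⟩ t
    rw [psi_rs, e_eq_one_iff]
    have hl : toC lam ≠ 0 := by simpa using prime_lam.ne_zero
    have h1 : toC (d * t) / toC c = toC (z * t) / toC lam := by
      rw [div_eq_div_iff hc' hl, ← map_mul, ← map_mul]
      congr 1
      linear_combination t * hz
    rw [h1]
    exact exists_TrC_div_lam (z * t)

/-- orthogonality: the sum of `x ↦ e(Tr(d x / c))` over `O/(c)` -/
theorem sum_psi_mul (c : O) [NeZero c] (d : O) :
    ∑ x : Rs c, psi c (rs c d * x) = if c ∣ lam * d then (N c : ℂ) else 0 := by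
  classical
  have hc : c ≠ 0 := NeZero.ne c
  have h0 : ∀ x : Rs c, AddChar.mulShift (psi c) (rs c d) x = psi c (rs c d * x) := fun x => by
    rw [AddChar.mulShift_apply]
  simp only [← h0]
  rw [AddChar.sum_eq_ite, fcard_Rs]
  have h1 : (AddChar.mulShift (psi c) (rs c d) = 0) ↔ c ∣ lam * d := by
    rw [← psi_trivial_iff hc, AddChar.eq_zero_iff]
    constructor
    · intro h t
      have := h (rs c t)
      rwa [h0, ← map_mul] at this
    · intro h x
      obtain ⟨t, rfl⟩ := rs_surj c x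
      rw [h0, ← map_mul]; exact h t
  simp only [h1]

theorem psi_isPrimitive {c : O} (hc0 : c ≠ 0) (hc : IsCoprime c lam) : (psi c).IsPrimitive := by
  intro a ha h
  obtain ⟨d, rfl⟩ := rs_surj c a
  apply ha
  rw [rs_eq_zero]
  apply hc.dvd_of_dvd_mul_left
  rw [← psi_trivial_iff hc0]
  intro t
  have := DFunLike.congr_fun h (rs c t)
  rwa [AddChar.mulShift_apply, ← map_mul] at this

/-! ### Chinese remainder theorem -/

/-- for coprime `a, b`: every class mod `ab` is `b x + a y` for a unique pair of classes -/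
theorem crt_bijective {a b : O} (ha : a ≠ 0) (hb : b ≠ 0) (hab : IsCoprime a b) :
    Function.Bijective (fun p : Rs a × Rs b =>
      mulL b a (a * b) (mul_comm a b) p.1 + mulL a b (a * b) rfl p.2) := by
  have : NeZero a := ⟨ha⟩
  have : NeZero b := ⟨hb⟩
  have : NeZero (a * b) := ⟨mul_ne_zero ha hb⟩
  rw [Fintype.bijective_iff_injective_and_card]
  refine ⟨?_, ?_⟩
  · rintro ⟨x, y⟩ ⟨x', y'⟩ h
    obtain ⟨x, rfl⟩ := rs_surj a x
    obtain ⟨x', rfl⟩ := rs_surj a x'
    obtain ⟨y, rfl⟩ := rs_surj b y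
    obtain ⟨y', rfl⟩ := rs_surj b y'
    simp only [mulL_rs, ← map_add] at h
    rw [rs_eq] at h
    have h2 : b * x + a * y - (b * x' + a * y') = b * (x - x') + a * (y - y') := by ring
    rw [h2] at h
    have h3 : a ∣ b * (x - x') := by
      have := (dvd_mul_right a b).trans h
      exact (dvd_add_left (dvd_mul_right a _)).1 this
    have h4 : b ∣ a * (y - y') := by
      have := (dvd_mul_left b a).trans h
      exact (dvd_add_right (dvd_mul_right b _)).1 this
    rw [Prod.mk.injEq, rs_eq, rs_eq]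
    exact ⟨hab.dvd_of_dvd_mul_left h3, hab.symm.dvd_of_dvd_mul_left h4⟩
  · rw [Fintype.card_prod, fcard_Rs, fcard_Rs, fcard_Rs, N_mul]

theorem sum_crt {M : Type*} [AddCommMonoid M] {a b : O} (ha : a ≠ 0) (hb : b ≠ 0)
    [NeZero a] [NeZero b] [NeZero (a * b)]
    (hab : IsCoprime a b) (f : Rs (a * b) → M) :
    ∑ z : Rs (a * b), f z = ∑ x : Rs a, ∑ y : Rs b,
      f (mulL b a (a * b) (mul_comm a b) x + mulL a b (a * b) rfl y) := by
  rw [← (Equiv.ofBijective _ (crt_bijective ha hb hab)).sum_comp, Fintype.sum_prod_type]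
  rfl

theorem psi_mulL {a b c : O} (ha : a ≠ 0) (h : c = a * b) (y : Rs b) :
    psi c (mulL a b c h y) = psi b y := by
  obtain ⟨y, rfl⟩ := rs_surj b y
  rw [mulL_rs, psi_rs, psi_rs, h, map_mul, map_mul, mul_div_mul_left _ _ (by simpa using ha)]

end Vale.Agent.P006
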