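import Vale.Agent.P006.CR.Residue
import Mathlib.NumberTheory.MulChar.Basic
import Mathlib.RingTheory.UniqueFactorizationDomain.Multiplicity

/-!
P006, block CR: the cubic residue symbol `sym a b = (a/b)_3`.
-/

namespace Vale.Agent.P006

open UniqueFactorizationMonoid

/-- the cubic symbol of `a` modulo a prime `π`: `0` if `π ∣ a`, else the cube root of unity `u`
with `a^((N π - 1)/3) ≡ u mod π` (for `π = lam` this is `1`) -/
def symP (a π : O) : O :=
  if π ∣ a then 0 else
    if π ∣ a ^ ((N π - 1) / 3) - 1 then 1 else
      if π ∣ a ^ ((N π - 1) / 3) - om then om else om ^ 2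

/-- the set of values of the symbol -/
def IsVal (u : O) : Prop := u = 0 ∨ u = 1 ∨ u = om ∨ u = om ^ 2

theorem IsVal.mul {u v : O} (hu : IsVal u) (hv : IsVal v) : IsVal (u * v) := by
  rcases hu with h | h | h | h <;> rcases hv with h' | h' | h' | h' <;> subst h <;> subst h' <;>
    (unfold IsVal; decide)

theorem IsVal.star {u : O} (hu : IsVal u) : IsVal (star u) := by
  rcases hu with h | h | h | h <;> subst h <;> (unfold IsVal; decide)

theorem isVal_one : IsVal 1 := Or.inr (Or.inl rfl)

theorem isVal_zero : IsVal 0 := Or.inl rfl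

theorem IsVal.cube {u : O} (hu : IsVal u) (h0 : u ≠ 0) : u ^ 3 = 1 := by
  rcases hu with h | h | h | h <;> subst h
  · exact absurd rfl h0
  all_goals decide

theorem isVal_symP (a π : O) : IsVal (symP a π) := by
  unfold symP
  split_ifs
  · exact Or.inl rfl
  · exact Or.inr (Or.inl rfl)
  · exact Or.inr (Or.inr (Or.inl rfl))
  · exact Or.inr (Or.inr (Or.inr rfl))

theorem symP_eq_zero {a π : O} : symP a π = 0 ↔ π ∣ a := by
  unfold symP
  split_ifs with h1 h2 h3
  · simp [h1]
  · simp [h1]
  · simp only [h1, iff_false]; decide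
  · simp only [h1, iff_false]; decide

theorem symP_lam {a : O} (h : ¬ lam ∣ a) : symP a lam = 1 := by
  unfold symP
  rw [if_neg h, N_lam]
  simp

theorem symP_congr {a π π' : O} (h : Associated π π') : symP a π = symP a π' := by
  have h1 : N π = N π' := N_eq_of_associated h
  have h2 : ∀ x, π ∣ x ↔ π' ∣ x := fun x => h.dvd_iff_dvd_left
  simp only [symP, h1, h2]

theorem not_associated_lam {π : O} (hπ : Prime π) (hl : ¬ Associated π lam) : ¬ lam ∣ π := by
  intro h
  exact hl (prime_lam.associated_of_dvd hπ h).symm

theorem N_ne_one {π : O} (hπ : Prime π) : N π ≠ 1 := fun h => hπ.not_isUnit (isUnit_iff_N.2 h)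

/-- distinct cube roots of unity are distinct modulo a prime not above 3 -/
theorem isVal_unique {π u v : O} (hπ : Prime π) (hl : ¬ lam ∣ π) (hu : IsVal u) (hv : IsVal v)
    (h : π ∣ u - v) : u = v := by
  by_contra hne
  have h1 := N_dvd_N h
  have h2 := N_mod_of_not_lam_dvd hl
  have h3 := N_ne_one hπ
  have h4 : N (u - v) = 1 ∨ N (u - v) = 3 := by
    revert hne
    rcases hu with h | h | h | h <;> rcases hv with h' | h' | h' | h' <;> subst h <;> subst h' <;>
      decide
  rcases h4 with h4 | h4
  · rw [h4] at h1
    exact h3 (Nat.dvd_one.1 h1)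
  · rw [h4] at h1
    rcases (Nat.dvd_prime Nat.prime_three).1 h1 with h5 | h5
    · exact h3 h5
    · rw [h5] at h2; omega

theorem four_le_N {π : O} (hπ : Prime π) (hl : ¬ lam ∣ π) : 4 ≤ N π := by
  have h2 := N_mod_of_not_lam_dvd hl
  have h3 := N_ne_one hπ
  have h4 := N_pos hπ.ne_zero
  omega

/-- the defining congruence of the symbol -/
theorem symP_spec {a π : O} (hπ : Prime π) (hl : ¬ lam ∣ π) :
    π ∣ a ^ ((N π - 1) / 3) - symP a π := by
  have h2 := N_mod_of_not_lam_dvd hl
  have h4 := four_le_N hπ hl
  unfold symP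
  split_ifs with h h' h''
  · rw [sub_zero]; exact dvd_pow h (by omega)
  · exact h'
  · exact h''
  · have h5 := N_pow_pred_eq_one hπ h
    have h6 : N π - 1 = (N π - 1) / 3 * 3 := by omega
    rw [h6, pow_mul] at h5
    set x := a ^ ((N π - 1) / 3) with hx
    have h7 : x ^ 3 - 1 = (x - 1) * ((x - om) * (x - om ^ 2)) := by
      have e1 : (1 : O) + om + om ^ 2 = 0 := one_add_om
      have e2 := om_cube
      linear_combination (x ^ 2 - x) * e1 + (1 - x) * e2
    rw [h7] at h5
    rcases hπ.dvd_or_dvd h5 with h8 | h8
    · exact absurd h8 h'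
    · rcases hπ.dvd_or_dvd h8 with h9 | h9
      · exact absurd h9 h''
      · exact h9

theorem symP_unique {a π u : O} (hπ : Prime π) (hl : ¬ lam ∣ π) (hu : IsVal u)
    (h : π ∣ a ^ ((N π - 1) / 3) - u) : symP a π = u := by
  apply isVal_unique hπ hl (isVal_symP a π) hu
  have h1 := symP_spec (a := a) hπ hl
  have : symP a π - u = (a ^ ((N π - 1) / 3) - u) - (a ^ ((N π - 1) / 3) - symP a π) := by ring
  rw [this]
  exact dvd_sub h h1

theorem symP_lam' {π : O} (hπ : Associated π lam) (a : O) :
    symP a π = if lam ∣ a then 0 else 1 := by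
  rw [symP_congr hπ]
  split_ifs with h
  · exact symP_eq_zero.2 h
  · exact symP_lam h

theorem symP_mul {π : O} (hπ : Prime π) (a b : O) : symP (a * b) π = symP a π * symP b π := by
  by_cases hl : Associated π lam
  · simp only [symP_lam' hl, prime_lam.dvd_mul]
    split_ifs <;> simp_all
  · have hl := not_associated_lam hπ hl
    apply symP_unique hπ hl ((isVal_symP a π).mul (isVal_symP b π))
    have h1 := symP_spec (a := a) hπ hl
    have h2 := symP_spec (a := b) hπ hl
    rw [mul_pow]
    set x := a ^ ((N π - 1) / 3)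
    set y := b ^ ((N π - 1) / 3)
    have : x * y - symP a π * symP b π = (x - symP a π) * y + symP a π * (y - symP b π) := by ring
    rw [this]
    exact dvd_add (Dvd.dvd.mul_right h1 _) (Dvd.dvd.mul_left h2 _)

theorem symP_one {π : O} (hπ : Prime π) : symP 1 π = 1 := by
  have h : ¬ π ∣ 1 := fun h => hπ.not_isUnit (isUnit_of_dvd_one h)
  unfold symP
  rw [if_neg h]
  simp

theorem symP_periodic {π : O} (hπ : Prime π) {a b : O} (h : π ∣ a - b) : symP a π = symP b π := by
  by_cases hl : Associated π lam
  · have h' : lam ∣ a - b := hl.symm.dvd.trans h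
    simp only [symP_lam' hl]
    have : lam ∣ a ↔ lam ∣ b := by
      constructor
      · intro h1; simpa using dvd_sub h1 h'
      · intro h1; simpa using dvd_add h' h1
    simp only [this]
  · have hl := not_associated_lam hπ hl
    apply symP_unique hπ hl (isVal_symP b π)
    have h1 := symP_spec (a := b) hπ hl
    have h2 : a - b ∣ a ^ ((N π - 1) / 3) - b ^ ((N π - 1) / 3) := sub_dvd_pow_sub_pow a b _
    have := dvd_add (h.trans h2) h1
    simpa using this

theorem prime_star {π : O} (hπ : Prime π) : Prime (star π) := by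
  have h1 : ∀ x : O, star π ∣ x ↔ π ∣ star x := by
    intro x
    constructor
    · rintro ⟨c, rfl⟩; rw [star_mul', star_star]; exact dvd_mul_right _ _
    · rintro ⟨c, hc⟩
      refine ⟨star c, ?_⟩
      rw [← star_mul', ← hc, star_star]
  refine ⟨by simpa using hπ.ne_zero, ?_, ?_⟩
  · rw [isUnit_iff_N, N_star, ← isUnit_iff_N]; exact hπ.not_isUnit
  · intro a b
    rw [h1, h1, h1, star_mul']
    exact hπ.dvd_or_dvd

theorem star_dvd_iff {x y : O} : star x ∣ y ↔ x ∣ star y := by
  constructor
  · rintro ⟨c, rfl⟩; rw [star_mul', star_star]; exact dvd_mul_right _ _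
  · rintro ⟨c, hc⟩
    refine ⟨star c, ?_⟩
    rw [← star_mul', ← hc, star_star]

theorem symP_star {π : O} (hπ : Prime π) (a : O) : symP (star a) (star π) = star (symP a π) := by
  by_cases hl : Associated π lam
  · have h1 : Associated (star lam) lam := by
      refine (prime_star prime_lam).associated_of_dvd prime_lam ?_
      decide
    have hl' : Associated (star π) lam := by
      refine Associated.trans ?_ h1
      obtain ⟨u, hu⟩ := hl
      refine ⟨⟨star (u : O), star ((u⁻¹ : Oˣ) : O), ?_, ?_⟩, ?_⟩
      · rw [← star_mul', Units.mul_inv, star_one]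
      · rw [← star_mul', Units.inv_mul, star_one]
      · simp only
        rw [← star_mul', hu]
    have h2 : lam ∣ star a ↔ lam ∣ a := by
      rw [← star_dvd_iff]
      exact h1.dvd_iff_dvd_left
    rw [symP_lam' hl, symP_lam' hl']
    simp only [h2]
    split_ifs <;> simp
  · have hl := not_associated_lam hπ hl
    have hl' : ¬ lam ∣ star π := by
      rw [← star_dvd_iff]
      intro h
      apply hl
      refine dvd_trans ?_ h
      decide
    apply symP_unique (prime_star hπ) hl' (isVal_symP a π).star
    rw [N_star, ← star_pow, ← star_sub, star_dvd_iff, star_star]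
    exact symP_spec hπ hl

/-! ### The general symbol -/

/-- the cubic residue symbol `(a/b)_3` for `b ≠ 0` (for the primes of `b` above `3` the symbol is
trivial); by convention `(a/0)_3` is `1` for units `a` and `0` otherwise -/
noncomputable def sym (a b : O) : O :=
  if b = 0 then (if N a = 1 then 1 else 0) else ((factors b).map (symP a)).prod

theorem prod_map_symP_rel (a : O) {s t : Multiset O} (h : Multiset.Rel Associated s t) :
    (s.map (symP a)).prod = (t.map (symP a)).prod := by
  induction h with
  | zero => rfl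
  | cons h1 _ ih => simp only [Multiset.map_cons, Multiset.prod_cons, ih, symP_congr h1]

theorem sym_zero_right (a : O) : sym a 0 = if N a = 1 then 1 else 0 := by
  rw [sym, if_pos rfl]

theorem sym_of_ne_zero {b : O} (a : O) (hb : b ≠ 0) :
    sym a b = ((factors b).map (symP a)).prod := by
  rw [sym, if_neg hb]

theorem sym_mul_right (a : O) {b c : O} (hb : b ≠ 0) (hc : c ≠ 0) :
    sym a (b * c) = sym a b * sym a c := by
  rw [sym_of_ne_zero a hb, sym_of_ne_zero a hc, sym_of_ne_zero a (mul_ne_zero hb hc),
    prod_map_symP_rel a (factors_mul hb hc), Multiset.map_add, Multiset.prod_add]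

theorem sym_unit {b : O} (a : O) (hb : IsUnit b) : sym a b = 1 := by
  have h : factors b = 0 := by
    by_contra hne
    obtain ⟨p, hp⟩ := Multiset.exists_mem_of_ne_zero hne
    exact (prime_of_factor p hp).not_isUnit (isUnit_of_dvd_unit (dvd_of_mem_factors hp) hb)
  rw [sym_of_ne_zero a hb.ne_zero, h]
  rfl

@[simp] theorem sym_one_right (a : O) : sym a 1 = 1 := sym_unit a isUnit_one

theorem sym_prime {π : O} (hπ : Prime π) (a : O) : sym a π = symP a π := by
  rw [sym_of_ne_zero a hπ.ne_zero]
  have h : Multiset.Rel Associated (factors π) {π} := by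
    apply factors_unique
    · exact fun x hx => irreducible_of_factor x hx
    · intro x hx; rw [Multiset.mem_singleton] at hx; rw [hx]; exact hπ.irreducible
    · rw [Multiset.prod_singleton]; exact factors_prod hπ.ne_zero
  rw [prod_map_symP_rel a h]
  simp

theorem sym_assoc {b c : O} (a : O) (h : Associated b c) : sym a b = sym a c := by
  by_cases hb : b = 0
  · subst hb
    rw [(associated_zero_iff_eq_zero c).1 h.symm]
  · obtain ⟨u, rfl⟩ := h
    rw [sym_mul_right a hb u.ne_zero, sym_unit a u.isUnit, mul_one]

/-- induction principle: a property of nonzero `b` which holds for units and primes and is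
multiplicative -/
theorem induction_primes {P : O → Prop} (hu : ∀ u, IsUnit u → P u) (hp : ∀ π, Prime π → P π)
    (hmul : ∀ a b, a ≠ 0 → b ≠ 0 → P a → P b → P (a * b)) : ∀ b : O, b ≠ 0 → P b := by
  intro b
  refine induction_on_prime b (fun h => absurd rfl h) (fun x hx _ => hu x hx) ?_
  intro a p ha hpr ih _
  exact hmul p a hpr.ne_zero ha (hp p hpr) (ih ha)

theorem isVal_sym (a b : O) : IsVal (sym a b) := by
  by_cases hb : b = 0
  · subst hb
    rw [sym_zero_right]
    split_ifs
    · exact isVal_one
    · exact isVal_zero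
  · revert b
    apply induction_primes
    · intro u hu; rw [sym_unit a hu]; exact isVal_one
    · intro π hπ; rw [sym_prime hπ]; exact isVal_symP a π
    · intro b c hb hc h1 h2; rw [sym_mul_right a hb hc]; exact h1.mul h2

theorem sym_eq_zero {a b : O} : sym a b = 0 ↔ ¬ IsCoprime a b := by
  by_cases hb : b = 0
  · subst hb
    rw [sym_zero_right, isCoprime_zero_right, isUnit_iff_N]
    split_ifs with h <;> simp [h]
  · revert b
    apply induction_primes
    · intro u hu
      rw [sym_unit a hu]
      have : IsCoprime a u := by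
        obtain ⟨v, rfl⟩ := hu
        exact ⟨0, ((v⁻¹ : Oˣ) : O), by simp⟩
      simp [this]
    · intro π hπ
      rw [sym_prime hπ, symP_eq_zero, isCoprime_comm, hπ.coprime_iff_not_dvd, not_not]
    · intro b c hb hc h1 h2
      rw [sym_mul_right a hb hc, mul_eq_zero, h1, h2, IsCoprime.mul_right_iff]
      tauto

theorem sym_ne_zero {a b : O} : sym a b ≠ 0 ↔ IsCoprime a b := by
  rw [Ne, sym_eq_zero, not_not]

theorem sym_mul_left (a a' b : O) : sym (a * a') b = sym a b * sym a' b := by
  by_cases hb : b = 0
  · subst hb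
    simp only [sym_zero_right, N_mul, mul_eq_one]
    split_ifs <;> simp_all
  · revert b
    apply induction_primes
    · intro u hu; simp only [sym_unit _ hu, mul_one]
    · intro π hπ; simp only [sym_prime hπ]; exact symP_mul hπ a a'
    · intro b c hb hc h1 h2
      simp only [sym_mul_right _ hb hc, h1, h2]; ring

theorem sym_one_left (b : O) : sym 1 b = 1 := by
  have h1 : sym (1 * 1) b = sym 1 b * sym 1 b := sym_mul_left 1 1 b
  have h2 : sym 1 b ≠ 0 := sym_ne_zero.2 isCoprime_one_left
  rw [mul_one] at h1
  exact (mul_left_cancel₀ h2 (by rw [mul_one]; exact h1)).symm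

theorem sym_periodic {a a' b : O} (h : b ∣ a - a') : sym a b = sym a' b := by
  by_cases hb : b = 0
  · subst hb
    rw [zero_dvd_iff, sub_eq_zero] at h
    rw [h]
  · revert b
    have : ∀ b : O, b ≠ 0 → (b ∣ a - a' → sym a b = sym a' b) := by
      apply induction_primes
      · intro u hu _; simp only [sym_unit _ hu]
      · intro π hπ h; simp only [sym_prime hπ]; exact symP_periodic hπ h
      · intro b c hb hc h1 h2 h
        simp only [sym_mul_right _ hb hc]
        rw [h1 ((dvd_mul_right b c).trans h), h2 ((dvd_mul_left c b).trans h)]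
    exact fun {b} h hb => this b hb h

theorem sym_pow_left (a b : O) (n : ℕ) : sym (a ^ n) b = sym a b ^ n := by
  induction n with
  | zero => simp [sym_one_left]
  | succ n ih => rw [pow_succ, pow_succ, sym_mul_left, ih]

theorem sym_pow_right (a : O) {b : O} (hb : b ≠ 0) (n : ℕ) : sym a (b ^ n) = sym a b ^ n := by
  induction n with
  | zero => simp
  | succ n ih => rw [pow_succ, pow_succ, sym_mul_right _ (pow_ne_zero n hb) hb, ih]

theorem sym_cube {a b : O} (h : IsCoprime a b) : sym a b ^ 3 = 1 :=
  (isVal_sym a b).cube (sym_ne_zero.2 h)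

theorem sym_star (a b : O) : sym (star a) (star b) = star (sym a b) := by
  by_cases hb : b = 0
  · subst hb
    rw [star_zero]
    simp only [sym_zero_right, N_star]
    split_ifs <;> simp
  · revert b
    apply induction_primes
    · intro u hu
      have : IsUnit (star u) := by rwa [isUnit_iff_N, N_star, ← isUnit_iff_N]
      simp only [sym_unit _ hu, sym_unit _ this, star_one]
    · intro π hπ; simp only [sym_prime hπ, sym_prime (prime_star hπ)]; exact symP_star hπ a
    · intro b c hb hc h1 h2
      rw [star_mul', sym_mul_right _ (by simpa using hb) (by simpa using hc), h1, h2,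
        sym_mul_right _ hb hc, star_mul']

/-- the symbol of two coprime self-conjugate elements (e.g. rational integers) is 1 -/
theorem sym_eq_one_of_star {a b : O} (ha : star a = a) (hb : Associated (star b) b)
    (h : IsCoprime a b) : sym a b = 1 := by
  have h1 := sym_star a b
  rw [ha, sym_assoc a hb] at h1
  rcases isVal_sym a b with h2 | h2 | h2 | h2
  · exact absurd h (sym_eq_zero.1 h2)
  · exact h2
  · rw [h2] at h1; exact absurd h1 (by decide)
  · rw [h2] at h1; exact absurd h1 (by decide)

theorem star_intCast (n : ℤ) : star (n : O) = n := by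
  ext <;> simp

theorem sym_int {m n : ℤ} (h : IsCoprime m n) : sym (m : O) (n : O) = 1 := by
  apply sym_eq_one_of_star (star_intCast m)
  · rw [star_intCast]
  · exact h.map (Int.castRingHom O)

theorem sym_neg_one (b : O) : sym (-1) b = 1 := by
  have h1 : IsCoprime (-1 : O) b := isCoprime_one_left.neg_left
  have h2 := sym_cube h1
  rw [← sym_pow_left] at h2
  have h3 : (-1 : O) ^ 3 = -1 := by ring
  rwa [h3] at h2

theorem sym_neg_left (a b : O) : sym (-a) b = sym a b := by
  rw [← neg_one_mul, sym_mul_left, sym_neg_one, one_mul]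

theorem sym_neg_right (a b : O) : sym a (-b) = sym a b :=
  sym_assoc a (Associated.neg_left (Associated.refl b))

/-! ### The complex-valued symbol -/

theorem isUnit_rs_iff {a b : O} : IsUnit (rs b a) ↔ IsCoprime a b := by
  constructor
  · intro h
    obtain ⟨y, hy⟩ := h.exists_right_inv
    obtain ⟨y, rfl⟩ := rs_surj b y
    rw [← map_mul, ← map_one (rs b), rs_eq] at hy
    obtain ⟨t, ht⟩ := hy
    exact ⟨y, -t, by linear_combination ht⟩
  · rintro ⟨u, v, h⟩
    rw [isUnit_iff_exists_inv]
    refine ⟨rs b u, ?_⟩
    rw [← map_mul, ← map_one (rs b), rs_eq]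
    exact ⟨-v, by linear_combination h⟩

/-- the cubic residue symbol modulo `b` as a complex-valued multiplicative character of `O/(b)` -/
noncomputable def chi (b : O) : MulChar (Rs b) ℂ where
  toFun := fun x => Quotient.liftOn' x (fun a => toC (sym a b)) (by
    intro a a' h
    have h1 : b ∣ a - a' := by
      have := QuotientAddGroup.leftRel_apply.1 h
      rw [← Ideal.mem_span_singleton]
      have h2 : a - a' = -(-a + a') := by ring
      rw [h2]; exact neg_mem this
    rw [sym_periodic h1])
  map_one' := by
    show toC (sym 1 b) = 1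
    rw [sym_one_left, map_one]
  map_mul' := by
    intro x y
    obtain ⟨x, rfl⟩ := rs_surj b x
    obtain ⟨y, rfl⟩ := rs_surj b y
    show toC (sym (x * y) b) = toC (sym x b) * toC (sym y b)
    rw [sym_mul_left, map_mul]
  map_nonunit' := by
    intro x hx
    obtain ⟨x, rfl⟩ := rs_surj b x
    rw [isUnit_rs_iff] at hx
    show toC (sym x b) = 0
    rw [sym_eq_zero.2 hx, map_zero]

theorem chi_rs (b a : O) : chi b (rs b a) = toC (sym a b) := rfl

theorem norm_toC_isVal {u : O} (hu : IsVal u) (h0 : u ≠ 0) : ‖toC u‖ = 1 := by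
  have h1 := hu.cube h0
  have h2 : ‖toC u‖ ^ 3 = 1 := by rw [← norm_pow, ← map_pow, h1, map_one, norm_one]
  exact (pow_eq_one_iff_of_nonneg (norm_nonneg _) (by norm_num)).1 h2

theorem norm_sym {a b : O} (h : IsCoprime a b) : ‖toC (sym a b)‖ = 1 :=
  norm_toC_isVal (isVal_sym a b) (sym_ne_zero.2 h)

theorem norm_sym_le (a b : O) : ‖toC (sym a b)‖ ≤ 1 := by
  by_cases h : IsCoprime a b
  · exact (norm_sym h).le
  · rw [sym_eq_zero.2 h, map_zero, norm_zero]; exact zero_le_one

theorem chi_cube {b : O} {x : Rs b} (hx : IsUnit x) : chi b x ^ 3 = 1 := by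
  obtain ⟨a, rfl⟩ := rs_surj b x
  rw [isUnit_rs_iff] at hx
  rw [chi_rs, ← map_pow, sym_cube hx, map_one]

/-- conjugation = squaring for values of the symbol -/
theorem star_isVal {u : O} (hu : IsVal u) : star u = u ^ 2 := by
  rcases hu with h | h | h | h <;> subst h <;> decide

theorem conj_sym (a b : O) : (starRingEnd ℂ) (toC (sym a b)) = toC (sym a b) ^ 2 := by
  rw [← toC_star, star_isVal (isVal_sym a b), map_pow]

theorem conj_sym' (a b : O) : (starRingEnd ℂ) (toC (sym a b)) = toC (sym (star a) (star b)) := by
  rw [← toC_star, sym_star]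

end Vale.Agent.P006
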