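import Vale.Agent.P006.CR.Symbol
import Mathlib.NumberTheory.JacobiSum.Basic
import Mathlib.NumberTheory.GaussSum
import Mathlib.RingTheory.IntegralDomain

/-!
P006, block CR: cubic reciprocity `sym a b = sym b a` for primary `a, b` and the supplementary laws.
-/

namespace Vale.Agent.P006

/-- the cubic residue symbol modulo `b` as an `O`-valued multiplicative character of `O/(b)` -/
noncomputable def chiO (b : O) : MulChar (Rs b) O where
  toFun := fun x => Quotient.liftOn' x (fun a => sym a b) (by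
    intro a a' h
    have h1 : b ∣ a - a' := by
      have := QuotientAddGroup.leftRel_apply.1 h
      rw [← Ideal.mem_span_singleton]
      have h2 : a - a' = -(-a + a') := by ring
      rw [h2]; exact neg_mem this
    rw [sym_periodic h1])
  map_one' := sym_one_left b
  map_mul' := by
    intro x y
    obtain ⟨x, rfl⟩ := rs_surj b x
    obtain ⟨y, rfl⟩ := rs_surj b y
    exact sym_mul_left x y b
  map_nonunit' := by
    intro x hx
    obtain ⟨x, rfl⟩ := rs_surj b x
    rw [isUnit_rs_iff] at hx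
    exact sym_eq_zero.2 hx

theorem chiO_rs (b a : O) : chiO b (rs b a) = sym a b := rfl

theorem chi_eq (b : O) : chi b = (chiO b).ringHomComp toC := by
  apply MulChar.ext'
  intro x
  obtain ⟨x, rfl⟩ := rs_surj b x
  rfl

theorem chiO_cube (b : O) : chiO b ^ 3 = 1 := by
  apply MulChar.ext
  intro u
  obtain ⟨x, hx⟩ := rs_surj b u
  have hu : IsUnit (rs b x) := by rw [hx]; exact u.isUnit
  rw [isUnit_rs_iff] at hu
  rw [MulChar.pow_apply_coe, ← hx, chiO_rs, sym_cube hu, hx, MulChar.one_apply_coe]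

theorem isPrimitiveRoot_om : IsPrimitiveRoot om 3 := by
  rw [← orderOf_eq_prime (p := 3) om_cube (by decide)]
  exact IsPrimitiveRoot.orderOf om

section field

variable {π : O}

theorem rs_chiO [Fact (Prime π)] (hl : ¬ lam ∣ π) (x : Rs π) :
    rs π (chiO π x) = x ^ ((N π - 1) / 3) := by
  have hπ : Prime π := Fact.out
  obtain ⟨a, rfl⟩ := rs_surj π x
  rw [chiO_rs, sym_prime hπ, ← map_pow, eq_comm, rs_eq]
  exact symP_spec hπ hl

/-- the cubic residue character modulo a prime not above 3 is nontrivial -/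
theorem exists_sym_ne_one (hπ : Prime π) (hl : ¬ lam ∣ π) :
    ∃ a : O, IsCoprime a π ∧ sym a π ≠ 1 := by
  classical
  have : Fact (Prime π) := ⟨hπ⟩
  by_contra hcon
  push Not at hcon
  obtain ⟨g, hg⟩ := IsCyclic.exists_generator (α := (Rs π)ˣ)
  have hord : orderOf g = N π - 1 := by
    rw [orderOf_eq_card_of_forall_mem_zpowers hg, Nat.card_eq_fintype_card,
      Fintype.card_units, fcard_Rs]
  have h4 := four_le_N hπ hl
  obtain ⟨a, ha⟩ := rs_surj π (g : Rs π)
  have hco : IsCoprime a π := by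
    rw [← isUnit_rs_iff, ha]; exact g.isUnit
  have h1 := hcon a hco
  have h2 := rs_chiO hl (rs π a)
  rw [chiO_rs, h1, map_one, ha] at h2
  have h3 : g ^ ((N π - 1) / 3) = 1 := by
    apply Units.ext
    rw [Units.val_pow_eq_pow_val, ← h2, Units.val_one]
  have h5 := orderOf_dvd_of_pow_eq_one h3
  rw [hord] at h5
  have h6 := Nat.le_of_dvd (by omega) h5
  omega

theorem chiO_comp_ne_one {R : Type*} [CommRing R] [IsDomain R] (hπ : Prime π) (hl : ¬ lam ∣ π)
    (f : O →+* R) (hf : f lam ≠ 0) : (chiO π).ringHomComp f ≠ 1 := by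
  obtain ⟨a, ha, hne⟩ := exists_sym_ne_one hπ hl
  intro h
  have hu := isUnit_rs_iff.2 ha
  have h1 : (chiO π).ringHomComp f (rs π a) = 1 := by
    rw [h, MulChar.one_apply hu]
  rw [MulChar.ringHomComp_apply, chiO_rs] at h1
  have h2 : f om ≠ 1 := by
    intro h2
    apply hf
    have : lam = 1 - om := by decide
    rw [this, map_sub, map_one, h2, sub_self]
  rcases isVal_sym a π with h3 | h3 | h3 | h3
  · exact sym_ne_zero.2 ha h3
  · exact hne h3
  · rw [h3] at h1; exact h2 h1
  · rw [h3] at h1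
    apply h2
    have h4 : om = om ^ 2 * om ^ 2 := by decide
    rw [h4, map_mul, h1, one_mul]

theorem orderOf_chiO_comp {R : Type*} [CommRing R] [IsDomain R] (hπ : Prime π) (hl : ¬ lam ∣ π)
    (f : O →+* R) (hf : f lam ≠ 0) : orderOf ((chiO π).ringHomComp f) = 3 := by
  have h3 : (chiO π).ringHomComp f ^ 3 = 1 := by
    rw [MulChar.ringHomComp_pow, chiO_cube, MulChar.ringHomComp_one]
  exact orderOf_eq_prime h3 (chiO_comp_ne_one hπ hl f hf)

theorem sum_pow_mul_one_sub_pow {K : Type*} [Field K] [Fintype K] (m : ℕ)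
    (hm : 2 * m < Fintype.card K - 1) : ∑ x : K, x ^ m * (1 - x) ^ m = 0 := by
  have h1 : ∀ x : K, x ^ m * (1 - x) ^ m
      = ∑ k ∈ Finset.range (m + 1), ((-1) ^ k * (m.choose k : K)) * x ^ (m + k) := by
    intro x
    rw [show (1 : K) - x = -x + 1 by ring, add_pow, Finset.mul_sum]
    refine Finset.sum_congr rfl fun k _ => ?_
    rw [neg_pow, one_pow, pow_add]; ring
  simp only [h1]
  rw [Finset.sum_comm]
  refine Finset.sum_eq_zero fun k hk => ?_
  rw [← Finset.mul_sum, FiniteField.sum_pow_lt_card_sub_one, mul_zero]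
  have := Finset.mem_range.1 hk
  omega

/-- the Jacobi sum of the cubic character: `J(χ_π, χ_π) = -π` for a primary prime `π` -/
theorem jacobiSum_chiO [Fact (Prime π)] (hp : Primary π) :
    jacobiSum (chiO π) (chiO π) = -π := by
  have hπ : Prime π := Fact.out
  have hl := hp.not_lam_dvd
  have h4 := four_le_N hπ hl
  have hmod := hp.N_mod
  set J := jacobiSum (chiO π) (chiO π) with hJ
  -- (a) `π ∣ J`
  have ha : π ∣ J := by
    rw [← rs_eq_zero, hJ, jacobiSum, map_sum]
    have : ∀ x : Rs π, rs π (chiO π x * chiO π (1 - x))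
        = x ^ ((N π - 1) / 3) * (1 - x) ^ ((N π - 1) / 3) := by
      intro x; rw [map_mul, rs_chiO hl, rs_chiO hl]
    simp only [this]
    apply sum_pow_mul_one_sub_pow
    rw [fcard_Rs]; omega
  -- (b) `-J` is primary
  have hb : Primary (-J) := by
    obtain ⟨z, -, hz⟩ := exists_jacobiSum_eq_neg_one_add (F := Rs π) (R := O) (n := 3)
      (by norm_num) (chiO_cube π) (chiO_cube π) (by rw [fcard_Rs]; omega) isPrimitiveRoot_om
    rw [← hJ] at hz
    have h1 : (om - 1) ^ 2 = 3 * (-om) := by decide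
    rw [h1] at hz
    refine ⟨z * om, ?_⟩
    rw [hz]; ring
  -- (c) `N J = N π`
  have hc : N J = N π := by
    have hf : toC lam ≠ 0 := by simpa using prime_lam.ne_zero
    have hne := chiO_comp_ne_one hπ hl toC hf
    have hcube : (chiO π).ringHomComp toC ^ 3 = 1 := by
      rw [MulChar.ringHomComp_pow, chiO_cube, MulChar.ringHomComp_one]
    have hne2 : (chiO π).ringHomComp toC * (chiO π).ringHomComp toC ≠ 1 := by
      intro h
      apply hne
      have : (chiO π).ringHomComp toC ^ 3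
        = ((chiO π).ringHomComp toC * (chiO π).ringHomComp toC) * (chiO π).ringHomComp toC := by
        rw [pow_succ, sq]
      rw [h, one_mul, hcube] at this
      exact this.symm
    have hch : ringChar ℂ ≠ ringChar (Rs π) := by
      have h0 : ringChar ℂ = 0 := ringChar.eq_zero
      rw [h0]
      exact (CharP.ringChar_ne_zero_of_finite (Rs π)).symm
    have h1 := jacobiSum_mul_jacobiSum_inv hch hne hne hne2
    have h2 : jacobiSum ((chiO π).ringHomComp toC)⁻¹ ((chiO π).ringHomComp toC)⁻¹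
        = (starRingEnd ℂ) (jacobiSum ((chiO π).ringHomComp toC) ((chiO π).ringHomComp toC)) := by
      rw [jacobiSum, jacobiSum, map_sum]
      refine Finset.sum_congr rfl fun x _ => ?_
      rw [map_mul, ← MulChar.star_apply', ← MulChar.star_apply']
      rfl
    rw [h2, jacobiSum_ringHomComp, ← hJ, Complex.mul_conj, fcard_Rs, ← N_cast_real] at h1
    exact_mod_cast h1
  obtain ⟨c, hc'⟩ := ha
  have hcu : IsUnit c := by
    rw [isUnit_iff_N]
    rw [hc', N_mul] at hc
    exact Nat.eq_of_mul_eq_mul_left (N_pos hπ.ne_zero) (by rw [hc, mul_one])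
  have hcp : Primary (-c) := by
    apply hp.of_mul
    rw [mul_neg, ← hc']; exact hb
  have := hcp.eq_one hcu.neg
  rw [hc', show c = -(-c) by ring, this]; ring

/-- the cube of the cubic Gauss sum: `g³ = -N(π) π`, in any domain -/
theorem gaussSum_cube [Fact (Prime π)] (hp : Primary π) {R : Type*} [CommRing R] [IsDomain R]
    (f : O →+* R) (hf : f lam ≠ 0) {ψ : AddChar (Rs π) R} (hψ : ψ.IsPrimitive) :
    gaussSum ((chiO π).ringHomComp f) ψ ^ 3 = f (-(N π : O) * π) := by
  have hπ : Prime π := Fact.out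
  have hl := hp.not_lam_dvd
  have ho := orderOf_chiO_comp hπ hl f hf
  have h := gaussSum_pow_eq_prod_jacobiSum (χ := (chiO π).ringHomComp f) (ψ := ψ)
    (by rw [ho]; norm_num) hψ
  rw [ho] at h
  rw [h]
  have h1 : (chiO π).ringHomComp f (-1) = 1 := by
    rw [MulChar.ringHomComp_apply]
    have : (-1 : Rs π) = rs π (-1) := by rw [map_neg, map_one]
    rw [this, chiO_rs, sym_neg_one, map_one]
  have h2 : Finset.Ico 1 (3 - 1) = {1} := by decide
  rw [h1, h2, Finset.prod_singleton, pow_one, jacobiSum_ringHomComp, jacobiSum_chiO hp, fcard_Rs]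
  rw [map_mul, map_neg, map_neg, map_natCast]; ring

end field

theorem gaussSum_frob_iter' {R : Type*} [CommRing R] [Fintype R] {R' : Type*} [CommRing R']
    (p : ℕ) [Fact p.Prime] [CharP R' p] (χ : MulChar R R') (ψ : AddChar R R') (n : ℕ) :
    gaussSum χ ψ ^ p ^ n = gaussSum (χ ^ p ^ n) (ψ ^ p ^ n) := by
  induction n with
  | zero => simp
  | succ n ih => rw [pow_succ, pow_mul, ih, gaussSum_frob, ← pow_mul, ← pow_mul]

theorem not_dvd_N_symm {π ρ : O} (hπ : Prime π) (hρ : Prime ρ) (h : ¬ ρ ∣ (N π : O)) :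
    ¬ π ∣ (N ρ : O) := by
  intro h1
  apply h
  rw [N_mul_star] at h1 ⊢
  rcases hπ.dvd_or_dvd h1 with h2 | h2
  · exact ((hπ.associated_of_dvd hρ h2).symm.dvd).trans (dvd_mul_right _ _)
  · have h3 := (hπ.associated_of_dvd (prime_star hρ) h2).symm.dvd
    rw [star_dvd_iff] at h3
    exact h3.trans (dvd_mul_left _ _)

/-- the fundamental relation between `χ_π` and `χ_ρ` -/
theorem star_relation {π ρ : O} (hπ : Prime π) (hρ : Prime ρ) (hpπ : Primary π) (hpρ : Primary ρ)
    (h : ¬ ρ ∣ (N π : O)) : sym (N ρ : O) π * sym (-(N π : O) * π) ρ = 1 := by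
  classical
  have : Fact (Prime π) := ⟨hπ⟩
  have : Fact (Prime ρ) := ⟨hρ⟩
  have hlρ := hpρ.not_lam_dvd
  have hlπ := hpπ.not_lam_dvd
  -- characteristics
  have hcharp : (ringChar (Rs π) : Rs π) = 0 := ringChar.Nat.cast_ringChar
  have hch : ringChar (Rs ρ) ≠ ringChar (Rs π) := by
    intro he
    apply h
    have h1 : ringChar (Rs π) ∣ N π := by
      rw [← ringChar.spec, ← fcard_Rs]; exact FiniteField.cast_card_eq_zero (Rs π)
    rw [← rs_eq_zero, map_natCast]
    rw [← he] at h1
    exact (ringChar.spec (Rs ρ) _).2 h1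
  obtain ⟨n, hlp, hcard⟩ := FiniteField.card (Rs ρ) (ringChar (Rs ρ))
  rw [fcard_Rs] at hcard
  set ℓ := ringChar (Rs ρ) with hℓ
  have hfact : Fact ℓ.Prime := ⟨hlp⟩
  let pc := AddChar.FiniteField.primitiveChar (Rs π) (Rs ρ) hch
  let R := CyclotomicField pc.n (Rs ρ)
  have hcharR : CharP R ℓ := by
    have : CharP (Rs ρ) ℓ := ringChar.charP (Rs ρ)
    exact charP_of_injective_algebraMap (algebraMap (Rs ρ) R).injective ℓ
  let f : O →+* R := (algebraMap (Rs ρ) R).comp (rs ρ)
  have hf : ∀ x, f x = 0 ↔ ρ ∣ x := by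
    intro x
    show algebraMap (Rs ρ) R (rs ρ x) = 0 ↔ ρ ∣ x
    rw [map_eq_zero, rs_eq_zero]
  have hflam : f lam ≠ 0 := by
    rw [Ne, hf]
    intro h1
    exact hlρ (hρ.associated_of_dvd prime_lam h1).symm.dvd
  set χ := (chiO π).ringHomComp f with hχ
  have hcube := gaussSum_cube (π := π) hpπ f hflam pc.prim
  rw [← hχ] at hcube
  set g := gaussSum χ pc.char with hg
  have hg0 : g ≠ 0 := by
    intro h0
    rw [h0] at hcube
    have h1 : f (-(N π : O) * π) = 0 := by rw [← hcube]; ring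
    rw [hf] at h1
    rcases hρ.dvd_or_dvd h1 with h2 | h2
    · rw [dvd_neg] at h2; exact h h2
    · apply h
      rw [N_mul_star]
      exact h2.trans (dvd_mul_right _ _)
  have hmodρ := hpρ.N_mod
  have h4 := four_le_N hρ hlρ
  -- Frobenius
  have hfrob : g ^ (N ρ) = gaussSum (χ ^ (N ρ)) (pc.char ^ (N ρ)) := by
    rw [hcard]; exact gaussSum_frob_iter' ℓ χ pc.char n
  have hχ3 : χ ^ 3 = 1 := by
    rw [hχ, MulChar.ringHomComp_pow, chiO_cube, MulChar.ringHomComp_one]
  have hχN : χ ^ (N ρ) = χ := by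
    have h5 : N ρ = 3 * (N ρ / 3) + 1 := by omega
    rw [h5, pow_succ, pow_mul, hχ3, one_pow, one_mul]
  have hunit : IsUnit (rs π (N ρ : O)) := by
    rw [isUnit_rs_iff, isCoprime_comm, hπ.coprime_iff_not_dvd]
    exact not_dvd_N_symm hπ hρ h
  rw [hχN, AddChar.pow_mulShift] at hfrob
  have hms := gaussSum_mulShift χ pc.char hunit.unit
  rw [IsUnit.unit_spec, map_natCast, ← hfrob, ← hg] at hms
  have hχv : χ ((N ρ : ℕ) : Rs π) = f (sym (N ρ : O) π) := by
    rw [hχ, MulChar.ringHomComp_apply, ← map_natCast (rs π), chiO_rs]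
  rw [hχv] at hms
  -- `f (sym (N ρ) π) * g ^ (N ρ) = g`
  have h6 : f (sym (N ρ : O) π) * g ^ (N ρ - 1) = 1 := by
    apply mul_right_cancel₀ hg0
    rw [one_mul, mul_assoc, ← pow_succ, show N ρ - 1 + 1 = N ρ by omega]
    exact hms
  have h7 : g ^ (N ρ - 1) = f (sym (-(N π : O) * π) ρ) := by
    have h8 : N ρ - 1 = 3 * ((N ρ - 1) / 3) := by omega
    rw [h8, pow_mul, hcube, ← map_pow]
    show algebraMap (Rs ρ) R (rs ρ _) = algebraMap (Rs ρ) R (rs ρ _)
    congr 1
    rw [rs_eq, sym_prime hρ]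
    exact symP_spec hρ hlρ
  rw [h7, ← map_mul, ← map_one f] at h6
  have h9 : ρ ∣ sym (N ρ : O) π * sym (-(N π : O) * π) ρ - 1 := by
    rw [← hf, map_sub, h6, sub_self]
  exact isVal_unique hρ hlρ ((isVal_sym _ _).mul (isVal_sym _ _)) isVal_one h9

theorem recip_of_not_dvd {π ρ : O} (hπ : Prime π) (hρ : Prime ρ) (hpπ : Primary π)
    (hpρ : Primary ρ) (h : ¬ ρ ∣ (N π : O)) : sym π ρ = sym ρ π := by
  have h' := not_dvd_N_symm hπ hρ h
  have h1 := star_relation hπ hρ hpπ hpρ h
  have h2 := star_relation hρ hπ hpρ hpπ h'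
  rw [N_mul_star, N_mul_star, neg_mul, sym_neg_left, sym_mul_left, sym_mul_left, sym_mul_left]
    at h1 h2
  set A := sym ρ π
  set B := sym (star ρ) π
  set C := sym π ρ
  set D := sym (star π) ρ
  have hA : A ≠ 0 := by intro h0; rw [h0] at h1; simp at h1
  have hB : B ≠ 0 := by intro h0; rw [h0] at h1; simp at h1
  have hC : C ≠ 0 := by intro h0; rw [h0] at h1; simp at h1
  have hD : D ≠ 0 := by intro h0; rw [h0] at h1; simp at h1
  apply mul_left_cancel₀ (mul_ne_zero (mul_ne_zero hA hB) (mul_ne_zero hC hD))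
  linear_combination h1 - h2

theorem recip_of_coprime_N {π b : O} (hπ : Prime π) (hpπ : Primary π) (hb : Primary b)
    (h : IsCoprime b (N π : O)) : sym π b = sym b π := by
  revert h
  revert hb
  revert b
  have : ∀ b : O, Primary b → (IsCoprime b (N π : O) → sym π b = sym b π) := by
    apply Primary.induction
    · intro _; rw [sym_one_left, sym_one_right]
    · intro ρ b hρ hpρ hb ih h
      rw [IsCoprime.mul_left_iff] at h
      rw [sym_mul_left, sym_mul_right _ hρ.ne_zero hb.ne_zero, ih h.2,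
        recip_of_not_dvd hπ hρ hpπ hpρ (hρ.coprime_iff_not_dvd.1 h.1)]
  exact fun {b} hb h => this b hb h

theorem Primary.eq_of_associated {a b : O} (ha : Primary a) (hb : Primary b)
    (h : Associated a b) : a = b := by
  obtain ⟨u, hu⟩ := h
  have h1 : Primary (u : O) := ha.of_mul (by rw [hu]; exact hb)
  rw [← hu, h1.eq_one u.isUnit, mul_one]

/-- reciprocity for a prime and its conjugate -/
theorem recip_star {π : O} (hπ : Prime π) (hpπ : Primary π) (hne : ¬ π ∣ star π) :
    sym π (star π) = 1 := by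
  -- `t = π + star π` is a rational integer, `-t` is primary
  set t : O := π + star π with ht
  have hst : star t = t := by rw [ht, star_add, star_star, add_comm]
  have hp : Primary (-t) := by
    have h1 := hpπ
    have h2 := hpπ.star
    obtain ⟨x, hx⟩ := h1
    obtain ⟨y, hy⟩ := h2
    exact ⟨-(x + y + 1), by rw [ht]; linear_combination -hx - hy⟩
  have hcop : IsCoprime π (star π) := (hπ.coprime_iff_not_dvd).2 hne
  have hcopt : IsCoprime t π := by
    rw [ht]
    obtain ⟨u, v, huv⟩ := hcop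
    exact ⟨v, u - v, by linear_combination huv⟩
  have hcopt' : IsCoprime t (star π) := by
    rw [ht]
    obtain ⟨u, v, huv⟩ := hcop
    exact ⟨u, v - u, by linear_combination huv⟩
  have hcopN : IsCoprime (-t) (N π : O) := by
    rw [N_mul_star]
    exact (hcopt.mul_right hcopt').neg_left
  have h1 := recip_of_coprime_N hπ hpπ hp hcopN
  rw [sym_neg_left, sym_neg_right] at h1
  -- `sym π t` is invariant under conjugation
  have h2 : star (sym π t) = sym π t := by
    rw [← sym_star, hst, ← sym_neg_left]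
    apply sym_periodic
    exact ⟨-1, by rw [ht]; ring⟩
  have h3 : sym π t = 1 := by
    have h5 : sym π t ≠ 0 := sym_ne_zero.2 hcopt.symm
    rcases isVal_sym π t with h4 | h4 | h4 | h4
    · exact absurd h4 h5
    · exact h4
    · rw [h4] at h2; exact absurd h2 (by decide)
    · rw [h4] at h2; exact absurd h2 (by decide)
  have h4 : sym t π = 1 := by rw [← h1, h3]
  have h5 : sym π (star π) = sym t (star π) := by
    apply sym_periodic
    exact ⟨-1, by rw [ht]; ring⟩
  rw [h5]
  have h6 := sym_star t π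
  rw [hst, h4, star_one] at h6
  exact h6

theorem recip_prime {π ρ : O} (hπ : Prime π) (hρ : Prime ρ) (hpπ : Primary π)
    (hpρ : Primary ρ) : sym π ρ = sym ρ π := by
  by_cases h : ρ ∣ (N π : O)
  · rw [N_mul_star] at h
    rcases hρ.dvd_or_dvd h with h1 | h1
    · rw [hpρ.eq_of_associated hpπ (hρ.associated_of_dvd hπ h1)]
    · have h2 : ρ = star π :=
        hpρ.eq_of_associated hpπ.star (hρ.associated_of_dvd (prime_star hπ) h1)
      subst h2
      by_cases h3 : π ∣ star π
      · have : π = star π :=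
          hpπ.eq_of_associated hpπ.star (hπ.associated_of_dvd (prime_star hπ) h3)
        rw [← this]
      · have h4 : ¬ star π ∣ star (star π) := by
          rw [star_star, star_dvd_iff]; exact h3
        rw [recip_star hπ hpπ h3]
        have h5 := recip_star (prime_star hπ) hpπ.star h4
        rw [star_star] at h5
        exact h5.symm
  · exact recip_of_not_dvd hπ hρ hpπ hpρ h

/-- **Cubic reciprocity**: `(a/b)_3 = (b/a)_3` for primary `a, b`. -/
theorem recip {a b : O} (ha : Primary a) (hb : Primary b) : sym a b = sym b a := by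
  revert a
  have h1 : ∀ a : O, Primary a → ∀ ρ : O, Prime ρ → Primary ρ → sym a ρ = sym ρ a := by
    intro a ha
    refine Primary.induction (P := fun a => ∀ ρ : O, Prime ρ → Primary ρ → sym a ρ = sym ρ a)
      ?_ ?_ a ha
    · intro ρ _ _; rw [sym_one_left, sym_one_right]
    · intro π a hπ hpπ ha ih ρ hρ hpρ
      rw [sym_mul_left, sym_mul_right _ hπ.ne_zero ha.ne_zero, ih ρ hρ hpρ,
        recip_prime hπ hρ hpπ hpρ]
  intro a ha
  revert ha
  revert a
  refine Primary.induction (P := fun b => ∀ {a : O}, Primary a → sym a b = sym b a) ?_ ?_ b hb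
  · intro a _; rw [sym_one_left, sym_one_right]
  · intro ρ b hρ hpρ hb ih a ha
    rw [sym_mul_left, sym_mul_right _ hρ.ne_zero hb.ne_zero, ih ha, h1 a ha ρ hρ hpρ]

/-! ### The supplementary laws -/

theorem pow_om_congr {m n : ℕ} (h : m % 3 = n % 3) : om ^ m = om ^ n := by
  rw [← Nat.div_add_mod m 3, ← Nat.div_add_mod n 3, pow_add, pow_add, pow_mul, pow_mul, om_cube,
    one_pow, one_pow, h]

/-- `(ω/b)_3 = ω^((N b - 1)/3)` for `b` prime to 3 -/
theorem sym_om {b : O} (hb : ¬ lam ∣ b) : sym om b = om ^ ((N b - 1) / 3) := by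
  have hb0 : b ≠ 0 := by rintro rfl; exact hb (dvd_zero _)
  revert hb
  revert b
  have : ∀ b : O, b ≠ 0 → (¬ lam ∣ b → sym om b = om ^ ((N b - 1) / 3)) := by
    apply induction_primes
    · intro u hu _
      rw [sym_unit _ hu, isUnit_iff_N.1 hu]
      simp
    · intro π hπ hl
      rw [sym_prime hπ]
      apply symP_unique hπ hl
      · have h1 : (N π - 1) / 3 % 3 < 3 := Nat.mod_lt _ (by norm_num)
        rw [pow_om_congr (n := (N π - 1) / 3 % 3) (by rw [Nat.mod_mod])]
        interval_cases h : (N π - 1) / 3 % 3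
        · exact isVal_one
        · right; right; left; ring
        · right; right; right; rfl
      · rw [sub_self]; exact dvd_zero _
    · intro b c hb hc h1 h2 hl
      rw [prime_lam.dvd_mul, not_or] at hl
      rw [sym_mul_right _ hb hc, h1 hl.1, h2 hl.2, ← pow_add]
      apply pow_om_congr
      have e1 := N_mod_of_not_lam_dvd hl.1
      have e2 := N_mod_of_not_lam_dvd hl.2
      rw [N_mul]
      obtain ⟨x, hx⟩ : ∃ x, N b = 3 * x + 1 := ⟨N b / 3, by omega⟩
      obtain ⟨y, hy⟩ : ∃ y, N c = 3 * y + 1 := ⟨N c / 3, by omega⟩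
      rw [hx, hy]
      have e3 : (3 * x + 1) * (3 * y + 1) - 1 = 3 * (3 * (x * y) + x + y) := by
        have : (3 * x + 1) * (3 * y + 1) = 3 * (3 * (x * y) + x + y) + 1 := by ring
        omega
      rw [e3]
      have e4 : (3 * x + 1 - 1) / 3 = x := by omega
      have e5 : (3 * y + 1 - 1) / 3 = y := by omega
      rw [e4, e5]
      omega
  exact fun {b} hb0 hb => this b hb0 hb

/-- `ω` as a unit of `O` -/
def omU : Oˣ := ⟨om, om ^ 2, by decide, by decide⟩

@[simp] theorem omU_val : (omU : O) = om := rfl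

theorem omU_cube : omU ^ 3 = 1 := by
  apply Units.ext
  rw [Units.val_pow_eq_pow_val, omU_val, om_cube, Units.val_one]

theorem omU_zpow_congr {m n : ℤ} (h : m % 3 = n % 3) : omU ^ m = omU ^ n := by
  rw [← Int.mul_ediv_add_emod m 3, ← Int.mul_ediv_add_emod n 3, zpow_add, zpow_add, zpow_mul,
    zpow_mul]
  have h3 : omU ^ (3 : ℤ) = 1 := by exact_mod_cast omU_cube
  rw [h3, one_zpow, one_zpow, h]

theorem omU_natPow (k : ℕ) : om ^ k = ((omU ^ (k : ℤ) : Oˣ) : O) := by
  rw [zpow_natCast, Units.val_pow_eq_pow_val, omU_val]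

/-- `(ω/b)_3 = ω^(-(m+n))` for `b = 1 + 3 (m + n ω)` -/
theorem sym_om' {b : O} {m n : ℤ} (h1 : b.re = 1 + 3 * m) (h2 : b.im = 3 * n) :
    sym om b = ((omU ^ (-(m + n)) : Oˣ) : O) := by
  have hb : Primary b := by
    rw [primary_iff, h1, h2]
    exact ⟨⟨m, by ring⟩, ⟨n, rfl⟩⟩
  rw [sym_om hb.not_lam_dvd, omU_natPow]
  congr 1
  apply omU_zpow_congr
  have h3 := N_cast_int' b
  have h4 := hb.N_mod
  rw [h1, h2] at h3
  have h5 : (N b : ℤ) = 9 * (m * m - m * n + n * n) + 3 * (2 * m - n) + 1 := by rw [h3]; ring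
  generalize m * m - m * n + n * n = k at h5
  omega

theorem sym_lam_int {a m : ℤ} (ha : a = 1 + 3 * m) :
    sym lam (a : O) = ((omU ^ m : Oˣ) : O) := by
  have hp : Primary (a : O) := by rw [primary_intCast]; omega
  have h1 : sym om (a : O) = ((omU ^ (-(m + 0)) : Oˣ) : O) :=
    sym_om' (by rw [QuadraticAlgebra.re_intCast, ha]; rfl) (by simp)
  have h2 : sym (lam ^ 2) (a : O) = sym om (a : O) := by
    have e1 : lam ^ 2 = -(((3 : ℤ) : O) * om) := by decide
    rw [e1, sym_neg_left, sym_mul_left, sym_int, one_mul]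
    exact ⟨-m, 1, by rw [ha]; ring⟩
  have h3 : sym lam (a : O) = sym (lam ^ 2) (a : O) ^ 2 := by
    have h4 := sym_cube hp.isCoprime_lam
    rw [sym_pow_left]
    linear_combination (-sym lam (a : O)) * h4
  rw [h3, h2, h1, ← Units.val_pow_eq_pow_val, ← zpow_natCast, ← zpow_mul]
  congr 1
  apply omU_zpow_congr
  push_cast
  omega

theorem sym_lam_coprime {β : O} {m n : ℤ} (h1 : β.re = 1 + 3 * m) (h2 : β.im = 3 * n)
    (hc : IsCoprime β.re β.im) : sym lam β = ((omU ^ m : Oˣ) : O) := by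
  have hβ : Primary β := by
    rw [primary_iff, h1, h2]
    exact ⟨⟨m, by ring⟩, ⟨n, rfl⟩⟩
  set a : ℤ := β.re with ha
  set b : ℤ := β.im with hb
  have hβe : β = (a : O) + (b : O) * om := by
    ext <;> simp [om, ha, hb]
  have hpa : Primary (a : O) := by rw [primary_intCast]; omega
  have hpc : Primary ((a + b : ℤ) : O) := by rw [primary_intCast]; omega
  have hco : sym om (a : O) = ((omU ^ (-(m + 0)) : Oˣ) : O) :=
    sym_om' (by rw [QuadraticAlgebra.re_intCast, h1]; rfl) (by simp)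
  have hoβ : sym om β = ((omU ^ (-(m + n)) : Oˣ) : O) := sym_om' (ha ▸ h1) (hb ▸ h2)
  -- `sym a β`
  have e1 : sym (a : O) β = ((omU ^ (-m) : Oˣ) : O) := by
    rw [recip hpa hβ, sym_periodic (a' := (b : O) * om) ⟨1, by rw [hβe]; ring⟩, sym_mul_left,
      sym_int hc.symm, one_mul, hco, add_zero]
  have e2 : sym (a : O) β = sym (b : O) β * sym om β := by
    rw [← sym_mul_left, ← sym_neg_left ((b : O) * om)]
    apply sym_periodic
    exact ⟨1, by rw [hβe]; ring⟩
  have e3 : sym (b : O) β = ((omU ^ n : Oˣ) : O) := by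
    rw [e1, hoβ] at e2
    have h3 : sym (b : O) β * ((omU ^ (-(m + n)) : Oˣ) : O) * ((omU ^ (m + n) : Oˣ) : O)
        = ((omU ^ (-m) : Oˣ) : O) * ((omU ^ (m + n) : Oˣ) : O) := by rw [e2]
    rw [mul_assoc, ← Units.val_mul, ← Units.val_mul, ← zpow_add, ← zpow_add] at h3
    simpa using h3
  have hcbc : IsCoprime b (a + b) := by
    obtain ⟨u, v, huv⟩ := hc
    exact ⟨v - u, u, by linear_combination huv⟩
  have e4 : sym ((a + b : ℤ) : O) β = ((omU ^ (m + n) : Oˣ) : O) := by
    rw [recip hpc hβ, sym_periodic (a' := -((b : O) * lam))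
      ⟨1, by rw [hβe]; have : lam = 1 - om := by decide
             rw [this]; push_cast; ring⟩, sym_neg_left, sym_mul_left, sym_int hcbc, one_mul]
    exact sym_lam_int (by omega)
  have e5 : sym ((a + b : ℤ) : O) β = sym (b : O) β * sym lam β := by
    rw [← sym_mul_left]
    apply sym_periodic
    refine ⟨1, ?_⟩
    have : lam = 1 - om := by decide
    rw [this, hβe]; push_cast; ring
  rw [e4, e3] at e5
  have h3 : ((omU ^ (-n) : Oˣ) : O) * ((omU ^ (m + n) : Oˣ) : O)
      = ((omU ^ (-n) : Oˣ) : O) * (((omU ^ n : Oˣ) : O) * sym lam β) := by rw [e5]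
  rw [← mul_assoc, ← Units.val_mul, ← Units.val_mul, ← zpow_add, ← zpow_add] at h3
  have h4 : -n + (m + n) = m := by ring
  rw [h4] at h3
  simpa using h3.symm

/-- `((1-ω)/b)_3 = ω^m` for `b = 1 + 3 (m + n ω)` -/
theorem sym_lam {b : O} {m n : ℤ} (h1 : b.re = 1 + 3 * m) (h2 : b.im = 3 * n) :
    sym lam b = ((omU ^ m : Oˣ) : O) := by
  have hre : b.re ≠ 0 := by omega
  obtain ⟨d, x, y, hd, hcop, hx, hy⟩ : ∃ d x y : ℤ, d ≠ 0 ∧ IsCoprime x y ∧ b.re = d * x ∧
      b.im = d * y := by
    obtain ⟨x, hx⟩ := Int.gcd_dvd_left b.re b.im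
    obtain ⟨y, hy⟩ := Int.gcd_dvd_right b.re b.im
    have hg : (Int.gcd b.re b.im : ℤ) ≠ 0 := by
      intro h; rw [h] at hx; simp at hx; exact hre hx
    refine ⟨Int.gcd b.re b.im, x, y, hg, ?_, hx, hy⟩
    have h3 := Int.gcd_eq_gcd_ab b.re b.im
    refine ⟨Int.gcdA b.re b.im, Int.gcdB b.re b.im, ?_⟩
    apply mul_left_cancel₀ hg
    linear_combination (-Int.gcdA b.re b.im) * hx - Int.gcdB b.re b.im * hy - h3
  -- adjust the sign
  obtain ⟨d, x, y, hd, hcop, hx, hy, hdm⟩ : ∃ d x y : ℤ, d ≠ 0 ∧ IsCoprime x y ∧ b.re = d * x ∧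
      b.im = d * y ∧ d % 3 = 1 := by
    have h3 : d % 3 = 0 ∨ d % 3 = 1 ∨ d % 3 = 2 := by omega
    rcases h3 with h3 | h3 | h3
    · exfalso
      obtain ⟨k, hk⟩ : (3 : ℤ) ∣ d := by omega
      rw [hk, mul_assoc] at hx
      omega
    · exact ⟨d, x, y, hd, hcop, hx, hy, h3⟩
    · exact ⟨-d, -x, -y, by omega, hcop.neg_neg, by rw [hx]; ring, by rw [hy]; ring, by omega⟩
  obtain ⟨k, hk⟩ : ∃ k, d = 1 + 3 * k := ⟨d / 3, by omega⟩
  have hx3 : x % 3 = 1 := by
    have : b.re = x + 3 * (k * x) := by rw [hx, hk]; ring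
    omega
  have hy3 : y % 3 = 0 := by
    have : b.im = y + 3 * (k * y) := by rw [hy, hk]; ring
    omega
  obtain ⟨m', hm'⟩ : ∃ m', x = 1 + 3 * m' := ⟨x / 3, by omega⟩
  obtain ⟨n', hn'⟩ : ∃ n', y = 3 * n' := ⟨y / 3, by omega⟩
  have hbe : b = (d : O) * ⟨x, y⟩ := by
    ext <;> simp [hx, hy]
  have hd0 : (d : O) ≠ 0 := by exact_mod_cast hd
  have hβ0 : (⟨x, y⟩ : O) ≠ 0 := by
    intro h
    have := congrArg QuadraticAlgebra.re h
    simp only [QuadraticAlgebra.re_zero] at this
    omega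
  rw [hbe, sym_mul_right _ hd0 hβ0, sym_lam_int hk,
    sym_lam_coprime (β := ⟨x, y⟩) (m := m') (n := n') hm' hn' hcop, ← Units.val_mul, ← zpow_add]
  congr 1
  apply omU_zpow_congr
  have h5 : 1 + 3 * m = 1 + 3 * (k + m') + 9 * (k * m') := by
    rw [← h1, hx, hk, hm']; ring
  omega

/-- the symbols of units and of `lam` depend only on the denominator modulo 9 -/
theorem sym_lam_congr {b b' : O} (hb : Primary b) (h : (9 : O) ∣ b - b') :
    sym lam b = sym lam b' := by
  obtain ⟨t, ht⟩ := h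
  rw [primary_iff] at hb
  obtain ⟨⟨m, hm⟩, ⟨n, hn⟩⟩ := hb
  have h9r : (9 : O).re = 9 := rfl
  have h9i : (9 : O).im = 0 := rfl
  have e1 := congrArg QuadraticAlgebra.re ht
  have e2 := congrArg QuadraticAlgebra.im ht
  simp only [QuadraticAlgebra.re_sub, QuadraticAlgebra.im_sub, QuadraticAlgebra.re_mul,
    QuadraticAlgebra.im_mul, h9r, h9i] at e1 e2
  rw [sym_lam (b := b) (m := m) (n := n) (by linarith) hn,
    sym_lam (b := b') (m := m - 3 * t.re) (n := n - 3 * t.im) (by linarith) (by linarith)]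
  congr 1
  apply omU_zpow_congr
  omega

theorem sym_om_congr {b b' : O} (hb : Primary b) (h : (9 : O) ∣ b - b') :
    sym om b = sym om b' := by
  obtain ⟨t, ht⟩ := h
  rw [primary_iff] at hb
  obtain ⟨⟨m, hm⟩, ⟨n, hn⟩⟩ := hb
  have h9r : (9 : O).re = 9 := rfl
  have h9i : (9 : O).im = 0 := rfl
  have e1 := congrArg QuadraticAlgebra.re ht
  have e2 := congrArg QuadraticAlgebra.im ht
  simp only [QuadraticAlgebra.re_sub, QuadraticAlgebra.im_sub, QuadraticAlgebra.re_mul,
    QuadraticAlgebra.im_mul, h9r, h9i] at e1 e2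
  rw [sym_om' (b := b) (m := m) (n := n) (by linarith) hn,
    sym_om' (b := b') (m := m - 3 * t.re) (n := n - 3 * t.im) (by linarith) (by linarith)]
  congr 1
  apply omU_zpow_congr
  omega

theorem sym_unit_left_congr {u b b' : O} (hu : IsUnit u) (hb : Primary b) (h : (9 : O) ∣ b - b') :
    sym u b = sym u b' := by
  have h1 := sym_om_congr hb h
  rcases isUnit_cases hu with e | e | e | e | e | e <;> subst e <;>
    simp only [sym_neg_left, sym_one_left, sym_pow_left, h1]

end Vale.Agent.P006
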