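import Vale.Agent.P006.CR.CubeChar
import Mathlib.NumberTheory.LegendreSymbol.ZModChar
import Mathlib.GroupTheory.Perm.Cycle.Type

/-!
P006, block CR: rational primes and primary primes; the exponential sums `∑_{x<p} e(x³/p)`.
-/

namespace Vale.Agent.P006

open scoped BigOperators

/-! ### Splitting of rational primes -/

theorem prime_of_N_prime {z : O} (h : (N z).Prime) : Prime z := by
  rw [← irreducible_iff_prime]
  refine ⟨?_, ?_⟩
  · rw [isUnit_iff_N]; exact h.ne_one
  · intro a b hab
    rw [hab, N_mul] at h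
    rcases Nat.prime_mul_iff.1 h with ⟨_, hb⟩ | ⟨_, ha⟩
    · right; rwa [isUnit_iff_N]
    · left; rwa [isUnit_iff_N]

theorem exists_cube_root_of_unity_mod {p : ℕ} (hp : p.Prime) (h3 : p % 3 = 1) :
    ∃ n : ℤ, (p : ℤ) ∣ n ^ 2 + n + 1 := by
  have : Fact p.Prime := ⟨hp⟩
  have : Fact (Nat.Prime 3) := ⟨Nat.prime_three⟩
  have hcard : 3 ∣ Nat.card (ZMod p)ˣ := by
    rw [Nat.card_eq_fintype_card, ZMod.card_units]
    omega
  obtain ⟨x, hx⟩ := exists_prime_orderOf_dvd_card' 3 hcard
  have h1 : x ^ 3 = 1 := by rw [← hx, pow_orderOf_eq_one]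
  have h2 : x ≠ 1 := by
    intro h; rw [h, orderOf_one] at hx; omega
  have h3' : (x : ZMod p) ^ 3 = 1 := by
    rw [← Units.val_pow_eq_pow_val, h1, Units.val_one]
  have h4 : (x : ZMod p) - 1 ≠ 0 := by
    intro h; apply h2; apply Units.ext; rw [Units.val_one]; exact sub_eq_zero.1 h
  have h5 : (x : ZMod p) ^ 2 + x + 1 = 0 := by
    apply mul_left_cancel₀ h4
    linear_combination h3'
  refine ⟨((x : ZMod p).val : ℤ), ?_⟩
  rw [← ZMod.intCast_zmod_eq_zero_iff_dvd]
  push_cast
  rw [ZMod.natCast_zmod_val]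
  exact h5

theorem not_prime_of_mod {p : ℕ} (hp : p.Prime) (h3 : p % 3 = 1) : ¬ Prime (p : O) := by
  intro h
  obtain ⟨n, k, hn⟩ := exists_cube_root_of_unity_mod hp h3
  have h1 : (p : O) ∣ ((n : O) - om) * ((n : O) - om ^ 2) := by
    refine ⟨(k : O), ?_⟩
    have e1 : ((n ^ 2 + n + 1 : ℤ) : O) = ((p * k : ℤ) : O) := by rw [hn]
    push_cast at e1
    rw [← e1]
    linear_combination (-(n : O)) * one_add_om + om_cube
  have h2 : ∀ z : O, (p : O) ∣ z → (p : ℤ) ∣ z.im := by
    rintro z ⟨w, rfl⟩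
    exact ⟨w.im, by simp⟩
  rcases h.dvd_or_dvd h1 with h3 | h3
  · have := h2 _ h3
    have e2 : ((n : O) - om).im = -1 := by simp [om]
    rw [e2] at this
    have := Int.natAbs_dvd_natAbs.2 this
    simp at this
    exact hp.ne_one this
  · have := h2 _ h3
    have e2 : ((n : O) - om ^ 2).im = 1 := by
      have : om ^ 2 = ⟨-1, -1⟩ := by decide
      rw [this]; simp
    rw [e2] at this
    have := Int.natAbs_dvd_natAbs.2 this
    simp at this
    exact hp.ne_one this

theorem exists_primary_of_prime {p : ℕ} (hp : p.Prime) (h3 : p % 3 = 1) :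
    ∃ π : O, Prime π ∧ Primary π ∧ N π = p := by
  have h1 := not_prime_of_mod hp h3
  have hp0 : (p : O) ≠ 0 := by exact_mod_cast hp.ne_zero
  have hpu : ¬ IsUnit (p : O) := by
    rw [isUnit_iff_N, N_natCast]
    intro h
    have := hp.one_lt
    nlinarith
  have hirr : ¬ Irreducible (p : O) := by rwa [irreducible_iff_prime]
  have : ∃ a b : O, (p : O) = a * b ∧ ¬ IsUnit a ∧ ¬ IsUnit b := by
    by_contra hcon
    push Not at hcon
    apply hirr
    refine ⟨hpu, fun a b hab => ?_⟩
    by_contra h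
    rw [not_or] at h
    exact h.2 (hcon a b hab h.1)
  obtain ⟨a, b, hab, ha, hb⟩ := this
  rw [isUnit_iff_N] at ha hb
  have hN : N a * N b = p ^ 2 := by rw [← N_mul, ← hab, N_natCast]
  have hNa : N a = p := by
    have hd : N a ∣ p ^ 2 := ⟨N b, hN.symm⟩
    obtain ⟨k, hk, hk2⟩ := (Nat.dvd_prime_pow hp).1 hd
    interval_cases k
    · rw [pow_zero] at hk2; exact absurd hk2 ha
    · rw [pow_one] at hk2; exact hk2
    · exfalso
      apply hb
      rw [hk2] at hN
      have : 0 < p ^ 2 := pow_pos hp.pos 2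
      exact Nat.eq_of_mul_eq_mul_left this (by rw [hN, mul_one])
  have hla : ¬ lam ∣ a := by
    intro h
    have := N_dvd_N h
    rw [N_lam, hNa] at this
    omega
  obtain ⟨u, hu, hpr⟩ := exists_unit_mul_primary hla
  have hNu : N (u * a) = p := by rw [N_mul, isUnit_iff_N.1 hu, one_mul, hNa]
  exact ⟨u * a, prime_of_N_prime (by rw [hNu]; exact hp), hpr, hNu⟩

theorem ne_star_of_N_prime {π : O} {p : ℕ} (hp : p.Prime) (h : N π = p) : π ≠ star π := by
  intro hs
  have h1 := congrArg QuadraticAlgebra.im hs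
  rw [QuadraticAlgebra.im_star] at h1
  have h2 : π.im = 0 := by omega
  have h3 := N_cast_int' π
  rw [h2, h] at h3
  have h4 : p = π.re.natAbs ^ 2 := by
    have : (p : ℤ) = ((π.re.natAbs ^ 2 : ℕ) : ℤ) := by
      push_cast; rw [sq_abs]; linarith
    exact_mod_cast this
  exact hp.not_isSquare ⟨π.re.natAbs, by rw [h4, sq]⟩

theorem eq_or_eq_star_of_N_eq {π ρ : O} (hπ : Prime π) (hpπ : Primary π) (hρ : Prime ρ)
    (hpρ : Primary ρ) (h : N π = N ρ) : ρ = π ∨ ρ = star π := by
  have h1 : ρ ∣ π * star π := by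
    rw [← N_mul_star, h, N_mul_star]; exact dvd_mul_right _ _
  rcases hρ.dvd_or_dvd h1 with h2 | h2
  · left; exact hpρ.eq_of_associated hpπ (hρ.associated_of_dvd hπ h2)
  · right; exact hpρ.eq_of_associated hpπ.star (hρ.associated_of_dvd (prime_star hπ) h2)

/-- classification of the primary primes -/
theorem primary_prime_cases {π : O} (hπ : Prime π) (hp : Primary π) :
    ((N π).Prime ∧ N π % 3 = 1) ∨ ∃ q : ℕ, q.Prime ∧ q % 3 = 2 ∧ π = -(q : O) ∧ N π = q ^ 2 := by
  have hN1 : N π ≠ 1 := N_ne_one hπ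
  -- a rational prime divisible by `π`
  have h1 : π ∣ (N π : O) := by rw [N_mul_star]; exact dvd_mul_right _ _
  have h2 : ∃ q : ℕ, q.Prime ∧ π ∣ (q : O) := by
    have : ∀ n : ℕ, n ≠ 0 → π ∣ (n : O) → ∃ q : ℕ, q.Prime ∧ π ∣ (q : O) := by
      intro n
      induction n using Nat.recOnMul with
      | zero => intro h; exact absurd rfl h
      | one => intro _ h; rw [Nat.cast_one] at h; exact absurd (isUnit_of_dvd_one h) hπ.not_isUnit
      | prime p hp => intro _ h; exact ⟨p, hp, h⟩
      | mul a b iha ihb =>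
        intro hab h
        rw [Nat.cast_mul] at h
        have hab' := mul_ne_zero_iff.1 hab
        rcases hπ.dvd_or_dvd h with h | h
        · exact iha hab'.1 h
        · exact ihb hab'.2 h
    exact this _ (N_pos hπ.ne_zero).ne' h1
  obtain ⟨q, hq, c, hc⟩ := h2
  have hNN : N π * N c = q ^ 2 := by rw [← N_mul, ← hc, N_natCast]
  obtain ⟨k, hk, hk2⟩ := (Nat.dvd_prime_pow hq).1 (⟨N c, hNN.symm⟩ : N π ∣ q ^ 2)
  interval_cases k
  · rw [pow_zero] at hk2; exact absurd hk2 hN1
  · left
    rw [pow_one] at hk2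
    exact ⟨by rw [hk2]; exact hq, hp.N_mod⟩
  · right
    have hNc : N c = 1 := by
      rw [hk2] at hNN
      exact Nat.eq_of_mul_eq_mul_left (pow_pos hq.pos 2) (by rw [hNN, mul_one])
    have hcu : IsUnit c := isUnit_iff_N.2 hNc
    have hass : Associated π (q : O) := ⟨hcu.unit, by rw [IsUnit.unit_spec, hc]⟩
    have hqp : Prime (q : O) := hass.prime hπ
    have hq1 : q % 3 ≠ 1 := fun h => not_prime_of_mod hq h hqp
    have hq3 : q % 3 ≠ 0 := by
      intro h0
      have h5 := hp.N_mod
      rw [hk2] at h5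
      obtain ⟨m, hm⟩ : ∃ m, q = 3 * m := ⟨q / 3, by omega⟩
      have h6 : q ^ 2 = 3 * (m * q) := by rw [sq]; nth_rewrite 1 [hm]; ring
      rw [h6] at h5
      omega
    have hq2 : q % 3 = 2 := by omega
    have hpq : Primary (-(q : O)) := by
      have : -(q : O) = ((-(q : ℤ) : ℤ) : O) := by push_cast; rfl
      rw [this, primary_intCast]; omega
    exact ⟨q, hq, hq2, hp.eq_of_associated hpq (hass.trans (Associated.neg_right (Associated.refl _))),
      hk2⟩

/-! ### The exponential sum `∑_{x<p} e(x³/p)` -/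

section expsum

variable {π : O}

theorem exists_cube_of_chi_eq_one (hπ : Prime π) (hl : ¬ lam ∣ π) {a : O} (ha : ¬ π ∣ a)
    (h : sym a π = 1) : ∃ w : Rs π, w ^ 3 = rs π a := by
  classical
  have : Fact (Prime π) := ⟨hπ⟩
  obtain ⟨g, hg⟩ := IsCyclic.exists_generator (α := (Rs π)ˣ)
  have hord : orderOf g = N π - 1 := by
    rw [orderOf_eq_card_of_forall_mem_zpowers hg, Nat.card_eq_fintype_card,
      Fintype.card_units, fcard_Rs]
  have h4 := four_le_N hπ hl
  have hmod := N_mod_of_not_lam_dvd hl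
  have hne : rs π a ≠ 0 := by rwa [Ne, rs_eq_zero]
  obtain ⟨k, hk⟩ : ∃ k : ℕ, g ^ k = Units.mk0 (rs π a) hne := by
    have := hg (Units.mk0 (rs π a) hne)
    rw [← mem_powers_iff_mem_zpowers] at this
    exact this
  have h2 := rs_chiO hl (rs π a)
  rw [chiO_rs, h, map_one] at h2
  have h3 : g ^ (k * ((N π - 1) / 3)) = 1 := by
    rw [pow_mul, hk]
    apply Units.ext
    rw [Units.val_pow_eq_pow_val, Units.val_mk0, ← h2, Units.val_one]
  have h5 := orderOf_dvd_of_pow_eq_one h3
  rw [hord] at h5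
  obtain ⟨m, hm⟩ : ∃ m, N π = 3 * m + 1 := ⟨N π / 3, by omega⟩
  have e1 : (N π - 1) / 3 = m := by omega
  have e2 : N π - 1 = 3 * m := by omega
  rw [e1, e2] at h5
  have hm0 : 0 < m := by omega
  have h6 : 3 ∣ k := Nat.dvd_of_mul_dvd_mul_right hm0 h5
  obtain ⟨j, hj⟩ := h6
  refine ⟨(g ^ j : (Rs π)ˣ), ?_⟩
  have h7 := congrArg Units.val hk
  rw [Units.val_mk0] at h7
  rw [← h7, hj, ← Units.val_pow_eq_pow_val, ← pow_mul, mul_comm]

/-- number of cube roots in the residue field -/
theorem card_cube_roots [DecidableEq (Rs π)] (hπ : Prime π) (hl : ¬ lam ∣ π) [NeZero π] (z : Rs π) :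
    ((Finset.univ.filter (fun y : Rs π => y ^ 3 = z)).card : ℂ)
      = 1 + chi π z + chi π z ^ 2 := by
  have hf : Fact (Prime π) := ⟨hπ⟩
  obtain ⟨a, rfl⟩ := rs_surj π z
  by_cases ha : π ∣ a
  · have h0 : rs π a = 0 := rs_eq_zero.2 ha
    rw [h0, MulChar.map_zero]
    have : Finset.univ.filter (fun y : Rs π => y ^ 3 = 0) = {0} := by
      ext y
      simp
    rw [this]; simp
  · have hlam : rs π lam ≠ 0 := by
      rw [Ne, rs_eq_zero]; exact not_dvd_lam hπ hl
    have hu : rs π a ≠ 0 := by rwa [Ne, rs_eq_zero]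
    by_cases hex : ∃ w : Rs π, w ^ 3 = rs π a
    · obtain ⟨w, hw⟩ := hex
      have hw0 : w ≠ 0 := by
        rintro rfl; apply hu; rw [← hw]; simp
      have hchi : chi π (rs π a) = 1 := by
        rw [← hw, map_pow]
        exact chi_cube (isUnit_iff_ne_zero.2 hw0)
      have e1 : rs π om ^ 3 = 1 := by rw [← map_pow, om_cube, map_one]
      have e2 : 1 + rs π om + rs π om ^ 2 = 0 := by
        rw [← map_pow, ← map_one (rs π), ← map_add, ← map_add, one_add_om, map_zero]
      have hlam' : (1 : Rs π) - rs π om ≠ 0 := by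
        rw [← map_one (rs π), ← map_sub]
        have : (1 : O) - om = lam := by decide
        rwa [this]
      have hset : Finset.univ.filter (fun y : Rs π => y ^ 3 = rs π a)
          = {w, rs π om * w, rs π om ^ 2 * w} := by
        ext y
        simp only [Finset.mem_filter, Finset.mem_univ, true_and, Finset.mem_insert,
          Finset.mem_singleton]
        constructor
        · intro hy
          have h1 : (y - w) * ((y - rs π om * w) * (y - rs π om ^ 2 * w)) = 0 := by
            have : (y - w) * ((y - rs π om * w) * (y - rs π om ^ 2 * w)) = y ^ 3 - w ^ 3 := by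
              linear_combination (-(y ^ 2 * w) + y * w ^ 2) * e2 + (y * w ^ 2 - w ^ 3) * e1
            rw [this, hy, hw, sub_self]
          rcases mul_eq_zero.1 h1 with h2 | h2
          · left; exact sub_eq_zero.1 h2
          · rcases mul_eq_zero.1 h2 with h3 | h3
            · right; left; exact sub_eq_zero.1 h3
            · right; right; exact sub_eq_zero.1 h3
        · rintro (h1 | h1 | h1) <;> rw [h1]
          · exact hw
          · rw [mul_pow, e1, one_mul, hw]
          · rw [mul_pow, ← pow_mul, pow_mul', e1, one_pow, one_mul, hw]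
      have n1 : w ≠ rs π om * w := by
        intro h
        apply hlam'
        apply mul_right_cancel₀ hw0
        rw [zero_mul, sub_mul, one_mul, ← h, sub_self]
      have n2 : w ≠ rs π om ^ 2 * w := by
        intro h
        have h1 : (1 - rs π om) * (1 + rs π om) = 0 := by
          apply mul_right_cancel₀ hw0
          rw [zero_mul]
          linear_combination h
        rcases mul_eq_zero.1 h1 with h2 | h2
        · exact hlam' h2
        · have : rs π om ^ 2 = 0 := by rw [← e2, h2, zero_add]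
          rw [pow_eq_zero_iff two_ne_zero] at this
          rw [this] at e1; simp at e1
      have n3 : rs π om * w ≠ rs π om ^ 2 * w := by
        intro h
        apply n1
        have hom : rs π om ≠ 0 := by intro h0; rw [h0] at e1; simp at e1
        apply mul_left_cancel₀ hom
        rw [← mul_assoc, ← sq]; exact h
      rw [hset, hchi, Finset.card_insert_of_notMem, Finset.card_insert_of_notMem,
        Finset.card_singleton]
      · norm_num
      · simpa using n3
      · simp only [Finset.mem_insert, Finset.mem_singleton, not_or]; exact ⟨n1, n2⟩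
    · have hempty : Finset.univ.filter (fun y : Rs π => y ^ 3 = rs π a) = ∅ := by
        rw [Finset.filter_eq_empty_iff]
        intro y _ hy
        exact hex ⟨y, hy⟩
      have hne : sym a π ≠ 1 := fun h => hex (exists_cube_of_chi_eq_one hπ hl ha h)
      have hn0 : sym a π ≠ 0 := by
        rw [sym_prime hπ, Ne, symP_eq_zero]; exact ha
      rw [hempty, chi_rs]
      have : 1 + sym a π + sym a π ^ 2 = 0 := by
        rcases isVal_sym a π with h | h | h | h
        · exact absurd h hn0
        · exact absurd h hne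
        · rw [h]; decide
        · rw [h]; decide
      have h2 := congrArg toC this
      rw [map_add, map_add, map_one, map_pow, map_zero] at h2
      rw [h2]; simp

/-- the trace `π + star π` -/
theorem sym_trace_eq_one (hπ : Prime π) (hpπ : Primary π) (hne : ¬ π ∣ star π) :
    sym (π + star π) π = 1 := by
  have h1 : sym (star π) π = 1 := by
    have h4 : ¬ star π ∣ star (star π) := by
      rw [star_star, star_dvd_iff]; exact hne
    have h5 := recip_star (prime_star hπ) hpπ.star h4
    rwa [star_star] at h5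
  rw [← h1]
  apply sym_periodic
  exact ⟨1, by ring⟩

theorem not_dvd_star {p : ℕ} (hp : p.Prime) (hπ : Prime π) (hpπ : Primary π) (h : N π = p) :
    ¬ π ∣ star π := fun hd =>
  ne_star_of_N_prime hp h (hpπ.eq_of_associated hpπ.star (hπ.associated_of_dvd (prime_star hπ) hd))

/-- **The cubic exponential sum**: for a primary prime `π` of prime norm `p`,
`∑_{x<p} e(x³/p) = g(1,π) + conj g(1,π)`. -/
theorem sum_e_cube {p : ℕ} (hp : p.Prime) (hπ : Prime π) (hpπ : Primary π) (h : N π = p) :
    ∑ x ∈ Finset.range p, e ((x : ℝ) ^ 3 / p) = gs 1 π + (starRingEnd ℂ) (gs 1 π) := by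
  classical
  have hf : Fact (Prime π) := ⟨hπ⟩
  have hl := hpπ.not_lam_dvd
  have hne := not_dvd_star hp hπ hpπ h
  have hp0 : (p : ℝ) ≠ 0 := by exact_mod_cast hp.ne_zero
  -- the trace
  set t : ℤ := 2 * π.re - π.im with ht
  have htO : (t : O) = π + star π := by
    ext
    · rw [QuadraticAlgebra.re_intCast, QuadraticAlgebra.re_add, QuadraticAlgebra.re_star, ht]
      simp; ring
    · simp
  have hcopt : IsCoprime (t : O) π := by
    rw [htO]
    obtain ⟨u, v, huv⟩ := (hπ.coprime_iff_not_dvd).2 hne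
    exact ⟨v, u - v, by linear_combination huv⟩
  have hsymt : sym (t : O) π = 1 := by rw [htO]; exact sym_trace_eq_one hπ hpπ hne
  -- an inverse of `t` modulo `p`
  have hdiv : ∀ n : ℤ, π ∣ (n : O) → (p : ℤ) ∣ n := by
    intro n hn
    have h1 := N_dvd_N hn
    rw [h, N_intCast] at h1
    have h2 := hp.dvd_of_dvd_pow h1
    exact Int.natCast_dvd.2 h2
  have htp : IsCoprime t (p : ℤ) := by
    rw [isCoprime_comm, (Nat.prime_iff_prime_int.1 hp).coprime_iff_not_dvd]
    rintro ⟨k, hk⟩
    apply hπ.not_isUnit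
    apply hcopt.isUnit_of_dvd' _ dvd_rfl
    rw [hk]; push_cast
    rw [← h, N_mul_star]
    exact (dvd_mul_right _ _).mul_right _
  obtain ⟨s, v, hsv⟩ := htp
  have hsymS : sym (s : O) π = 1 := by
    have h1 : sym ((s : O) * (t : O)) π = 1 := by
      rw [← sym_one_left π]
      apply sym_periodic
      refine ⟨-(v : O) * star π, ?_⟩
      have e1 : ((s * t + v * (p : ℤ) : ℤ) : O) = ((1 : ℤ) : O) := by rw [hsv]
      push_cast at e1
      rw [← h, N_mul_star] at e1
      linear_combination e1
    rwa [sym_mul_left, hsymt, mul_one] at h1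
  have hcops : IsCoprime (s : O) π := sym_ne_zero.1 (by rw [hsymS]; exact one_ne_zero)
  -- the additive character
  have hpsi : ∀ x : ℤ, psi π (rs π (s : O) * rs π (x : O)) = e ((x : ℝ) / p) := by
    intro x
    rw [← map_mul, psi_rs]
    have hπ0 : toC π ≠ 0 := by simpa using hπ.ne_zero
    have e1 : toC ((s : O) * (x : O)) / toC π
        = ((s * x : ℝ) : ℂ) * (toC (star π) / ((p : ℝ) : ℂ)) := by
      have e2 : toC π * toC (star π) = ((p : ℝ) : ℂ) := by
        rw [← map_mul, ← N_mul_star, h, toC_natCast]; push_cast; rfl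
      have hp0' : ((p : ℝ) : ℂ) ≠ 0 := by exact_mod_cast hp.ne_zero
      rw [div_eq_iff hπ0, map_mul, toC_intCast, toC_intCast]
      push_cast
      push_cast at e2 hp0'
      field_simp
      linear_combination (-(s : ℂ) * x) * e2
    have e3 : TrC (((s * x : ℝ) : ℂ) * (toC (star π) / ((p : ℝ) : ℂ)))
        = s * x * (t : ℝ) / p := by
      rw [TrC, Complex.re_ofReal_mul, Complex.div_ofReal_re, toC_re]
      simp only [QuadraticAlgebra.re_star, QuadraticAlgebra.im_star]
      rw [ht]; push_cast; ring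
    rw [e1, e3]
    have e4 : (s : ℝ) * x * t / p = x / p + ((-(v * x) : ℤ) : ℝ) := by
      have e5 : (s : ℝ) * t + v * p = 1 := by exact_mod_cast hsv
      push_cast
      field_simp
      linear_combination (x : ℝ) * e5
    rw [e4, e_add, e_int, mul_one]
  -- the sum over the residue field
  have hbij : ∑ x ∈ Finset.range p, e ((x : ℝ) ^ 3 / p)
      = ∑ y : Rs π, psi π (rs π (s : O) * y ^ 3) := by
    have h1 : ∀ x ∈ Finset.range p, e ((x : ℝ) ^ 3 / p)
        = psi π (rs π (s : O) * (rs π (x : O)) ^ 3) := by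
      intro x _
      have h2 := hpsi ((x : ℤ) ^ 3)
      push_cast at h2
      rw [← h2, map_pow]
    rw [Finset.sum_congr rfl h1]
    refine Finset.sum_nbij (fun x => rs π (x : O)) (fun _ _ => Finset.mem_univ _) ?_ ?_
      (fun _ _ => rfl)
    · intro x hx y hy hxy
      rw [Finset.coe_range, Set.mem_Iio] at hx hy
      simp only at hxy
      rw [rs_eq] at hxy
      have h2 : ((x : O) - (y : O)) = (((x : ℤ) - (y : ℤ) : ℤ) : O) := by push_cast; rfl
      rw [h2] at hxy
      have h3 := hdiv _ hxy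
      have h4 : |(x : ℤ) - y| < p := by rw [abs_lt]; constructor <;> omega
      have h5 := Int.eq_zero_of_abs_lt_dvd h3 h4
      omega
    · have hinj : Set.InjOn (fun x : ℕ => rs π (x : O)) (Finset.range p : Set ℕ) := by
        intro x hx y hy hxy
        rw [Finset.coe_range, Set.mem_Iio] at hx hy
        simp only at hxy
        rw [rs_eq] at hxy
        have h2 : ((x : O) - (y : O)) = (((x : ℤ) - (y : ℤ) : ℤ) : O) := by push_cast; rfl
        rw [h2] at hxy
        have h3 := hdiv _ hxy
        have h4 : |(x : ℤ) - y| < p := by rw [abs_lt]; constructor <;> omega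
        have h5 := Int.eq_zero_of_abs_lt_dvd h3 h4
        omega
      have hcard : (Finset.image (fun x : ℕ => rs π (x : O)) (Finset.range p)).card
          = Fintype.card (Rs π) := by
        rw [Finset.card_image_of_injOn hinj, Finset.card_range, fcard_Rs, h]
      have huniv := (Finset.card_eq_iff_eq_univ _).1 hcard
      intro y _
      have : y ∈ Finset.image (fun x : ℕ => rs π (x : O)) (Finset.range p) := by
        rw [huniv]; exact Finset.mem_univ _
      rw [Finset.mem_image] at this
      obtain ⟨x, hx, hxy⟩ := this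
      exact ⟨x, by exact_mod_cast hx, hxy⟩
  rw [hbij]
  -- group by the value of the cube
  have hfib : ∑ y : Rs π, psi π (rs π (s : O) * y ^ 3)
      = ∑ z : Rs π, (1 + chi π z + chi π z ^ 2) * psi π (rs π (s : O) * z) := by
    rw [← Finset.sum_fiberwise (s := Finset.univ) (g := fun y : Rs π => y ^ 3)]
    refine Finset.sum_congr rfl fun z _ => ?_
    rw [← card_cube_roots hπ hl z, ← nsmul_eq_mul, ← Finset.sum_const]
    refine Finset.sum_congr rfl fun y hy => ?_
    rw [(Finset.mem_filter.1 hy).2]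
  rw [hfib]
  have hsplit : ∀ z : Rs π, (1 + chi π z + chi π z ^ 2) * psi π (rs π (s : O) * z)
      = psi π (rs π (s : O) * z) + chi π z * psi π (rs π (s : O) * z)
        + chi π z ^ 2 * psi π (rs π (s : O) * z) := fun z => by ring
  simp only [hsplit]
  rw [Finset.sum_add_distrib, Finset.sum_add_distrib, sum_psi_mul, ← gs_eq_sum]
  have h0 : ¬ π ∣ lam * (s : O) := by
    intro h1
    rcases hπ.dvd_or_dvd h1 with h2 | h2
    · exact not_dvd_lam hπ hl h2
    · exact hπ.not_isUnit (hcops.isUnit_of_dvd' h2 dvd_rfl)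
  have hg1 : gs (s : O) π = gs 1 π := by
    rw [gs_twist_one hπ.ne_zero hcops, hsymS, map_one, map_one, one_mul]
  have hg2 : ∑ z : Rs π, chi π z ^ 2 * psi π (rs π (s : O) * z) = (starRingEnd ℂ) (gs 1 π) := by
    rw [← hg1, ← gs_neg _ hπ.ne_zero, gs_eq_sum, map_sum]
    refine Finset.sum_congr rfl fun z _ => ?_
    rw [map_mul (starRingEnd ℂ), conj_chi, conj_psi, map_neg (rs π), neg_mul, neg_neg]
  rw [if_neg h0, hg1, hg2, zero_add]

/-- real form: `∑_{x<p} cos(2πx³/p) = 2 Re g(1,π)` -/
theorem sum_cos_cube {p : ℕ} (hp : p.Prime) (hπ : Prime π) (hpπ : Primary π) (h : N π = p) :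
    ∑ x ∈ Finset.range p, Real.cos (2 * Real.pi * (x : ℝ) ^ 3 / p) = 2 * (gs 1 π).re := by
  have h1 := congrArg Complex.re (sum_e_cube hp hπ hpπ h)
  rw [Complex.re_sum, Complex.add_re, Complex.conj_re, ← two_mul] at h1
  rw [← h1]
  refine Finset.sum_congr rfl fun x _ => ?_
  rw [e, show (2 * Real.pi * Complex.I * ((x : ℝ) ^ 3 / p : ℝ) : ℂ)
    = ((2 * Real.pi * (x : ℝ) ^ 3 / p : ℝ) : ℂ) * Complex.I by push_cast; ring,
    Complex.exp_ofReal_mul_I_re]

/-- normalised form: `(∑_{x<p} cos(2πx³/p)) / (2√p) = Re g̃(1,π)` -/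
theorem sum_cos_cube_div {p : ℕ} (hp : p.Prime) (hπ : Prime π) (hpπ : Primary π) (h : N π = p) :
    (∑ x ∈ Finset.range p, Real.cos (2 * Real.pi * (x : ℝ) ^ 3 / p)) / (2 * Real.sqrt p)
      = (gt 1 π).re := by
  rw [sum_cos_cube hp hπ hpπ h, gt, h, Complex.div_ofReal_re, mul_div_mul_left _ _ two_ne_zero]

/-- the imaginary part: `∑_{x<p} sin(2πx³/p) = 0` -/
theorem gt_add_star {π : O} (hπ : π ≠ 0) : gt 1 π + gt 1 (star π) = 2 * (gt 1 π).re := by
  have h1 := gt_star 1 hπ
  rw [star_one] at h1
  rw [h1, Complex.add_conj]; push_cast; rfl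

end expsum

end Vale.Agent.P006
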