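import Vale.Agent.P006.CR.GaussPow
import Mathlib.RingTheory.Multiplicity

/-!
P006, block CR: nontriviality of the cubic characters; `g(0,c)`.
-/

namespace Vale.Agent.P006

open scoped BigOperators

theorem exists_crt {a b : O} (h : IsCoprime a b) (x y : O) : ∃ z : O, a ∣ z - x ∧ b ∣ z - y := by
  obtain ⟨u, v, huv⟩ := h
  refine ⟨x * (v * b) + y * (u * a), ⟨u * (y - x), ?_⟩, ⟨v * (x - y), ?_⟩⟩
  · linear_combination x * huv
  · linear_combination y * huv

theorem IsCoprime.of_dvd_sub {a b c : O} (h : IsCoprime a c) (hd : c ∣ b - a) : IsCoprime b c := by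
  obtain ⟨u, v, huv⟩ := h
  obtain ⟨t, ht⟩ := hd
  exact ⟨u, v - u * t, by linear_combination huv + u * ht⟩

/-- every nonzero `k` is `u λ^j k₀` with `k₀` primary and `u` a unit -/
theorem exists_factor {k : O} (hk : k ≠ 0) :
    ∃ (u : O) (j : ℕ) (k0 : O), IsUnit u ∧ Primary k0 ∧ k = u * lam ^ j * k0 := by
  have hf : FiniteMultiplicity lam k :=
    FiniteMultiplicity.of_prime_left prime_lam hk
  obtain ⟨c, hc, hnd⟩ := hf.exists_eq_pow_mul_and_not_dvd
  obtain ⟨u, hu, hp⟩ := exists_unit_mul_primary hnd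
  obtain ⟨v, hv⟩ := hu.exists_left_inv
  refine ⟨v, multiplicity lam k, u * c, IsUnit.of_mul_eq_one u hv, hp, ?_⟩
  calc k = lam ^ multiplicity lam k * c := hc
    _ = (v * u) * (lam ^ multiplicity lam k * c) := by rw [hv, one_mul]
    _ = _ := by ring

theorem exists_unit_eq {u : O} (hu : IsUnit u) : ∃ (i : ℕ) (ε : O), (ε = 1 ∨ ε = -1) ∧ i < 3 ∧
    u = ε * om ^ i := by
  rcases isUnit_cases hu with h | h | h | h | h | h
  · exact ⟨0, 1, Or.inl rfl, by norm_num, by rw [h]; ring⟩
  · exact ⟨1, 1, Or.inl rfl, by norm_num, by rw [h]; ring⟩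
  · exact ⟨2, 1, Or.inl rfl, by norm_num, by rw [h]; ring⟩
  · exact ⟨0, -1, Or.inr rfl, by norm_num, by rw [h]; ring⟩
  · exact ⟨1, -1, Or.inr rfl, by norm_num, by rw [h]; ring⟩
  · exact ⟨2, -1, Or.inr rfl, by norm_num, by rw [h]; ring⟩

/-- if the cubic symbol modulo a primary `c` is trivial then `c` is a cube -/
theorem exists_cube_of_trivial (c : O) (hc : Primary c)
    (h : ∀ a, IsCoprime a c → sym a c = 1) : ∃ e, Primary e ∧ c = e ^ 3 := by
  induction hn : N c using Nat.strong_induction_on generalizing c with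
  | _ n ih => ?_
  by_cases hu : IsUnit c
  · exact ⟨1, primary_one, by rw [hc.eq_one hu]; ring⟩
  · obtain ⟨π₀, hπ₀, hd⟩ := WfDvdMonoid.exists_irreducible_factor hu hc.ne_zero
    have hl : ¬ lam ∣ π₀ := fun h => hc.not_lam_dvd (h.trans hd)
    obtain ⟨u, hu', hp⟩ := exists_unit_mul_primary hl
    have hass : Associated π₀ (u * π₀) := associated_unit_mul_right π₀ u hu'
    set π := u * π₀ with hπdef
    have hπ : Prime π := hass.prime hπ₀.prime
    have hπc : π ∣ c := hass.symm.dvd.trans hd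
    have hf : FiniteMultiplicity π c := FiniteMultiplicity.of_prime_left hπ hc.ne_zero
    obtain ⟨d, hcd, hnd⟩ := hf.exists_eq_pow_mul_and_not_dvd
    have hk0 : multiplicity π c ≠ 0 := by
      intro h0
      rw [h0, pow_zero, one_mul] at hcd
      rw [← hcd] at hnd
      exact hnd hπc
    set k := multiplicity π c with hk
    have hdp : Primary d := (hp.pow k).of_mul (hcd ▸ hc)
    have hcop : IsCoprime (π ^ k) d := IsCoprime.pow_left ((hπ.coprime_iff_not_dvd).2 hnd)
    have hcop' : IsCoprime π d := (hπ.coprime_iff_not_dvd).2 hnd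
    have hπk0 : π ^ k ≠ 0 := pow_ne_zero k hπ.ne_zero
    have hsym : ∀ a, sym a c = sym a π ^ k * sym a d := by
      intro a
      rw [hcd, sym_mul_right _ hπk0 hdp.ne_zero, sym_pow_right _ hπ.ne_zero]
    -- `3 ∣ k`
    have h3 : 3 ∣ k := by
      by_contra h3
      obtain ⟨a, ha, hane⟩ := exists_sym_ne_one hπ hp.not_lam_dvd
      obtain ⟨z, hz1, hz2⟩ := exists_crt hcop' a 1
      have hza : IsCoprime z π := IsCoprime.of_dvd_sub ha hz1
      have hzd : IsCoprime z d := IsCoprime.of_dvd_sub isCoprime_one_left hz2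
      have h4 : IsCoprime z c := by
        rw [hcd]; exact IsCoprime.mul_right (IsCoprime.pow_right hza) hzd
      have h5 := h z h4
      rw [hsym, sym_periodic hz1, sym_periodic hz2, sym_one_left, mul_one] at h5
      have h6 := sym_cube ha
      apply hane
      have h7 : k % 3 = 1 ∨ k % 3 = 2 := by omega
      rw [← Nat.div_add_mod k 3, pow_add, pow_mul, h6, one_pow, one_mul] at h5
      rcases h7 with h7 | h7
      · rw [h7, pow_one] at h5; exact h5
      · rw [h7] at h5
        calc sym a π = sym a π * sym a π ^ 2 := by rw [h5, mul_one]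
          _ = sym a π ^ 3 := by ring
          _ = 1 := h6
    obtain ⟨j, hj⟩ := h3
    -- the symbol mod `d` is trivial
    have hdt : ∀ a, IsCoprime a d → sym a d = 1 := by
      intro a ha
      obtain ⟨z, hz1, hz2⟩ := exists_crt hcop' 1 a
      have hza : IsCoprime z π := IsCoprime.of_dvd_sub isCoprime_one_left hz1
      have hzd : IsCoprime z d := IsCoprime.of_dvd_sub ha hz2
      have h4 : IsCoprime z c := by
        rw [hcd]; exact IsCoprime.mul_right (IsCoprime.pow_right hza) hzd
      have h5 := h z h4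
      rw [hsym, sym_periodic hz1, sym_periodic hz2, sym_one_left, one_pow, one_mul] at h5
      exact h5
    have hN : N d < n := by
      rw [← hn, hcd, N_mul, N_pow]
      have h1 := four_le_N hπ hp.not_lam_dvd
      have h2 : 0 < N d := N_pos hdp.ne_zero
      have h3 : 1 < N π ^ k := Nat.one_lt_pow hk0 (by omega)
      nlinarith
    obtain ⟨e, he, hde⟩ := ih _ hN d hdp hdt rfl
    refine ⟨π ^ j * e, (hp.pow j).mul he, ?_⟩
    rw [hcd, hde, hj]; ring

theorem exists_sym_ne_one_of_not_cube {c : O} (hc : Primary c)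
    (h : ¬ ∃ e, Primary e ∧ c = e ^ 3) : ∃ a, IsCoprime a c ∧ sym a c ≠ 1 := by
  by_contra hcon
  push Not at hcon
  exact h (exists_cube_of_trivial c hc hcon)

theorem sym_cube_right {e : O} (he : e ≠ 0) {a : O} (h : IsCoprime a e) : sym a (e ^ 3) = 1 := by
  rw [sym_pow_right _ he, sym_cube h]

theorem chi_eq_one_iff {c : O} (hc : Primary c) : chi c = 1 ↔ ∃ e, Primary e ∧ c = e ^ 3 := by
  constructor
  · intro h
    apply exists_cube_of_trivial c hc
    intro a ha
    apply toC_injective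
    rw [← chi_rs, h, MulChar.one_apply (isUnit_rs_iff.2 ha), map_one]
  · rintro ⟨e, he, rfl⟩
    apply MulChar.ext
    intro u
    obtain ⟨x, hx⟩ := rs_surj (e ^ 3) u
    have hu : IsUnit (rs (e ^ 3) x) := by rw [hx]; exact u.isUnit
    rw [isUnit_rs_iff] at hu
    have hxe : IsCoprime x e := by
      have := hu
      rw [pow_succ] at this
      exact this.of_mul_right_right
    rw [MulChar.one_apply_coe, ← hx, chi_rs, sym_cube_right he.ne_zero hxe, map_one]

/-- Euler's function of `O` -/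
noncomputable def phi (c : O) : ℕ := Nat.card (Rs c)ˣ

/-- `g(0,c)` is `φ(c)` for a cube and `0` otherwise (`c` primary) -/
theorem gs_zero_of_not_cube {c : O} (hc : Primary c) (h : ¬ ∃ e, Primary e ∧ c = e ^ 3) :
    gs 0 c = 0 := by
  have : NeZero c := ⟨hc.ne_zero⟩
  rw [gs_eq_gaussSum, map_zero, AddChar.mulShift_zero]
  exact gaussSum_one_right (fun h1 => h ((chi_eq_one_iff hc).1 h1))

theorem gs_zero_cube {e : O} (he : Primary e) : gs 0 (e ^ 3) = phi (e ^ 3) := by
  have : NeZero (e ^ 3) := ⟨pow_ne_zero 3 he.ne_zero⟩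
  rw [gs_eq_gaussSum, map_zero, AddChar.mulShift_zero,
    (chi_eq_one_iff (he.pow 3)).2 ⟨e, he, rfl⟩]
  exact gaussSum_one_one

/-- dependence of `(k/b)` on the denominator: it only depends on `b mod 9k` for primary `b` -/
theorem sym_congr_right {k b b' : O} (hk : k ≠ 0) (hb : Primary b) (hb' : Primary b')
    (h : 9 * k ∣ b - b') : sym k b = sym k b' := by
  obtain ⟨u, j, k0, hu, hk0, hkk⟩ := exists_factor hk
  have h9 : (9 : O) ∣ b - b' := (dvd_mul_right 9 k).trans h
  have hk0d : k0 ∣ b - b' := by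
    refine dvd_trans ?_ h
    rw [hkk]
    exact Dvd.intro_left (9 * (u * lam ^ j)) (by ring)
  rw [hkk, sym_mul_left, sym_mul_left, sym_mul_left, sym_mul_left, sym_pow_left, sym_pow_left,
    sym_unit_left_congr hu hb h9, sym_lam_congr hb h9, recip hk0 hb, recip hk0 hb',
    sym_periodic hk0d]

/-- for `k` not a cube, the character `b ↦ (k/b)` on primary `b` is nontrivial -/
theorem exists_primary_sym_ne_one {k : O} (hk : k ≠ 0) (h : ¬ ∃ e, k = e ^ 3) :
    ∃ b, Primary b ∧ IsCoprime k b ∧ sym k b ≠ 1 := by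
  obtain ⟨u, j, k0, hu, hk0, hkk⟩ := exists_factor hk
  obtain ⟨i, ε, hε, hi, huε⟩ := exists_unit_eq hu
  have h9k0 : IsCoprime (9 : O) k0 := by
    have : (9 : O) = 3 * 3 := by norm_num
    rw [this]; exact hk0.isCoprime_three.mul_left hk0.isCoprime_three
  have hsym : ∀ b, sym k b = sym om b ^ i * sym lam b ^ j * sym k0 b := by
    intro b
    have hεb : sym ε b = 1 := by
      rcases hε with h1 | h1 <;> rw [h1]
      · exact sym_one_left b
      · exact sym_neg_one b
    rw [hkk, huε, sym_mul_left, sym_mul_left, sym_mul_left, hεb, sym_pow_left, sym_pow_left,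
      one_mul]
  have hcopk : ∀ b, Primary b → IsCoprime b k0 → IsCoprime k b := by
    intro b hb hbk
    rw [hkk]
    refine IsCoprime.mul_left (IsCoprime.mul_left ?_ (IsCoprime.pow_left hb.isCoprime_lam)) hbk.symm
    obtain ⟨v, rfl⟩ := hu
    exact ⟨((v⁻¹ : Oˣ) : O), 0, by simp⟩
  have h93 : (3 : O) ∣ 9 := ⟨3, by norm_num⟩
  by_cases hcube : ∃ e, Primary e ∧ k0 = e ^ 3
  · obtain ⟨e, he, hke⟩ := hcube
    -- the exponent of a test element `t = 1 + 3 (m + n ω)`
    have key : ∀ m n : ℤ, ∃ b, Primary b ∧ IsCoprime k b ∧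
        sym k b = ((omU ^ (-(m + n) * i + m * j) : Oˣ) : O) := by
      intro m n
      obtain ⟨b, hb1, hb2⟩ := exists_crt h9k0 ⟨1 + 3 * m, 3 * n⟩ 1
      have hbp : Primary b := by
        have h1 : Primary (⟨1 + 3 * m, 3 * n⟩ : O) := by
          rw [primary_iff]
          exact ⟨⟨m, by ring⟩, ⟨n, rfl⟩⟩
        have h2 : b - 1 = (b - ⟨1 + 3 * m, 3 * n⟩) + (⟨1 + 3 * m, 3 * n⟩ - 1) := by ring
        rw [Primary, h2]
        exact dvd_add (h93.trans hb1) h1
      have hbk : IsCoprime b k0 := IsCoprime.of_dvd_sub isCoprime_one_left hb2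
      refine ⟨b, hbp, hcopk b hbp hbk, ?_⟩
      have e1 : sym k0 b = 1 := by
        rw [recip hk0 hbp, sym_periodic hb2, sym_one_left]
      have e2 : sym om b = ((omU ^ (-(m + n)) : Oˣ) : O) := by
        rw [sym_om_congr hbp hb1]
        exact sym_om' rfl rfl
      have e3 : sym lam b = ((omU ^ m : Oˣ) : O) := by
        rw [sym_lam_congr hbp hb1]
        exact sym_lam (n := n) rfl rfl
      rw [hsym, e1, e2, e3, mul_one, ← Units.val_pow_eq_pow_val, ← Units.val_pow_eq_pow_val,
        ← Units.val_mul, ← zpow_natCast, ← zpow_natCast, ← zpow_mul, ← zpow_mul, ← zpow_add]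
    have hne : ∀ z : ℤ, z % 3 ≠ 0 → ((omU ^ z : Oˣ) : O) ≠ 1 := by
      intro z hz h1
      have h2 : z % 3 = 1 ∨ z % 3 = 2 := by omega
      rcases h2 with h2 | h2
      · rw [omU_zpow_congr (n := 1) (by omega), zpow_one] at h1
        exact absurd h1 (by decide)
      · rw [omU_zpow_congr (n := 2) (by omega)] at h1
        have h3 : omU ^ (2 : ℤ) = omU ^ 2 := by exact_mod_cast rfl
        rw [h3, Units.val_pow_eq_pow_val, omU_val] at h1
        exact absurd h1 (by decide)
    by_cases hi0 : i = 0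
    · have hj : ¬ 3 ∣ j := by
        rintro ⟨j', hj'⟩
        apply h
        rcases hε with h1 | h1
        · exact ⟨lam ^ j' * e, by rw [hkk, huε, hi0, h1, hj', hke]; ring⟩
        · exact ⟨-(lam ^ j' * e), by rw [hkk, huε, hi0, h1, hj', hke]; ring⟩
      obtain ⟨b, hb, hkb, hs⟩ := key 1 (-1)
      refine ⟨b, hb, hkb, ?_⟩
      rw [hs]
      apply hne
      rw [hi0]
      push_cast
      omega
    · obtain ⟨b, hb, hkb, hs⟩ := key 0 1
      refine ⟨b, hb, hkb, ?_⟩
      rw [hs]
      apply hne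
      push_cast
      omega
  · obtain ⟨a, ha, hane⟩ := exists_sym_ne_one_of_not_cube hk0 hcube
    obtain ⟨b, hb1, hb2⟩ := exists_crt h9k0 1 a
    have hbp : Primary b := h93.trans hb1
    have hbk : IsCoprime b k0 := IsCoprime.of_dvd_sub ha hb2
    refine ⟨b, hbp, hcopk b hbp hbk, ?_⟩
    rw [hsym, sym_om_congr hbp hb1, sym_lam_congr hbp hb1, sym_one_right, sym_one_right,
      recip hk0 hbp, sym_periodic hb2]
    simpa using hane

end Vale.Agent.P006
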