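import Vale.Agent.P006.CR.GaussSum

/-!
P006, block CR: values of the cubic Gauss sums at prime powers.
-/

namespace Vale.Agent.P006

open scoped BigOperators

/-- twisted multiplicativity in the form `g(μ,ab) = g(μ,a) g(aμ,b)` for coprime primary `a, b` -/
theorem gs_mul' {a b : O} (μ : O) (ha : Primary a) (hb : Primary b) (hab : IsCoprime a b) :
    gs μ (a * b) = gs μ a * gs (a * μ) b := by
  rw [gs_mul_primary μ ha hb hab, gs_twist μ hb.ne_zero hab]; ring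

theorem gt_mul' {a b : O} (μ : O) (ha : Primary a) (hb : Primary b) (hab : IsCoprime a b) :
    gt μ (a * b) = gt μ a * gt (a * μ) b := by
  rw [gt, gs_mul' μ ha hb hab, gt, gt, N_mul]
  push_cast
  rw [Real.sqrt_mul (Nat.cast_nonneg _)]
  push_cast
  ring

section primepow

variable {π : O}

theorem sym_prime_pow_congr (hπ : Prime π) (k : ℕ) (x y : O) (h : π ∣ x - y) :
    sym x (π * π ^ k) = sym y (π * π ^ k) := by
  rw [← pow_succ', sym_pow_right _ hπ.ne_zero, sym_pow_right _ hπ.ne_zero, sym_periodic h]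

/-- `g(μ, π^(k+1)) = 0` unless `π^k ∣ μ` -/
theorem gs_pow_eq_zero (hπ : Prime π) (hl : ¬ lam ∣ π) {k : ℕ} {μ : O} (hμ : ¬ π ^ k ∣ μ) :
    gs μ (π ^ (k + 1)) = 0 := by
  rw [pow_succ']
  exact gs_eq_zero_of_not_dvd hπ.ne_zero (pow_ne_zero k hπ.ne_zero)
    (IsCoprime.pow_left (isCoprime_lam_of_prime hπ hl)) (sym_prime_pow_congr hπ k) hμ

theorem gs_pow_mul (hπ : Prime π) (k : ℕ) (μ : O) [NeZero π] :
    gs (π ^ k * μ) (π ^ (k + 1))
      = (N π : ℂ) ^ k * ∑ y : Rs π, chi π y ^ (k + 1) * psi π (rs π μ * y) := by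
  rw [pow_succ', gs_mul_of_dvd (pow_ne_zero k hπ.ne_zero) (sym_prime_pow_congr hπ k), N_pow]
  push_cast
  congr 1
  refine Finset.sum_congr rfl fun y _ => ?_
  rw [← pow_succ', sym_pow_right _ hπ.ne_zero, map_pow, ← chi_rs, rs_outR]

theorem chi_pow_three_mul {c : O} (x : Rs c) (j i : ℕ) (hi : 0 < i) :
    chi c x ^ (3 * j + i) = chi c x ^ i := by
  by_cases hx : IsUnit x
  · rw [pow_add, pow_mul, chi_cube hx, one_pow, one_mul]
  · rw [MulChar.map_nonunit _ hx, zero_pow (by omega), zero_pow (by omega)]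

/-- `g(π^k μ, π^(k+1)) = N(π)^k g(μ,π)` for `k ≡ 0 mod 3` -/
theorem gs_pow_mul_one (hπ : Prime π) (j : ℕ) (μ : O) :
    gs (π ^ (3 * j) * μ) (π ^ (3 * j + 1)) = (N π : ℂ) ^ (3 * j) * gs μ π := by
  have : NeZero π := ⟨hπ.ne_zero⟩
  rw [gs_pow_mul hπ, gs_eq_sum]
  congr 1
  refine Finset.sum_congr rfl fun y _ => ?_
  rw [chi_pow_three_mul y j 1 one_pos, pow_one]

theorem conj_chi {c : O} (x : Rs c) : (starRingEnd ℂ) (chi c x) = chi c x ^ 2 := by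
  obtain ⟨x, rfl⟩ := rs_surj c x
  rw [chi_rs, conj_sym]

/-- `g(π^k μ, π^(k+1)) = N(π)^k conj g(μ,π)` for `k ≡ 1 mod 3` -/
theorem gs_pow_mul_two (hπ : Prime π) (j : ℕ) (μ : O) :
    gs (π ^ (3 * j + 1) * μ) (π ^ (3 * j + 2))
      = (N π : ℂ) ^ (3 * j + 1) * (starRingEnd ℂ) (gs μ π) := by
  have : NeZero π := ⟨hπ.ne_zero⟩
  rw [show 3 * j + 2 = 3 * j + 1 + 1 by ring, gs_pow_mul hπ, ← gs_neg μ hπ.ne_zero, gs_eq_sum,
    map_sum]
  congr 1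
  refine Finset.sum_congr rfl fun y _ => ?_
  rw [show 3 * j + 1 + 1 = 3 * j + 2 by ring, chi_pow_three_mul y j 2 two_pos,
    map_mul (starRingEnd ℂ), conj_chi, conj_psi, map_neg (rs π), neg_mul, neg_neg]

/-- `g(π^k μ, π^(k+1)) = N(π)^k (N(π) - 1 or -1)` for `k ≡ 2 mod 3` -/
theorem gs_pow_mul_three (hπ : Prime π) (hl : ¬ lam ∣ π) (j : ℕ) (μ : O) :
    gs (π ^ (3 * j + 2) * μ) (π ^ (3 * j + 3))
      = (N π : ℂ) ^ (3 * j + 2) * (if π ∣ μ then (N π : ℂ) - 1 else -1) := by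
  classical
  have : NeZero π := ⟨hπ.ne_zero⟩
  have hf : Fact (Prime π) := ⟨hπ⟩
  rw [show 3 * j + 3 = 3 * j + 2 + 1 by ring, gs_pow_mul hπ]
  congr 1
  have h1 : ∀ y : Rs π, chi π y ^ (3 * j + 2 + 1) * psi π (rs π μ * y)
      = psi π (rs π μ * y) - if y = 0 then 1 else 0 := by
    intro y
    rw [show 3 * j + 2 + 1 = 3 * j + 3 by ring, chi_pow_three_mul y j 3 (by norm_num)]
    by_cases hy : y = 0
    · subst hy
      rw [MulChar.map_zero]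
      simp
    · rw [chi_cube (isUnit_iff_ne_zero.2 hy), if_neg hy]; ring
  simp only [h1]
  rw [Finset.sum_sub_distrib, sum_psi_mul, Finset.sum_ite_eq' Finset.univ (0 : Rs π)]
  have h2 : (π ∣ lam * μ) ↔ π ∣ μ := by
    constructor
    · exact fun h => (hπ.dvd_or_dvd h).resolve_left (not_dvd_lam hπ hl)
    · exact fun h => h.mul_left _
  simp only [Finset.mem_univ, if_true]
  by_cases h3 : π ∣ μ
  · rw [if_pos h3, if_pos (h2.2 h3)]
  · rw [if_neg h3, if_neg (fun h => h3 (h2.1 h))]; ring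

/-- `g(μ,π²) = 0` for `π ∤ μ` -/
theorem gs_sq_eq_zero (hπ : Prime π) (hl : ¬ lam ∣ π) {μ : O} (hμ : ¬ π ∣ μ) :
    gs μ (π ^ 2) = 0 :=
  gs_pow_eq_zero hπ hl (k := 1) (by rwa [pow_one])

/-- `g(πμ,π²) = N(π) conj g(μ,π)` -/
theorem gs_mul_sq (hπ : Prime π) (μ : O) :
    gs (π * μ) (π ^ 2) = (N π : ℂ) * (starRingEnd ℂ) (gs μ π) := by
  have h := gs_pow_mul_two hπ 0 μ
  simpa using h

theorem sqrt_N_sq {c : O} : ((Real.sqrt (N c) : ℝ) : ℂ) * ((Real.sqrt (N c) : ℝ) : ℂ) = N c := by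
  rw [← Complex.ofReal_mul, Real.mul_self_sqrt (Nat.cast_nonneg _)]; simp

/-- `g̃(πμ,π²) = N(π)^{1/2} conj g̃(μ,π)` -/
theorem gt_mul_sq (hπ : Prime π) (μ : O) :
    gt (π * μ) (π ^ 2) = (Real.sqrt (N π) : ℂ) * (starRingEnd ℂ) (gt μ π) := by
  have h1 : (0 : ℝ) < Real.sqrt (N π) := Real.sqrt_pos.2 (by exact_mod_cast N_pos hπ.ne_zero)
  have h2 : ((Real.sqrt (N π) : ℝ) : ℂ) ≠ 0 := by exact_mod_cast h1.ne'
  have h3 : Real.sqrt (N (π ^ 2) : ℝ) = N π := by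
    rw [N_pow]; push_cast; exact Real.sqrt_sq (Nat.cast_nonneg _)
  rw [gt, gs_mul_sq hπ, gt, h3, map_div₀, Complex.conj_ofReal, Complex.ofReal_natCast]
  rw [← sqrt_N_sq]
  field_simp

/-- `g(π²μ,π³) = N(π)² (N(π)-1 or -1)` -/
theorem gs_sq_mul_cube (hπ : Prime π) (hl : ¬ lam ∣ π) (μ : O) :
    gs (π ^ 2 * μ) (π ^ 3) = (N π : ℂ) ^ 2 * (if π ∣ μ then (N π : ℂ) - 1 else -1) := by
  have h := gs_pow_mul_three hπ hl 0 μ
  simpa using h

/-- `g(μ,π^j)` for `π ∤ μ`, `j ≥ 2` vanishes -/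
theorem gs_pow_eq_zero_of_not_dvd (hπ : Prime π) (hl : ¬ lam ∣ π) {j : ℕ} (hj : 2 ≤ j) {μ : O}
    (hμ : ¬ π ∣ μ) : gs μ (π ^ j) = 0 := by
  obtain ⟨k, rfl⟩ : ∃ k, j = k + 1 := ⟨j - 1, by omega⟩
  apply gs_pow_eq_zero hπ hl
  intro h
  exact hμ ((dvd_pow_self π (by omega)).trans h)

end primepow

end Vale.Agent.P006
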