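import Vale.Agent.P006.CR.Reciprocity

/-!
P006, block CR: cubic Gauss sums `gs μ c = ∑_{x mod c} (x/c)_3 e(Tr(μ x / c))`.
-/

namespace Vale.Agent.P006

open scoped BigOperators

/-- the cubic Gauss sum `g(μ,c) = ∑_{x mod c} (x/c)_3 e(Tr(μ x/c))` -/
noncomputable def gs (μ c : O) : ℂ := ∑ᶠ x : Rs c, chi c x * psi c (rs c μ * x)

theorem gs_eq_sum (μ c : O) [NeZero c] :
    gs μ c = ∑ x : Rs c, chi c x * psi c (rs c μ * x) := by
  rw [gs, finsum_eq_sum_of_fintype]

theorem gs_eq_gaussSum (μ c : O) [NeZero c] :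
    gs μ c = gaussSum (chi c) (AddChar.mulShift (psi c) (rs c μ)) := by
  rw [gs_eq_sum, gaussSum]
  simp only [AddChar.mulShift_apply]

theorem gs_congr {μ μ' c : O} (h : c ∣ μ - μ') : gs μ c = gs μ' c := by
  rw [gs, gs, rs_eq.2 h]

theorem norm_psi (c : O) (x : Rs c) : ‖psi c x‖ = 1 := by
  obtain ⟨x, rfl⟩ := rs_surj c x
  rw [psi_rs, norm_e]

theorem norm_chi_le (c : O) (x : Rs c) : ‖chi c x‖ ≤ 1 := by
  obtain ⟨x, rfl⟩ := rs_surj c x
  exact norm_sym_le x c

/-- trivial bound -/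
theorem norm_gs_le (μ c : O) [NeZero c] : ‖gs μ c‖ ≤ N c := by
  rw [gs_eq_sum]
  refine (norm_sum_le _ _).trans ?_
  have h : ∀ x ∈ (Finset.univ : Finset (Rs c)), ‖chi c x * psi c (rs c μ * x)‖ ≤ 1 := by
    intro x _
    rw [norm_mul, norm_psi, mul_one]
    exact norm_chi_le c x
  refine (Finset.sum_le_sum h).trans ?_
  rw [Finset.sum_const, Finset.card_univ, fcard_Rs]
  simp

@[simp] theorem gs_one_right (μ : O) : gs μ 1 = 1 := by
  have : NeZero (1 : O) := ⟨one_ne_zero⟩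
  rw [gs_eq_sum]
  have hs : ∀ x : Rs (1 : O), x = rs 1 0 := by
    intro x
    obtain ⟨x, rfl⟩ := rs_surj 1 x
    rw [rs_eq]; exact one_dvd _
  have : Subsingleton (Rs (1 : O)) := ⟨fun x y => by rw [hs x, hs y]⟩
  rw [Fintype.sum_subsingleton _ (rs 1 0), ← map_mul, mul_zero, chi_rs, sym_one_right, psi_rs]
  simp

/-- twisting: `g(ν μ, c) = conj (ν/c) g(μ, c)` for `(ν, c) = 1` -/
theorem gs_twist {ν c : O} (μ : O) (hc : c ≠ 0) (h : IsCoprime ν c) :
    gs (ν * μ) c = (starRingEnd ℂ) (toC (sym ν c)) * gs μ c := by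
  have : NeZero c := ⟨hc⟩
  have hu : IsUnit (rs c ν) := isUnit_rs_iff.2 h
  rw [gs_eq_gaussSum, gs_eq_gaussSum]
  have h1 := gaussSum_mulShift_eq (chi c) (AddChar.mulShift (psi c) (rs c μ)) hu.unit
  rw [AddChar.mulShift_mulShift, IsUnit.unit_spec] at h1
  rw [map_mul, mul_comm (rs c ν), h1, ← MulChar.star_apply', chi_rs]
  rfl

theorem gs_twist_one {μ c : O} (hc : c ≠ 0) (h : IsCoprime μ c) :
    gs μ c = (starRingEnd ℂ) (toC (sym μ c)) * gs 1 c := by
  rw [← gs_twist 1 hc h, mul_one]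

theorem gs_neg (μ : O) {c : O} (hc : c ≠ 0) : gs (-μ) c = gs μ c := by
  rw [← neg_one_mul, gs_twist μ hc isCoprime_one_left.neg_left, sym_neg_one, map_one, map_one,
    one_mul]

theorem gs_cube_mul {ν c : O} (μ : O) (hc : c ≠ 0) (h : IsCoprime ν c) :
    gs (ν ^ 3 * μ) c = gs μ c := by
  rw [gs_twist μ hc (IsCoprime.pow_left h), sym_pow_left, sym_cube h, map_one, map_one, one_mul]

/-- twisted multiplicativity -/
theorem gs_mul {a b : O} (μ : O) (ha : a ≠ 0) (hb : b ≠ 0) (hab : IsCoprime a b) :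
    gs μ (a * b) = toC (sym b a * sym a b) * gs μ a * gs μ b := by
  have : NeZero a := ⟨ha⟩
  have : NeZero b := ⟨hb⟩
  have : NeZero (a * b) := ⟨mul_ne_zero ha hb⟩
  rw [gs_eq_sum, gs_eq_sum, gs_eq_sum, sum_crt ha hb hab]
  rw [mul_assoc, Finset.sum_mul_sum, Finset.mul_sum]
  refine Finset.sum_congr rfl fun x _ => ?_
  rw [Finset.mul_sum]
  refine Finset.sum_congr rfl fun y _ => ?_
  obtain ⟨x, rfl⟩ := rs_surj a x
  obtain ⟨y, rfl⟩ := rs_surj b y
  have ha' : toC a ≠ 0 := by simpa using ha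
  have hb' : toC b ≠ 0 := by simpa using hb
  rw [mulL_rs, mulL_rs, ← map_add, ← map_mul, ← map_mul, ← map_mul, chi_rs, chi_rs, chi_rs,
    psi_rs, psi_rs, psi_rs, sym_mul_right _ ha hb]
  have e1 : sym (b * x + a * y) a = sym b a * sym x a := by
    rw [← sym_mul_left]; exact sym_periodic ⟨y, by ring⟩
  have e2 : sym (b * x + a * y) b = sym a b * sym y b := by
    rw [← sym_mul_left]; exact sym_periodic ⟨x, by ring⟩
  have e3 : toC (μ * (b * x + a * y)) / toC (a * b)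
      = toC (μ * x) / toC a + toC (μ * y) / toC b := by
    simp only [map_mul, map_add]
    field_simp
  rw [e1, e2, e3, TrC_add, e_add]
  simp only [map_mul]
  ring

/-- twisted multiplicativity for primary moduli: `g(μ,ab) = conj(a/b) g(μ,a) g(μ,b)` -/
theorem gs_mul_primary {a b : O} (μ : O) (ha : Primary a) (hb : Primary b) (hab : IsCoprime a b) :
    gs μ (a * b) = (starRingEnd ℂ) (toC (sym a b)) * gs μ a * gs μ b := by
  rw [gs_mul μ ha.ne_zero hb.ne_zero hab, recip hb ha, conj_sym, map_mul, sq]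

/-- conjugation `O/(c) → O/(star c)` -/
def starR (c : O) : Rs c →+* Rs (star c) :=
  Ideal.Quotient.lift (Ideal.span {c}) ((rs (star c)).comp (starRingEnd O)) (by
    intro a ha
    rw [Ideal.mem_span_singleton] at ha
    rw [RingHom.comp_apply, starRingEnd_apply, rs_eq_zero, star_dvd_iff, star_star]
    exact ha)

@[simp] theorem starR_rs (c x : O) : starR c (rs c x) = rs (star c) (star x) := rfl

theorem starR_bijective (c : O) : Function.Bijective (starR c) := by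
  refine ⟨?_, ?_⟩
  · rw [injective_iff_map_eq_zero]
    intro x hx
    obtain ⟨x, rfl⟩ := rs_surj c x
    rw [starR_rs, rs_eq_zero, star_dvd_iff, star_star] at hx
    rwa [rs_eq_zero]
  · intro y
    obtain ⟨y, rfl⟩ := rs_surj (star c) y
    exact ⟨rs c (star y), by rw [starR_rs, star_star]⟩

theorem TrC_star (z : ℂ) : TrC ((starRingEnd ℂ) z) = TrC z := by
  simp [TrC]

theorem conj_psi (c : O) (x : Rs c) : (starRingEnd ℂ) (psi c x) = psi c (-x) := by
  obtain ⟨x, rfl⟩ := rs_surj c x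
  rw [← map_neg, psi_rs, psi_rs, map_neg, neg_div, TrC_neg, e_neg]

theorem psi_starR (c : O) (x : Rs c) : psi (star c) (starR c x) = psi c x := by
  obtain ⟨x, rfl⟩ := rs_surj c x
  rw [starR_rs, psi_rs, psi_rs, toC_star, toC_star, ← map_div₀, TrC_star]

theorem chi_starR (c : O) (x : Rs c) : chi (star c) (starR c x) = (starRingEnd ℂ) (chi c x) := by
  obtain ⟨x, rfl⟩ := rs_surj c x
  rw [starR_rs, chi_rs, chi_rs, conj_sym']

/-- conjugation -/
theorem gs_star (μ : O) {c : O} (hc : c ≠ 0) :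
    gs (star μ) (star c) = (starRingEnd ℂ) (gs μ c) := by
  have : NeZero c := ⟨hc⟩
  have : NeZero (star c) := ⟨by simpa using hc⟩
  rw [← gs_neg μ hc, gs_eq_sum, gs_eq_sum, map_sum,
    ← (Equiv.ofBijective _ (starR_bijective c)).sum_comp]
  refine Finset.sum_congr rfl fun x _ => ?_
  rw [Equiv.ofBijective_apply, ← starR_rs, ← map_mul (starR c), psi_starR, chi_starR,
    map_mul (starRingEnd ℂ), conj_psi, map_neg (rs c), neg_mul, neg_neg]

/-! ### Sums over residue classes and reduction of the modulus -/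

/-- a set of representatives -/
noncomputable def outR (c : O) : Rs c → O := Function.surjInv (rs_surj c)

@[simp] theorem rs_outR (c : O) (x : Rs c) : rs c (outR c x) = x :=
  Function.surjInv_eq (rs_surj c) x

theorem sum_decomp {M : Type*} [AddCommMonoid M] {r s : O} [NeZero r] [NeZero s] [NeZero (r * s)]
    (f : Rs (r * s) → M) :
    ∑ x : Rs (r * s), f x = ∑ y : Rs r, ∑ z : Rs s,
      f (rs (r * s) (outR r y) + mulL r s (r * s) rfl z) := by
  have hr : r ≠ 0 := NeZero.ne r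
  have hs : s ≠ 0 := NeZero.ne s
  have hbij : Function.Bijective (fun p : Rs r × Rs s =>
      rs (r * s) (outR r p.1) + mulL r s (r * s) rfl p.2) := by
    rw [Fintype.bijective_iff_injective_and_card]
    refine ⟨?_, ?_⟩
    · rintro ⟨y, z⟩ ⟨y', z'⟩ h
      obtain ⟨z, rfl⟩ := rs_surj s z
      obtain ⟨z', rfl⟩ := rs_surj s z'
      simp only [mulL_rs, ← map_add] at h
      rw [rs_eq] at h
      have h1 : y = y' := by
        rw [← rs_outR r y, ← rs_outR r y', rs_eq]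
        have h2 : outR r y - outR r y' = (outR r y + r * z - (outR r y' + r * z'))
          - r * (z - z') := by ring
        rw [h2]
        exact dvd_sub ((dvd_mul_right r s).trans h) (dvd_mul_right r _)
      subst h1
      have h3 : outR r y + r * z - (outR r y + r * z') = r * (z - z') := by ring
      rw [h3] at h
      rw [Prod.mk.injEq, rs_eq]
      exact ⟨rfl, (mul_dvd_mul_iff_left hr).1 h⟩
    · rw [Fintype.card_prod, fcard_Rs, fcard_Rs, fcard_Rs, N_mul]
  rw [← (Equiv.ofBijective _ hbij).sum_comp, Fintype.sum_prod_type]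
  rfl

theorem sum_comp_redR {r s : O} [NeZero r] [NeZero s] [NeZero (r * s)] (F : Rs r → ℂ) :
    ∑ x : Rs (r * s), F (redR r (r * s) (dvd_mul_right r s) x) = N s * ∑ y : Rs r, F y := by
  rw [sum_decomp, Finset.mul_sum]
  refine Finset.sum_congr rfl fun y _ => ?_
  have : ∀ z : Rs s, redR r (r * s) (dvd_mul_right r s)
      (rs (r * s) (outR r y) + mulL r s (r * s) rfl z) = y := by
    intro z
    obtain ⟨z, rfl⟩ := rs_surj s z
    rw [mulL_rs, ← map_add, redR_rs, ← rs_outR r y, rs_eq, rs_outR]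
    exact ⟨z, by ring⟩
  simp only [this]
  rw [Finset.sum_const, Finset.card_univ, fcard_Rs, nsmul_eq_mul]

/-- Reduction of the modulus: if `(·/rs)` depends only on the class modulo `r`, then `g(μ, rs)`
vanishes unless `s ∣ μ` -/
theorem gs_eq_zero_of_not_dvd {r s : O} (hr : r ≠ 0) (hs : s ≠ 0) (hl : IsCoprime s lam)
    (h : ∀ x y : O, r ∣ x - y → sym x (r * s) = sym y (r * s)) {μ : O} (hμ : ¬ s ∣ μ) :
    gs μ (r * s) = 0 := by
  have : NeZero r := ⟨hr⟩
  have : NeZero s := ⟨hs⟩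
  have : NeZero (r * s) := ⟨mul_ne_zero hr hs⟩
  have h1 : ¬ s ∣ lam * μ := fun h1 => hμ (hl.dvd_of_dvd_mul_left h1)
  rw [← psi_trivial_iff hs] at h1
  push Not at h1
  obtain ⟨t, ht⟩ := h1
  have hr' : toC r ≠ 0 := by simpa using hr
  have key : gs μ (r * s) = psi s (rs s (μ * t)) * gs μ (r * s) := by
    rw [gs_eq_sum, Finset.mul_sum, ← Equiv.sum_comp (Equiv.addRight (rs (r * s) (r * t)))]
    refine Finset.sum_congr rfl fun x _ => ?_
    obtain ⟨x, rfl⟩ := rs_surj _ x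
    have e0 : (Equiv.addRight (rs (r * s) (r * t))) (rs (r * s) x) = rs (r * s) (x + r * t) := by
      rw [map_add]; rfl
    rw [e0, ← map_mul, ← map_mul, chi_rs, chi_rs, psi_rs, psi_rs,
      psi_rs, h (x + r * t) x ⟨t, by ring⟩]
    have e3 : toC (μ * (x + r * t)) / toC (r * s)
        = toC (μ * t) / toC s + toC (μ * x) / toC (r * s) := by
      have hs' : toC s ≠ 0 := by simpa using hs
      simp only [map_mul, map_add]
      field_simp
      ring
    rw [e3, TrC_add, e_add]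
    ring
  by_contra h0
  apply ht
  exact (mul_right_cancel₀ h0 (by rw [one_mul]; exact key.symm))

/-- Reduction of the modulus, the case `s ∣ μ` -/
theorem gs_mul_of_dvd {r s : O} [NeZero r] (hs : s ≠ 0)
    (h : ∀ x y : O, r ∣ x - y → sym x (r * s) = sym y (r * s)) (μ : O) :
    gs (s * μ) (r * s) = N s * ∑ y : Rs r, toC (sym (outR r y) (r * s)) * psi r (rs r μ * y) := by
  have hr : r ≠ 0 := NeZero.ne r
  have : NeZero s := ⟨hs⟩
  have : NeZero (r * s) := ⟨mul_ne_zero hr hs⟩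
  rw [← sum_comp_redR, gs_eq_sum]
  refine Finset.sum_congr rfl fun x _ => ?_
  obtain ⟨x, rfl⟩ := rs_surj _ x
  rw [redR_rs, ← map_mul, ← map_mul, psi_rs, psi_rs, chi_rs]
  have hs' : toC s ≠ 0 := by simpa using hs
  have hr' : toC r ≠ 0 := by simpa using hr
  have e1 : toC (s * μ * x) / toC (r * s) = toC (μ * x) / toC r := by
    simp only [map_mul]
    field_simp
  rw [e1, h x (outR r (rs r x)) (by rw [← rs_eq, rs_outR])]

/-! ### Prime moduli -/

section prime

variable {π : O}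

theorem not_dvd_lam (hπ : Prime π) (hl : ¬ lam ∣ π) : ¬ π ∣ lam := fun h =>
  hl (hπ.associated_of_dvd prime_lam h).symm.dvd

theorem isCoprime_lam_of_prime (hπ : Prime π) (hl : ¬ lam ∣ π) : IsCoprime π lam :=
  (hπ.coprime_iff_not_dvd).2 (not_dvd_lam hπ hl)

theorem chi_ne_one (hπ : Prime π) (hl : ¬ lam ∣ π) : chi π ≠ 1 := by
  rw [chi_eq]
  exact chiO_comp_ne_one hπ hl toC (by simpa using prime_lam.ne_zero)

theorem mulShift_isPrimitive (hπ : Prime π) (hl : ¬ lam ∣ π) {μ : O} (hμ : ¬ π ∣ μ) :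
    (AddChar.mulShift (psi π) (rs π μ)).IsPrimitive := by
  have : Fact (Prime π) := ⟨hπ⟩
  apply AddChar.IsPrimitive.of_ne_one
  apply psi_isPrimitive hπ.ne_zero (isCoprime_lam_of_prime hπ hl)
  rwa [Ne, rs_eq_zero]

theorem norm_gs_prime (hπ : Prime π) (hl : ¬ lam ∣ π) {μ : O} (hμ : ¬ π ∣ μ) :
    ‖gs μ π‖ ^ 2 = N π := by
  have : Fact (Prime π) := ⟨hπ⟩
  have h := gaussSum_mul_gaussSum_eq_card (chi_ne_one hπ hl) (mulShift_isPrimitive hπ hl hμ)
  rw [← star_gaussSum_eq, ← gs_eq_gaussSum, fcard_Rs] at h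
  have h2 : gs μ π * star (gs μ π) = ((‖gs μ π‖ ^ 2 : ℝ) : ℂ) := by
    have := Complex.mul_conj (gs μ π)
    rw [Complex.normSq_eq_norm_sq] at this
    exact this
  rw [h2] at h
  exact_mod_cast h

theorem gs_prime_of_dvd (hπ : Prime π) (hl : ¬ lam ∣ π) {μ : O} (hμ : π ∣ μ) : gs μ π = 0 := by
  have : Fact (Prime π) := ⟨hπ⟩
  rw [gs_eq_gaussSum, rs_eq_zero.2 hμ, AddChar.mulShift_zero]
  exact gaussSum_one_right (chi_ne_one hπ hl)

/-- `g(1,π)³ = -N(π) π` for a primary prime -/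
theorem gs_one_prime_cube (hπ : Prime π) (hp : Primary π) :
    gs 1 π ^ 3 = toC (-(N π : O) * π) := by
  have : Fact (Prime π) := ⟨hπ⟩
  have hl := hp.not_lam_dvd
  have h1 : ¬ π ∣ 1 := fun h => hπ.not_isUnit (isUnit_of_dvd_one h)
  rw [← gaussSum_cube hp toC (by simpa using prime_lam.ne_zero) (mulShift_isPrimitive hπ hl h1),
    gs_eq_gaussSum, chi_eq]

end prime

/-- `g(μ,c) = 0` if `π² ∣ c` and `π ∤ μ` -/
theorem gs_eq_zero_of_sq_dvd {π d μ : O} (hπ : Prime π) (hl : ¬ lam ∣ π) (hd : d ≠ 0)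
    (hμ : ¬ π ∣ μ) : gs μ (π ^ 2 * d) = 0 := by
  have h1 : π ^ 2 * d = (π * d) * π := by ring
  rw [h1]
  apply gs_eq_zero_of_not_dvd (mul_ne_zero hπ.ne_zero hd) hπ.ne_zero (isCoprime_lam_of_prime hπ hl)
    _ hμ
  intro x y hxy
  rw [sym_mul_right _ (mul_ne_zero hπ.ne_zero hd) hπ.ne_zero,
    sym_mul_right _ (mul_ne_zero hπ.ne_zero hd) hπ.ne_zero, sym_periodic hxy,
    sym_periodic ((dvd_mul_right π d).trans hxy)]

theorem exists_prime_sq_dvd {c : O} (hc : c ≠ 0) (hs : ¬ Squarefree c) :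
    ∃ π : O, Prime π ∧ π * π ∣ c := by
  rw [squarefree_iff_irreducible_sq_not_dvd_of_ne_zero hc] at hs
  push Not at hs
  obtain ⟨π, h1, h2⟩ := hs
  exact ⟨π, h1.prime, h2⟩

/-- `g(μ,c) = 0` for `(μ,c) = 1` and `c` not squarefree (`c` prime to 3) -/
theorem gs_eq_zero_of_not_squarefree {μ c : O} (hc : c ≠ 0) (hl : ¬ lam ∣ c) (hμ : IsCoprime μ c)
    (hs : ¬ Squarefree c) : gs μ c = 0 := by
  obtain ⟨π, hπ, d, hd⟩ := exists_prime_sq_dvd hc hs
  have hlπ : ¬ lam ∣ π := fun h => hl (by rw [hd]; exact (h.mul_right _).mul_right _)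
  have hd0 : d ≠ 0 := by rintro rfl; exact hc (by rw [hd, mul_zero])
  have h1 : c = π ^ 2 * d := by rw [hd]; ring
  have hμπ : ¬ π ∣ μ := by
    intro h
    have : π ∣ c := by rw [h1]; exact (dvd_pow_self π two_ne_zero).mul_right d
    exact hπ.not_isUnit (hμ.isUnit_of_dvd' h this)
  rw [h1]
  exact gs_eq_zero_of_sq_dvd hπ hlπ hd0 hμπ

/-- `g(μ,c) = 0` for `c` squarefree primary and `(μ,c) ≠ 1` -/
theorem gs_eq_zero_of_not_coprime {μ c : O} (hc : Primary c) (hs : Squarefree c)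
    (hμ : ¬ IsCoprime μ c) : gs μ c = 0 := by
  obtain ⟨π, hπ, hμπ, hcπ⟩ : ∃ π : O, Prime π ∧ π ∣ μ ∧ π ∣ c := by
    by_contra hcon
    push Not at hcon
    apply hμ
    apply isCoprime_of_prime_dvd
    · rintro ⟨-, h⟩; exact hc.ne_zero h
    · intro p hp h1 h2; exact hcon p hp h1 h2
  obtain ⟨d, hd⟩ := hcπ
  have hlπ : ¬ lam ∣ π := fun h => hc.not_lam_dvd (by rw [hd]; exact h.mul_right _)
  have hd0 : d ≠ 0 := by rintro rfl; exact hc.ne_zero (by rw [hd, mul_zero])
  have hcop : IsCoprime π d := by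
    rw [hπ.coprime_iff_not_dvd]
    rintro ⟨e, he⟩
    have : π * π ∣ c := ⟨e, by rw [hd, he]; ring⟩
    exact hπ.not_isUnit (hs π this)
  rw [hd, gs_mul μ hπ.ne_zero hd0 hcop, gs_prime_of_dvd hπ hlπ hμπ]
  ring

/-- `|g(μ,c)|² = N(c)` for `c` squarefree primary and `(μ,c) = 1` -/
theorem norm_gs_sq {μ c : O} (hc : Primary c) (hs : Squarefree c) (hμ : IsCoprime μ c) :
    ‖gs μ c‖ ^ 2 = N c := by
  revert hs hμ
  revert c
  have : ∀ c : O, Primary c → (Squarefree c → IsCoprime μ c → ‖gs μ c‖ ^ 2 = N c) := by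
    apply Primary.induction
    · intro _ _; simp
    · intro π b hπ hpπ hb ih hs hμ
      have hcop : IsCoprime π b := by
        rw [hπ.coprime_iff_not_dvd]
        rintro ⟨e, he⟩
        have : π * π ∣ π * b := ⟨e, by rw [he]; ring⟩
        exact hπ.not_isUnit (hs π this)
      have hμ1 : IsCoprime μ π := hμ.of_mul_right_left
      have hμ2 : IsCoprime μ b := hμ.of_mul_right_right
      have h1 : ¬ π ∣ μ := by rw [← hπ.coprime_iff_not_dvd]; exact hμ1.symm
      rw [gs_mul_primary μ hpπ hb hcop, norm_mul, norm_mul, RCLike.norm_conj, norm_sym hcop,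
        one_mul, mul_pow, ih (hs.squarefree_of_dvd (dvd_mul_left b π)) hμ2,
        norm_gs_prime hπ hpπ.not_lam_dvd h1, N_mul]
      push_cast; ring
  exact fun {c} hc hs hμ => this c hc hs hμ

theorem norm_gs {μ c : O} (hc : Primary c) (hs : Squarefree c) (hμ : IsCoprime μ c) :
    ‖gs μ c‖ = Real.sqrt (N c) := by
  rw [← norm_gs_sq hc hs hμ, Real.sqrt_sq (norm_nonneg _)]

/-- square-root bound for `(μ,c) = 1` -/
theorem norm_gs_le_sqrt {μ c : O} (hc : Primary c) (hμ : IsCoprime μ c) :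
    ‖gs μ c‖ ≤ Real.sqrt (N c) := by
  by_cases hs : Squarefree c
  · exact (norm_gs hc hs hμ).le
  · rw [gs_eq_zero_of_not_squarefree hc.ne_zero hc.not_lam_dvd hμ hs, norm_zero]
    exact Real.sqrt_nonneg _

/-! ### Normalised Gauss sums -/

/-- the normalised Gauss sum `g(μ,c)/√N(c)` -/
noncomputable def gt (μ c : O) : ℂ := gs μ c / Real.sqrt (N c)

@[simp] theorem gt_one_right (μ : O) : gt μ 1 = 1 := by simp [gt]

theorem norm_gt {μ c : O} (hc : Primary c) (hs : Squarefree c) (hμ : IsCoprime μ c) :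
    ‖gt μ c‖ = 1 := by
  have h1 : (0 : ℝ) < Real.sqrt (N c) := Real.sqrt_pos.2 (by exact_mod_cast N_pos hc.ne_zero)
  rw [gt, norm_div, norm_gs hc hs hμ, Complex.norm_real, Real.norm_of_nonneg h1.le,
    div_self h1.ne']

theorem norm_gt_le {μ c : O} (hc : Primary c) (hμ : IsCoprime μ c) : ‖gt μ c‖ ≤ 1 := by
  have h1 : (0 : ℝ) < Real.sqrt (N c) := Real.sqrt_pos.2 (by exact_mod_cast N_pos hc.ne_zero)
  rw [gt, norm_div, Complex.norm_real, Real.norm_of_nonneg h1.le, div_le_one h1]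
  exact norm_gs_le_sqrt hc hμ

theorem gt_mul_primary {a b : O} (μ : O) (ha : Primary a) (hb : Primary b) (hab : IsCoprime a b) :
    gt μ (a * b) = (starRingEnd ℂ) (toC (sym a b)) * gt μ a * gt μ b := by
  rw [gt, gt, gt, gs_mul_primary μ ha hb hab, N_mul]
  push_cast
  rw [Real.sqrt_mul (Nat.cast_nonneg _)]
  push_cast
  ring

theorem gt_twist_one {μ c : O} (hc : c ≠ 0) (h : IsCoprime μ c) :
    gt μ c = (starRingEnd ℂ) (toC (sym μ c)) * gt 1 c := by
  rw [gt, gs_twist_one hc h, gt]; ring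

theorem gt_star (μ : O) {c : O} (hc : c ≠ 0) :
    gt (star μ) (star c) = (starRingEnd ℂ) (gt μ c) := by
  rw [gt, gs_star μ hc, gt, N_star, map_div₀, Complex.conj_ofReal]

/-- `g̃(1,π)³ = -π/|π|` for a primary prime -/
theorem gt_one_prime_cube {π : O} (hπ : Prime π) (hp : Primary π) :
    gt 1 π ^ 3 = -toC π / ‖toC π‖ := by
  have h1 : (0 : ℝ) < Real.sqrt (N π) := Real.sqrt_pos.2 (by exact_mod_cast N_pos hp.ne_zero)
  have h2 : ((Real.sqrt (N π) : ℝ) : ℂ) ≠ 0 := by exact_mod_cast h1.ne'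
  have h3 : ((Real.sqrt (N π) : ℝ) : ℂ) ^ 2 = N π := by
    rw [← Complex.ofReal_pow, Real.sq_sqrt (Nat.cast_nonneg _)]; simp
  rw [gt, div_pow, gs_one_prime_cube hπ hp, norm_toC, div_eq_div_iff (pow_ne_zero 3 h2) h2,
    map_mul, map_neg, toC_natCast, ← h3]
  ring

end Vale.Agent.P006
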