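import Vale.Agent.P006.CR.GaussPow
import Mathlib.NumberTheory.GaussSum

/-!
P006, block CR3 (helper474): further properties of the cubic Gauss sums of `CR/GaussSum.lean`
(same definitions `gs`, `gt`), in the namespace `Vale.Agent.P006.CRB`.
-/

namespace Vale.Agent.P006.CRB

open scoped BigOperators

theorem gs_eq (μ c : O) [NeZero c] : gs μ c = ∑ x : Rs c, chi c x * psi c (rs c μ * x) :=
  gs_eq_sum μ c

theorem gs_eq_gaussSum (μ c : O) [NeZero c] :
    gs μ c = gaussSum (chi c) ((psi c).mulShift (rs c μ)) := by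
  rw [gs_eq, gaussSum]
  simp only [AddChar.mulShift_apply]

theorem gs_periodic {μ ν c : O} (h : c ∣ μ - ν) : gs μ c = gs ν c := gs_congr h

theorem psi_zero_eq (x : Rs (0 : O)) : psi 0 x = 1 := by
  obtain ⟨x, rfl⟩ := rs_surj 0 x
  rw [psi_rs]; simp

/-- at `c = 0` the sum does not depend on `μ` -/
theorem gs_zero_const (μ ν : O) : gs μ 0 = gs ν 0 := by
  rw [gs, gs]; simp only [psi_zero_eq]

theorem conj_gs_zero (μ : O) : (starRingEnd ℂ) (gs μ 0) = gs μ 0 := by
  rw [gs]
  have h := AddEquiv.map_finsum (starRingAut (R := ℂ)).toAddEquiv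
    (fun x : Rs (0 : O) => chi 0 x * psi 0 (rs 0 μ * x))
  have h' : (starRingEnd ℂ) (∑ᶠ x : Rs (0 : O), chi 0 x * psi 0 (rs 0 μ * x))
      = ∑ᶠ x : Rs (0 : O), (starRingEnd ℂ) (chi 0 x * psi 0 (rs 0 μ * x)) := h
  rw [h']
  refine finsum_congr fun x => ?_
  obtain ⟨x, rfl⟩ := rs_surj 0 x
  rw [psi_zero_eq, mul_one, chi_rs, sym_zero_right]
  split_ifs <;> simp

theorem conj_mul_sym {a b : O} (h : IsCoprime a b) :
    (starRingEnd ℂ) (toC (sym a b)) * toC (sym a b) = 1 := by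
  rw [conj_sym, ← pow_succ, ← map_pow, sym_cube h, map_one]

theorem gs_mul {ν : O} (μ : O) {c : O} (h : IsCoprime ν c) :
    gs (ν * μ) c = (starRingEnd ℂ) (toC (sym ν c)) * gs μ c := by
  by_cases hc : c = 0
  · subst hc
    have h1 : N ν = 1 := by rw [← isUnit_iff_N]; rwa [isCoprime_zero_right] at h
    rw [sym_zero_right, if_pos h1, map_one, map_one, one_mul]
    exact gs_zero_const _ _
  have : NeZero c := ⟨hc⟩
  obtain ⟨u, hu⟩ := isUnit_rs_iff.2 h
  have h1 := gaussSum_mulShift (chi c) ((psi c).mulShift (rs c μ)) u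
  rw [hu] at h1
  have h2 : ((psi c).mulShift (rs c μ)).mulShift (rs c ν) = (psi c).mulShift (rs c (ν * μ)) := by
    ext x
    simp only [AddChar.mulShift_apply, map_mul]
    congr 1; ring
  rw [h2, ← gs_eq_gaussSum, ← gs_eq_gaussSum, chi_rs] at h1
  rw [← h1, ← mul_assoc, conj_mul_sym h, one_mul]

theorem gs_mul' {ν : O} (μ : O) {c : O} (h : IsCoprime ν c) :
    gs (μ * ν) c = (starRingEnd ℂ) (toC (sym ν c)) * gs μ c := by
  rw [mul_comm, gs_mul μ h]

theorem gs_coprime {ν c : O} (h : IsCoprime ν c) :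
    gs ν c = (starRingEnd ℂ) (toC (sym ν c)) * gs 1 c := by
  have := gs_mul 1 h
  rwa [mul_one] at this

theorem gs_neg (μ c : O) : gs (-μ) c = gs μ c := by
  have h : IsCoprime (-1 : O) c := isCoprime_one_left.neg_left
  have := gs_mul μ h
  rw [neg_one_mul, sym_neg_one, map_one, map_one, one_mul] at this
  exact this

theorem gs_cube_mul {ν : O} (μ : O) {c : O} (h : IsCoprime ν c) : gs (ν ^ 3 * μ) c = gs μ c := by
  rw [gs_mul μ h.pow_left, sym_pow_left, sym_cube h, map_one, map_one, one_mul]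

/-! ### Multiplicativity -/

theorem chi_mul_rs {a b : O} (ha : a ≠ 0) (hb : b ≠ 0) (t : O) :
    chi (a * b) (rs (a * b) t) = chi a (rs a t) * chi b (rs b t) := by
  rw [chi_rs, chi_rs, chi_rs, sym_mul_right t ha hb, map_mul]

/-- multiplicativity for coprime moduli (no primary assumption) -/
theorem gs_crt (μ : O) {a b : O} (ha : a ≠ 0) (hb : b ≠ 0) (hab : IsCoprime a b) :
    gs μ (a * b) = toC (sym a b) * toC (sym b a) * (gs μ a * gs μ b) := by
  have : NeZero a := ⟨ha⟩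
  have : NeZero b := ⟨hb⟩
  have : NeZero (a * b) := ⟨mul_ne_zero ha hb⟩
  rw [gs_eq, gs_eq, gs_eq, sum_crt ha hb hab, Finset.sum_mul_sum, Finset.mul_sum]
  refine Finset.sum_congr rfl fun x _ => ?_
  rw [Finset.mul_sum]
  refine Finset.sum_congr rfl fun y _ => ?_
  obtain ⟨x, rfl⟩ := rs_surj a x
  obtain ⟨y, rfl⟩ := rs_surj b y
  have e1 : chi (a * b) (mulL b a (a * b) (mul_comm a b) (rs a x) +
      mulL a b (a * b) rfl (rs b y)) =
      toC (sym a b) * toC (sym b a) * (chi a (rs a x) * chi b (rs b y)) := by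
    rw [mulL_rs, mulL_rs, ← map_add, chi_mul_rs ha hb, chi_rs, chi_rs, chi_rs, chi_rs]
    have h1 : sym (b * x + a * y) a = sym b a * sym x a := by
      rw [← sym_mul_left]
      exact sym_periodic ⟨y, by ring⟩
    have h2 : sym (b * x + a * y) b = sym a b * sym y b := by
      rw [← sym_mul_left]
      exact sym_periodic ⟨x, by ring⟩
    rw [h1, h2, map_mul, map_mul]; ring
  have e2 : psi (a * b) (rs (a * b) μ * (mulL b a (a * b) (mul_comm a b) (rs a x) +
      mulL a b (a * b) rfl (rs b y))) = psi a (rs a μ * rs a x) * psi b (rs b μ * rs b y) := by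
    have h1 : rs (a * b) μ * (mulL b a (a * b) (mul_comm a b) (rs a x) +
      mulL a b (a * b) rfl (rs b y)) = mulL b a (a * b) (mul_comm a b) (rs a μ * rs a x) +
      mulL a b (a * b) rfl (rs b μ * rs b y) := by
      simp only [mulL_rs, ← map_mul, ← map_add]
      congr 1; ring
    rw [h1, AddChar.map_add_eq_mul, psi_mulL hb, psi_mulL ha]
  rw [e1, e2]; ring

/-- Gauss sum modulo an associate of `c` -/
theorem gs_unit_mul (μ : O) (u : Oˣ) (c : O) : gs μ (u * c) = gs (μ * ((u⁻¹ : Oˣ) : O)) c := by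
  by_cases hc : c = 0
  · subst hc
    rw [mul_zero]; exact gs_zero_const _ _
  have hu : (u : O) ≠ 0 := u.ne_zero
  have : NeZero c := ⟨hc⟩
  have : NeZero ((u : O) * c) := ⟨mul_ne_zero hu hc⟩
  have hI : Ideal.span ({(u : O) * c} : Set O) = Ideal.span ({c} : Set O) :=
    Ideal.span_singleton_mul_left_unit u.isUnit c
  rw [gs_eq, gs_eq, ← (Ideal.quotEquivOfEq hI).toEquiv.sum_comp]
  refine Finset.sum_congr rfl fun x _ => ?_
  obtain ⟨x, rfl⟩ := rs_surj _ x
  have h1 : (Ideal.quotEquivOfEq hI).toEquiv (rs ((u : O) * c) x) = rs c x := rfl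
  rw [h1, chi_rs, chi_rs, sym_assoc x (associated_unit_mul_left c (u : O) u.isUnit),
    ← map_mul, ← map_mul, psi_rs, psi_rs]
  have h2 : toC (μ * x) / toC (u * c) = toC (μ * ((u⁻¹ : Oˣ) : O) * x) / toC c := by
    have h3 : toC (u : O) ≠ 0 := by simp
    have h4 : toC c ≠ 0 := by simpa using hc
    rw [div_eq_div_iff (toC_eq_zero.not.2 (mul_ne_zero hu hc)) h4, ← map_mul, ← map_mul]
    congr 1
    have : ((u⁻¹ : Oˣ) : O) * u = 1 := by simp
    linear_combination (-(μ * x * c)) * this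
  rw [h2]

@[simp] theorem gs_one_right (μ : O) : gs μ 1 = 1 := by
  have : NeZero (1 : O) := ⟨one_ne_zero⟩
  have : Subsingleton (Rs 1) := by
    rw [Ideal.Quotient.subsingleton_iff, Ideal.span_singleton_one]
  rw [gs_eq]
  have h : ∀ x : Rs 1, chi 1 x * psi 1 (rs 1 μ * x) = 1 := by
    intro x
    have h1 : chi 1 x = 1 := by
      rw [Subsingleton.elim x 1, map_one]
    have h2 : rs 1 μ * x = 0 := Subsingleton.elim _ _
    rw [h1, h2, AddChar.map_zero_eq_one, mul_one]
  simp only [h]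
  rw [Finset.sum_const, Finset.card_univ, fcard_Rs, N_one, one_smul]

theorem gs_unit {u : O} (μ : O) (hu : IsUnit u) : gs μ u = 1 := by
  obtain ⟨u, rfl⟩ := hu
  have := gs_unit_mul μ u 1
  rwa [mul_one, gs_one_right] at this

/-- conjugation `O/(c) → O/(star c)` -/
noncomputable def starQ (c : O) : Rs c →+* Rs (star c) :=
  Ideal.Quotient.lift _ ((rs (star c)).comp (starRingEnd O)) (by
    intro a ha
    rw [Ideal.mem_span_singleton] at ha
    rw [RingHom.comp_apply, starRingEnd_apply, rs_eq_zero, star_dvd_iff, star_star]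
    exact ha)

@[simp] theorem starQ_rs (c x : O) : starQ c (rs c x) = rs (star c) (star x) := rfl

theorem starQ_bijective (c : O) [NeZero c] : Function.Bijective (starQ c) := by
  have : NeZero (star c) := ⟨by simpa using NeZero.ne c⟩
  rw [Fintype.bijective_iff_injective_and_card]
  refine ⟨?_, by rw [fcard_Rs, fcard_Rs, N_star]⟩
  rw [injective_iff_map_eq_zero]
  intro x hx
  obtain ⟨x, rfl⟩ := rs_surj c x
  rw [starQ_rs, rs_eq_zero, star_dvd_iff, star_star] at hx
  rwa [rs_eq_zero]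

theorem TrC_conj (z : ℂ) : TrC ((starRingEnd ℂ) z) = TrC z := by simp [TrC]

/-- conjugation -/
theorem gs_star (μ c : O) : gs (star μ) (star c) = (starRingEnd ℂ) (gs μ c) := by
  by_cases hc : c = 0
  · subst hc
    rw [star_zero, conj_gs_zero]; exact gs_zero_const _ _
  have : NeZero c := ⟨hc⟩
  have : NeZero (star c) := ⟨by simpa using hc⟩
  rw [← gs_neg μ c, gs_eq, gs_eq, ← (Equiv.ofBijective _ (starQ_bijective c)).sum_comp, map_sum]
  refine Finset.sum_congr rfl fun x _ => ?_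
  obtain ⟨x, rfl⟩ := rs_surj c x
  rw [Equiv.ofBijective_apply, starQ_rs, chi_rs, chi_rs, sym_star, toC_star, ← map_mul, ← map_mul,
    map_mul (starRingEnd ℂ), psi_rs, psi_rs, ← star_mul', toC_star, toC_star, ← map_div₀, TrC_conj,
    neg_mul, map_neg, neg_div, TrC_neg, e_neg, Complex.conj_conj]

/-! ### Vanishing -/

theorem sym_congr_rad {a a' c : O} (hc : c ≠ 0) (h : ∀ π, Prime π → π ∣ c → π ∣ a - a') :
    sym a c = sym a' c := by
  revert h
  revert c
  apply induction_primes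
  · intro u hu _; rw [sym_unit _ hu, sym_unit _ hu]
  · intro π hπ h
    exact sym_periodic (h π hπ dvd_rfl)
  · intro b c hb hc h1 h2 h
    rw [sym_mul_right _ hb hc, sym_mul_right _ hb hc,
      h1 fun π hπ hd => h π hπ (hd.mul_right _), h2 fun π hπ hd => h π hπ (hd.mul_left _)]

theorem gs_eq_zero_of_shift {μ c s : O} (hc : c ≠ 0) (hs : ∀ π, Prime π → π ∣ c → π ∣ s)
    (h : ¬ c ∣ lam * (μ * s)) : gs μ c = 0 := by
  have : NeZero c := ⟨hc⟩
  rw [← psi_trivial_iff hc] at h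
  push Not at h
  obtain ⟨t, ht⟩ := h
  have h1 : gs μ c = psi c (rs c (μ * s * t)) * gs μ c := by
    rw [gs_eq, Finset.mul_sum]
    rw [← Equiv.sum_comp (Equiv.addRight (rs c (s * t)))]
    refine Finset.sum_congr rfl fun x _ => ?_
    obtain ⟨x, rfl⟩ := rs_surj c x
    have e0 : Equiv.addRight (rs c (s * t)) (rs c x) = rs c (x + s * t) := by
      rw [map_add]; rfl
    rw [e0, chi_rs, chi_rs]
    have e1 : sym (x + s * t) c = sym x c := by
      apply sym_congr_rad hc
      intro π hπ hd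
      rw [add_sub_cancel_left]
      exact (hs π hπ hd).mul_right _
    have e2 : rs c μ * rs c (x + s * t) = rs c μ * rs c x + rs c (μ * s * t) := by
      simp only [← map_mul, ← map_add]; congr 1; ring
    rw [e1, e2, AddChar.map_add_eq_mul]; ring
  have h2 : (1 - psi c (rs c (μ * s * t))) * gs μ c = 0 := by
    linear_combination h1
  rcases mul_eq_zero.1 h2 with h3 | h3
  · exact absurd (by linear_combination -h3) ht
  · exact h3

theorem isCoprime_lam_of_prime {π : O} (hl : ¬ lam ∣ π) : IsCoprime π lam := by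
  rw [isCoprime_comm, prime_lam.coprime_iff_not_dvd]; exact hl

/-- `g(μ,c) = 0` if `π^(j+2) ∣ c` and `π^(j+1) ∤ μ` -/
theorem gs_eq_zero_of_dvd {μ c π : O} (hc : c ≠ 0) (hl : ¬ lam ∣ π) {j : ℕ}
    (h1 : π ^ (j + 2) ∣ c) (h2 : ¬ π ^ (j + 1) ∣ μ) : gs μ c = 0 := by
  obtain ⟨t, ht⟩ := h1
  have hcs : c = π ^ (j + 1) * (π * t) := by rw [ht]; ring
  apply gs_eq_zero_of_shift (s := π * t) hc
  · intro q hq hd
    rw [hcs] at hd
    rcases hq.dvd_or_dvd hd with h | h
    · exact (hq.dvd_of_dvd_pow h).mul_right _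
    · exact h
  · intro h
    rw [hcs] at h
    have h3 : π * t ≠ 0 := by
      intro h0; rw [h0, mul_zero] at hcs; exact hc hcs
    have h4 : π ^ (j + 1) ∣ lam * μ := by
      have h5 : lam * (μ * (π * t)) = (lam * μ) * (π * t) := by ring
      rw [h5] at h
      exact (mul_dvd_mul_iff_right h3).1 h
    exact h2 (((isCoprime_lam_of_prime hl).pow_left).dvd_of_dvd_mul_left h4)

/-- `g(μ,c) = 0` if `π² ∣ c` and `π ∤ μ` -/
theorem gs_eq_zero_of_sq_dvd {μ c π : O} (hc : c ≠ 0) (hl : ¬ lam ∣ π)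
    (h1 : π ^ 2 ∣ c) (h2 : ¬ π ∣ μ) : gs μ c = 0 :=
  gs_eq_zero_of_dvd hc hl (j := 0) (by simpa using h1) (by simpa using h2)

theorem not_lam_dvd_of_dvd {c d : O} (hl : ¬ lam ∣ c) (h : d ∣ c) : ¬ lam ∣ d :=
  fun h' => hl (h'.trans h)

theorem gs_one_eq_zero {c : O} (hl : ¬ lam ∣ c) (h : ¬ Squarefree c) : gs 1 c = 0 := by
  have h0 : c ≠ 0 := by rintro rfl; exact hl (dvd_zero _)
  rw [squarefree_iff_no_irreducibles h0] at h
  push Not at h
  obtain ⟨π, h1, h2⟩ := h
  exact gs_eq_zero_of_sq_dvd h0 (not_lam_dvd_of_dvd hl ((dvd_mul_right π π).trans h2))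
    (by rwa [sq]) (fun h => h1.prime.not_isUnit (isUnit_of_dvd_one h))

/-! ### Prime moduli -/

theorem chi_ne_one {π : O} (hπ : Prime π) (hl : ¬ lam ∣ π) : chi π ≠ 1 := by
  obtain ⟨g, hg, h⟩ := exists_sym_ne_one hπ hl
  intro h1
  apply h
  have h2 : chi π (rs π g) = (1 : MulChar (Rs π) ℂ) (rs π g) := by rw [h1]
  rw [MulChar.one_apply (isUnit_rs_iff.2 hg), chi_rs] at h2
  apply toC_injective
  rw [h2, map_one]

theorem conj_gs_mul_gs_prime {π : O} (hπ : Prime π) (hl : ¬ lam ∣ π) :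
    gs 1 π * (starRingEnd ℂ) (gs 1 π) = N π := by
  have : Fact (Prime π) := ⟨hπ⟩
  have h1 := gaussSum_mul_gaussSum_eq_card (chi_ne_one hπ hl)
    (psi_isPrimitive hπ.ne_zero (isCoprime_lam_of_prime hl))
  have h2 : gs 1 π = gaussSum (chi π) (psi π) := by
    rw [gs_eq_gaussSum, map_one, AddChar.mulShift_one]
  have h3 := star_gaussSum_eq (chi π) (psi π)
  rw [← h2] at h1 h3
  rw [fcard_Rs] at h1
  rw [starRingEnd_apply, h3]
  exact h1

theorem gs_prime_of_dvd {μ π : O} (hπ : Prime π) (hl : ¬ lam ∣ π) (h : π ∣ μ) : gs μ π = 0 := by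
  have : Fact (Prime π) := ⟨hπ⟩
  rw [gs_periodic (ν := 0) (by simpa using h), gs_eq_gaussSum, map_zero, AddChar.mulShift_zero]
  exact gaussSum_one_right (chi_ne_one hπ hl)

theorem normSq_gs_prime {μ π : O} (hπ : Prime π) (hl : ¬ lam ∣ π) (h : ¬ π ∣ μ) :
    ‖gs μ π‖ ^ 2 = N π := by
  have h0 : IsCoprime μ π := by
    rw [isCoprime_comm]; exact (hπ.coprime_iff_not_dvd).2 h
  have h1 := conj_gs_mul_gs_prime hπ hl
  rw [Complex.mul_conj'] at h1
  have h2 : ‖gs 1 π‖ ^ 2 = N π := by exact_mod_cast h1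
  rw [gs_coprime h0, norm_mul, Complex.norm_conj, norm_sym h0, one_mul, h2]

/-! ### Sums over residue classes through a reduction map -/

theorem sum_redR {M : Type*} [AddCommMonoid M] {a b : O} [NeZero a] [NeZero (a * b)]
    (f : Rs a → M) :
    ∑ x : Rs (a * b), f (redR a (a * b) (dvd_mul_right a b) x) = N b • ∑ y : Rs a, f y := by
  classical
  have ha : a ≠ 0 := NeZero.ne a
  have hb : b ≠ 0 := right_ne_zero_of_mul (NeZero.ne (a * b))
  have : NeZero b := ⟨hb⟩
  rw [← Finset.sum_fiberwise (s := Finset.univ)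
    (g := fun x : Rs (a * b) => redR a (a * b) (dvd_mul_right a b) x)]
  rw [Finset.smul_sum]
  refine Finset.sum_congr rfl fun y _ => ?_
  obtain ⟨y, rfl⟩ := rs_surj a y
  rw [Finset.sum_congr rfl (g := fun _ => f (rs a y)) (by
    intro x hx
    rw [Finset.mem_filter] at hx
    rw [hx.2])]
  rw [Finset.sum_const]
  congr 1
  -- the fibre over `y` is `y + a * (classes mod b)`
  rw [← fcard_Rs b, ← Finset.card_univ]
  symm
  apply Finset.card_bij (fun (t : Rs b) _ => rs (a * b) y + mulL a b (a * b) rfl t)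
  · intro t _
    obtain ⟨t, rfl⟩ := rs_surj b t
    rw [Finset.mem_filter]
    refine ⟨Finset.mem_univ _, ?_⟩
    rw [mulL_rs, ← map_add, redR_rs, rs_eq]
    exact ⟨t, by ring⟩
  · intro t _ t' _ h
    obtain ⟨t, rfl⟩ := rs_surj b t
    obtain ⟨t', rfl⟩ := rs_surj b t'
    have h' := add_left_cancel h
    rw [mulL_rs, mulL_rs, rs_eq, ← mul_sub] at h'
    rw [rs_eq]
    exact (mul_dvd_mul_iff_left ha).1 h'
  · intro x hx
    obtain ⟨x, rfl⟩ := rs_surj _ x
    rw [Finset.mem_filter, redR_rs, rs_eq] at hx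
    obtain ⟨t, ht⟩ := hx.2
    refine ⟨rs b t, Finset.mem_univ _, ?_⟩
    rw [mulL_rs, ← map_add]
    congr 1
    rw [← ht]; ring

theorem psi_redR {a b : O} (hb : b ≠ 0) (ν : O) (x : Rs (a * b)) :
    psi (a * b) (rs (a * b) (b * ν) * x) =
      psi a (rs a ν * redR a (a * b) (dvd_mul_right a b) x) := by
  obtain ⟨x, rfl⟩ := rs_surj _ x
  rw [redR_rs, ← map_mul, ← map_mul, psi_rs, psi_rs]
  congr 2
  rw [mul_assoc, mul_comm a b, map_mul, map_mul toC b a, mul_div_mul_left _ _ (by simpa using hb)]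

/-- the Gauss sum at a prime power `π^(j+1)` with frequency `π^j ν` -/
theorem gs_prime_pow {π : O} (hπ : Prime π) (ν : O) (j : ℕ) [NeZero π] :
    gs (π ^ j * ν) (π ^ (j + 1)) =
      (N π) ^ j * ∑ y : Rs π, chi π y ^ (j + 1) * psi π (rs π ν * y) := by
  have h0 : π * π ^ j ≠ 0 := mul_ne_zero hπ.ne_zero (pow_ne_zero _ hπ.ne_zero)
  have : NeZero (π * π ^ j) := ⟨h0⟩
  rw [show π ^ (j + 1) = π * π ^ j by ring, gs_eq]
  have h1 := sum_redR (a := π) (b := π ^ j) (fun y => chi π y ^ (j + 1) * psi π (rs π ν * y))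
  rw [N_pow, nsmul_eq_mul, Nat.cast_pow] at h1
  rw [← h1]
  refine Finset.sum_congr rfl fun x _ => ?_
  rw [psi_redR (pow_ne_zero _ hπ.ne_zero)]
  congr 1
  obtain ⟨x, rfl⟩ := rs_surj _ x
  rw [redR_rs, chi_rs, chi_rs, ← map_pow, ← sym_pow_right x hπ.ne_zero]
  congr 2; ring

theorem chi_pow_mod {c : O} (x : Rs c) {m n : ℕ} (hm : 0 < m) (hn : 0 < n) (h : m % 3 = n % 3) :
    chi c x ^ m = chi c x ^ n := by
  by_cases hx : IsUnit x
  · have h3 := chi_cube hx
    rw [← Nat.div_add_mod m 3, ← Nat.div_add_mod n 3, pow_add, pow_add, pow_mul, pow_mul, h3, h,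
      one_pow, one_pow]
  · rw [MulChar.map_nonunit _ hx, zero_pow hm.ne', zero_pow hn.ne']

theorem conj_chi {c : O} (x : Rs c) : (starRingEnd ℂ) (chi c x) = chi c x ^ 2 := by
  obtain ⟨x, rfl⟩ := rs_surj c x
  rw [chi_rs, conj_sym]

theorem conj_psi {c : O} (x : Rs c) : (starRingEnd ℂ) (psi c x) = psi c (-x) := by
  obtain ⟨x, rfl⟩ := rs_surj c x
  rw [← map_neg, psi_rs, psi_rs, map_neg, neg_div, TrC_neg, e_neg]

theorem gs_prime_pow_zero {π : O} (hπ : Prime π) (ν : O) {j : ℕ} (hj : 3 ∣ j) :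
    gs (π ^ j * ν) (π ^ (j + 1)) = (N π) ^ j * gs ν π := by
  have : NeZero π := ⟨hπ.ne_zero⟩
  rw [gs_prime_pow hπ, gs_eq]
  congr 1
  refine Finset.sum_congr rfl fun y _ => ?_
  rw [chi_pow_mod y (by omega) one_pos (by omega), pow_one]

theorem gs_prime_pow_one {π : O} (hπ : Prime π) (ν : O) {j : ℕ} (hj : j % 3 = 1) :
    gs (π ^ j * ν) (π ^ (j + 1)) = (N π) ^ j * (starRingEnd ℂ) (gs ν π) := by
  have : NeZero π := ⟨hπ.ne_zero⟩
  rw [gs_prime_pow hπ, ← gs_neg ν π, gs_eq, map_sum]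
  congr 1
  refine Finset.sum_congr rfl fun y _ => ?_
  rw [chi_pow_mod y (by omega) two_pos (by omega), map_mul (starRingEnd ℂ), conj_chi, conj_psi,
    map_neg (rs π), neg_mul, neg_neg]

theorem gs_prime_pow_two {π : O} (hπ : Prime π) (hl : ¬ lam ∣ π) {ν : O} (hν : ¬ π ∣ ν) {j : ℕ}
    (hj : j % 3 = 2) : gs (π ^ j * ν) (π ^ (j + 1)) = -(N π) ^ j := by
  classical
  have : Fact (Prime π) := ⟨hπ⟩
  have h1 : ∀ y : Rs π, chi π y ^ (j + 1) * psi π (rs π ν * y) =
      psi π (rs π ν * y) - if y = 0 then 1 else 0 := by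
    intro y
    by_cases hy : y = 0
    · subst hy
      rw [if_pos rfl, mul_zero, AddChar.map_zero_eq_one, MulChar.map_nonunit _ not_isUnit_zero,
        zero_pow (by omega)]
      ring
    · have hu : IsUnit y := isUnit_iff_ne_zero.2 hy
      rw [if_neg hy, sub_zero, chi_pow_mod y (by omega) (show 0 < 3 by norm_num) (by omega),
        chi_cube hu, one_mul]
  rw [gs_prime_pow hπ, Finset.sum_congr rfl fun y _ => h1 y, Finset.sum_sub_distrib, sum_psi_mul,
    if_neg, Finset.sum_ite_eq', if_pos (Finset.mem_univ _)]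
  · ring
  · intro h
    exact hν ((isCoprime_lam_of_prime hl).dvd_of_dvd_mul_left h)

/-! ### Frequency zero -/

/-- Euler's function of `O` -/
noncomputable def phiO (c : O) : ℕ := Nat.card (Rs c)ˣ

theorem gs_zero_of_cube {c m : O} (hc : c ≠ 0) (h : c = m ^ 3) : gs 0 c = phiO c := by
  classical
  have : NeZero c := ⟨hc⟩
  have h1 : chi c = 1 := by
    rw [MulChar.eq_one_iff]
    intro a
    obtain ⟨x, hx⟩ := rs_surj c (a : Rs c)
    have h2 : IsCoprime x c := by rw [← isUnit_rs_iff, hx]; exact a.isUnit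
    have hm : m ≠ 0 := by rintro rfl; simp at h; exact hc h
    rw [← hx, chi_rs, h, sym_pow_right x hm, sym_cube, map_one]
    rw [h] at h2
    exact (IsCoprime.pow_right_iff (by norm_num)).1 h2
  rw [gs_eq_gaussSum, map_zero, AddChar.mulShift_zero, h1, gaussSum_one_one, phiO]

theorem gs_zero_of_ne {c x : O} (hc : c ≠ 0) (hx : IsCoprime x c) (h : sym x c ≠ 1) :
    gs 0 c = 0 := by
  have : NeZero c := ⟨hc⟩
  rw [gs_eq_gaussSum, map_zero, AddChar.mulShift_zero]
  apply gaussSum_one_right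
  intro h1
  apply h
  have h2 : chi c (rs c x) = (1 : MulChar (Rs c) ℂ) (rs c x) := by rw [h1]
  rw [MulChar.one_apply (isUnit_rs_iff.2 hx), chi_rs] at h2
  apply toC_injective
  rw [h2, map_one]

/-- splitting off a prime power -/
theorem exists_pow_mul {c π : O} (hc : c ≠ 0) (hπ : Prime π) :
    ∃ (k : ℕ) (b : O), c = π ^ k * b ∧ ¬ π ∣ b := by
  obtain ⟨k, b, h1, h2⟩ := WfDvdMonoid.max_power_factor hc hπ.irreducible
  exact ⟨k, b, h2, h1⟩

theorem exists_primary_prime_dvd {c : O} (hc : Primary c) (h1 : c ≠ 1) :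
    ∃ π, Prime π ∧ Primary π ∧ π ∣ c := by
  have hu : ¬ IsUnit c := fun h => h1 (hc.eq_one h)
  obtain ⟨π₀, hπ₀, hd⟩ := WfDvdMonoid.exists_irreducible_factor hu hc.ne_zero
  have hl : ¬ lam ∣ π₀ := fun h => hc.not_lam_dvd (h.trans hd)
  obtain ⟨u, hu, hp⟩ := exists_unit_mul_primary hl
  have : Associated π₀ (u * π₀) := associated_unit_mul_right π₀ u hu
  exact ⟨u * π₀, this.prime hπ₀.prime, hp, this.symm.dvd.trans hd⟩

/-- induction on coprime prime power factors -/
theorem Primary.induction_coprime {P : O → Prop} (h1 : P 1)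
    (hmul : ∀ (π b : O) (k : ℕ), Prime π → Primary π → Primary b → ¬ π ∣ b → P b →
      P (π ^ (k + 1) * b)) : ∀ b : O, Primary b → P b := by
  intro b
  induction hn : N b using Nat.strong_induction_on generalizing b with
  | _ n ih => ?_
  intro hb
  by_cases hb1 : b = 1
  · rw [hb1]; exact h1
  · obtain ⟨π, hπ, hp, hd⟩ := exists_primary_prime_dvd hb hb1
    obtain ⟨k, c, hc, hnd⟩ := exists_pow_mul hb.ne_zero hπ
    cases k with
    | zero => rw [hc] at hd; simp only [pow_zero, one_mul] at hd; exact absurd hd hnd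
    | succ k =>
      have hcp : Primary c := (hp.pow (k + 1)).of_mul (hc ▸ hb)
      have hN : N c < n := by
        rw [← hn, hc, N_mul, N_pow]
        have h4 := four_le_N hπ hp.not_lam_dvd
        have h5 : 0 < N c := N_pos hcp.ne_zero
        have h6 : 1 < N π ^ (k + 1) := Nat.one_lt_pow (by omega) (by omega)
        exact (Nat.lt_mul_iff_one_lt_left h5).2 h6
      rw [hc]
      exact hmul π c k hπ hp hcp hnd (ih _ hN c rfl hcp)

theorem isCoprime_pow_of_not_dvd {π b : O} (hπ : Prime π) (h : ¬ π ∣ b) (k : ℕ) :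
    IsCoprime (π ^ k) b := (hπ.coprime_iff_not_dvd.2 h).pow_left

/-- `g(0,c)` vanishes unless the primary number `c` is a cube -/
theorem gs_zero_eq_zero {c : O} (hc : Primary c) (h : ¬ ∃ m, Primary m ∧ c = m ^ 3) :
    gs 0 c = 0 := by
  have key : ∀ c : O, Primary c → (∃ m, Primary m ∧ c = m ^ 3) ∨
      ∃ x, IsCoprime x c ∧ sym x c ≠ 1 := by
    apply Primary.induction_coprime
    · exact Or.inl ⟨1, primary_one, by ring⟩
    · intro π b k hπ hp hb hnd ih
      have hcop := isCoprime_pow_of_not_dvd hπ hnd (k + 1)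
      have h0 : π ^ (k + 1) ≠ 0 := pow_ne_zero _ hπ.ne_zero
      -- Chinese remainder
      have crt : ∀ x y : O, ∃ z, π ^ (k + 1) ∣ z - x ∧ b ∣ z - y := by
        intro x y
        obtain ⟨u, v, huv⟩ := hcop
        refine ⟨x * (v * b) + y * (u * π ^ (k + 1)), ⟨u * (y - x), ?_⟩, ⟨v * (x - y), ?_⟩⟩
        · linear_combination x * huv
        · linear_combination y * huv
      have cop : ∀ x y z : O, π ^ (k + 1) ∣ z - x → b ∣ z - y → IsCoprime x (π ^ (k + 1)) →
          IsCoprime y b → IsCoprime z (π ^ (k + 1) * b) := by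
        intro x y z h1 h2 h3 h4
        apply IsCoprime.mul_right
        · obtain ⟨t, ht⟩ := h1
          have : z = x + π ^ (k + 1) * t := by rw [← ht]; ring
          rw [this]; exact IsCoprime.add_mul_left_left h3 t
        · obtain ⟨t, ht⟩ := h2
          have : z = y + b * t := by rw [← ht]; ring
          rw [this]; exact IsCoprime.add_mul_left_left h4 t
      by_cases hk : 3 ∣ k + 1
      · rcases ih with ⟨m, hm, hbm⟩ | ⟨y, hy, hne⟩
        · obtain ⟨l, hl⟩ := hk
          left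
          refine ⟨π ^ l * m, (hp.pow l).mul hm, ?_⟩
          rw [hbm, hl]; ring
        · right
          obtain ⟨z, h1, h2⟩ := crt 1 y
          refine ⟨z, cop 1 y z h1 h2 isCoprime_one_left hy, ?_⟩
          rw [sym_mul_right z h0 hb.ne_zero, sym_periodic h1, sym_periodic h2, sym_one_left, one_mul]
          exact hne
      · right
        obtain ⟨g, hg, hne⟩ := exists_sym_ne_one hπ hp.not_lam_dvd
        obtain ⟨z, h1, h2⟩ := crt g 1
        refine ⟨z, cop g 1 z h1 h2 hg.pow_right isCoprime_one_left, ?_⟩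
        rw [sym_mul_right z h0 hb.ne_zero, sym_periodic h1, sym_periodic h2, sym_one_left, mul_one,
          sym_pow_right g hπ.ne_zero]
        intro h3
        apply hne
        have h4 := sym_cube hg
        have h5 : (k + 1) % 3 = 1 ∨ (k + 1) % 3 = 2 := by omega
        rw [← Nat.div_add_mod (k + 1) 3, pow_add, pow_mul, h4, one_pow, one_mul] at h3
        rcases h5 with h5 | h5
        · rw [h5, pow_one] at h3; exact h3
        · rw [h5] at h3
          have : sym g π ^ 3 = sym g π ^ 2 * sym g π := by ring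
          rw [h3, one_mul] at this
          rw [← this, h4]
  rcases key c hc with h1 | ⟨x, hx, hne⟩
  · exact absurd h1 h
  · exact gs_zero_of_ne hc.ne_zero hx hne

/-! ### Squarefree moduli -/

theorem squarefree_prime_mul {π b : O} (h : Squarefree (π * b)) (hπ : Prime π) : ¬ π ∣ b := by
  intro hd
  exact hπ.not_isUnit (h π (mul_dvd_mul_left π hd))

/-- `|g(μ,c)|² = N(c)` for `c` primary squarefree and `μ` prime to `c` -/
theorem normSq_gs {c : O} (hc : Primary c) (hs : Squarefree c) {μ : O} (h : IsCoprime μ c) :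
    ‖gs μ c‖ ^ 2 = N c := by
  revert hs h
  revert c
  apply Primary.induction
  · intro _ _; simp
  · intro π b hπ hp hb ih hs h
    have hnd := squarefree_prime_mul hs hπ
    have hcop : IsCoprime π b := hπ.coprime_iff_not_dvd.2 hnd
    have h1 : IsCoprime μ π := (IsCoprime.mul_right_iff.1 h).1
    have h2 : IsCoprime μ b := (IsCoprime.mul_right_iff.1 h).2
    have h3 : ¬ π ∣ μ := (hπ.coprime_iff_not_dvd).1 h1.symm
    rw [gs_crt μ hπ.ne_zero hb.ne_zero hcop, norm_mul, norm_mul, norm_mul, norm_sym hcop,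
      norm_sym hcop.symm, one_mul, one_mul, mul_pow, normSq_gs_prime hπ hp.not_lam_dvd h3,
      ih (hs.squarefree_of_dvd (dvd_mul_left b π)) h2, N_mul, Nat.cast_mul]

/-- for `c` primary squarefree: `g(μ,c) = conj (μ/c) g(1,c)` for ALL `μ` -/
theorem gs_squarefree {c : O} (hc : Primary c) (hs : Squarefree c) (μ : O) :
    gs μ c = (starRingEnd ℂ) (toC (sym μ c)) * gs 1 c := by
  by_cases h : IsCoprime μ c
  · exact gs_coprime h
  · rw [sym_eq_zero.2 h, map_zero, map_zero, zero_mul]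
    revert hs h
    revert c
    apply Primary.induction
    · intro _ h; exact absurd isCoprime_one_right h
    · intro π b hπ hp hb ih hs h
      have hnd := squarefree_prime_mul hs hπ
      have hcop : IsCoprime π b := hπ.coprime_iff_not_dvd.2 hnd
      rw [gs_crt μ hπ.ne_zero hb.ne_zero hcop]
      by_cases h1 : π ∣ μ
      · rw [gs_prime_of_dvd hπ hp.not_lam_dvd h1]; ring
      · have h2 : IsCoprime μ π := (hπ.coprime_iff_not_dvd.2 h1).symm
        have h3 : ¬ IsCoprime μ b := fun h3 => h (h2.mul_right h3)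
        rw [ih (hs.squarefree_of_dvd (dvd_mul_left b π)) h3]; ring

theorem gs_one_ne_zero {c : O} (hc : Primary c) (hs : Squarefree c) : gs 1 c ≠ 0 := by
  have h := normSq_gs hc hs (μ := 1) isCoprime_one_left
  intro h0
  rw [h0, norm_zero] at h
  have : (N c : ℝ) ≠ 0 := by exact_mod_cast (N_pos hc.ne_zero).ne'
  exact this (by rw [← h]; norm_num)

/-! ### General bound -/

theorem norm_chi_le {c : O} (x : Rs c) : ‖chi c x‖ ≤ 1 := by
  obtain ⟨x, rfl⟩ := rs_surj c x
  rw [chi_rs]; exact norm_sym_le x c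

theorem norm_psi {c : O} (x : Rs c) : ‖psi c x‖ = 1 := by
  obtain ⟨x, rfl⟩ := rs_surj c x
  rw [psi_rs, norm_e]

theorem norm_gs_le (μ : O) {c : O} (hc : c ≠ 0) : ‖gs μ c‖ ≤ N c := by
  have : NeZero c := ⟨hc⟩
  rw [gs_eq, ← fcard_Rs c, ← Finset.card_univ]
  refine (norm_sum_le _ _).trans ?_
  calc _ ≤ ∑ x : Rs c, (1 : ℝ) := by
        refine Finset.sum_le_sum fun x _ => ?_
        rw [norm_mul, norm_psi, mul_one]; exact norm_chi_le x
    _ = _ := by simp

theorem N_gcd_pos {μ c : O} (hc : c ≠ 0) : 0 < N (EuclideanDomain.gcd μ c) := by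
  apply N_pos
  intro h
  rw [EuclideanDomain.gcd_eq_zero_iff] at h
  exact hc h.2

theorem N_le_gcd {μ c d : O} (hc : c ≠ 0) (h1 : d ∣ μ) (h2 : d ∣ c) :
    N d ≤ N (EuclideanDomain.gcd μ c) :=
  Nat.le_of_dvd (N_gcd_pos hc) (N_dvd_N (EuclideanDomain.dvd_gcd h1 h2))

theorem normSq_gs_prime_pow_le {π : O} (hπ : Prime π) (hl : ¬ lam ∣ π) (μ : O) (k : ℕ) :
    ‖gs μ (π ^ (k + 1))‖ ^ 2 ≤ N (π ^ (k + 1)) * N (EuclideanDomain.gcd μ (π ^ (k + 1))) := by
  have h0 : π ^ (k + 1) ≠ 0 := pow_ne_zero _ hπ.ne_zero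
  have hN : (0 : ℝ) < N π := by exact_mod_cast N_pos hπ.ne_zero
  by_cases h1 : π ^ (k + 1) ∣ μ
  · have h2 : ‖gs μ (π ^ (k + 1))‖ ^ 2 ≤ (N (π ^ (k + 1)) : ℝ) ^ 2 :=
      pow_le_pow_left₀ (norm_nonneg _) (norm_gs_le _ h0) 2
    refine h2.trans ?_
    rw [sq]
    have : (N (π ^ (k + 1)) : ℝ) ≤ N (EuclideanDomain.gcd μ (π ^ (k + 1))) := by
      exact_mod_cast N_le_gcd h0 h1 dvd_rfl
    exact mul_le_mul_of_nonneg_left this (Nat.cast_nonneg _)
  · -- μ = π^j ν with j ≤ k
    have hμ : μ ≠ 0 := by rintro rfl; exact h1 (dvd_zero _)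
    obtain ⟨j, ν, hμν, hν⟩ := exists_pow_mul hμ hπ
    have hj : j < k + 1 := by
      by_contra hj
      push Not at hj
      exact h1 (hμν ▸ (pow_dvd_pow π hj).mul_right ν)
    by_cases hjk : j = k
    · subst hjk
      have hg : (N π : ℝ) ^ j ≤ N (EuclideanDomain.gcd μ (π ^ (j + 1))) := by
        have := N_le_gcd (μ := μ) h0 (d := π ^ j) (hμν ▸ dvd_mul_right _ _)
          (pow_dvd_pow π (Nat.le_succ j))
        rw [N_pow] at this
        exact_mod_cast this
      have h3 : j % 3 = 0 ∨ j % 3 = 1 ∨ j % 3 = 2 := by omega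
      have h4 : ‖gs μ (π ^ (j + 1))‖ ^ 2 ≤ (N π : ℝ) ^ (2 * j) * N π := by
        rcases h3 with h3 | h3 | h3
        · rw [hμν, gs_prime_pow_zero hπ ν (by omega), norm_mul, mul_pow,
            normSq_gs_prime hπ hl hν, norm_pow, Complex.norm_natCast, ← pow_mul, mul_comm j 2]
        · rw [hμν, gs_prime_pow_one hπ ν h3, norm_mul, mul_pow, Complex.norm_conj,
            normSq_gs_prime hπ hl hν, norm_pow, Complex.norm_natCast, ← pow_mul, mul_comm j 2]
        · rw [hμν, gs_prime_pow_two hπ hl hν h3, norm_neg, norm_pow, Complex.norm_natCast,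
            ← pow_mul, mul_comm j 2]
          have : (1 : ℝ) ≤ N π := by exact_mod_cast N_pos hπ.ne_zero
          exact le_mul_of_one_le_right (by positivity) this
      refine h4.trans ?_
      rw [N_pow, Nat.cast_pow]
      calc (N π : ℝ) ^ (2 * j) * N π = (N π : ℝ) ^ (j + 1) * (N π : ℝ) ^ j := by ring
        _ ≤ _ := mul_le_mul_of_nonneg_left hg (by positivity)
    · have h5 : gs μ (π ^ (k + 1)) = 0 := by
        apply gs_eq_zero_of_dvd h0 hl (j := j) (pow_dvd_pow π (by omega))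
        rw [hμν, pow_succ, mul_dvd_mul_iff_left (pow_ne_zero j hπ.ne_zero)]
        exact hν
      rw [h5, norm_zero, zero_pow two_ne_zero]
      exact mul_nonneg (Nat.cast_nonneg _) (Nat.cast_nonneg _)

/-- `|g(μ,c)|² ≤ N(c) N(gcd(μ,c))` for every primary `c` and every `μ` -/
theorem normSq_gs_le {c : O} (hc : Primary c) (μ : O) :
    ‖gs μ c‖ ^ 2 ≤ N c * N (EuclideanDomain.gcd μ c) := by
  revert c
  apply Primary.induction_coprime
  · have : 0 < N (EuclideanDomain.gcd μ 1) := N_gcd_pos one_ne_zero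
    have h2 : (1 : ℝ) ≤ N (EuclideanDomain.gcd μ 1) := by exact_mod_cast this
    simpa using h2
  · intro π b k hπ hp hb hnd ih
    have hcop := isCoprime_pow_of_not_dvd hπ hnd (k + 1)
    have h0 : π ^ (k + 1) ≠ 0 := pow_ne_zero _ hπ.ne_zero
    have h1 := normSq_gs_prime_pow_le hπ hp.not_lam_dvd μ k
    rw [gs_crt μ h0 hb.ne_zero hcop, norm_mul, norm_mul, norm_mul, norm_sym hcop,
      norm_sym hcop.symm, one_mul, one_mul, mul_pow]
    refine (mul_le_mul h1 ih (by positivity) (by positivity)).trans ?_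
    rw [N_mul, Nat.cast_mul, mul_mul_mul_comm]
    refine mul_le_mul_of_nonneg_left ?_ (by positivity)
    rw [← Nat.cast_mul, ← N_mul]
    have h2 : IsCoprime (EuclideanDomain.gcd μ (π ^ (k + 1))) (EuclideanDomain.gcd μ b) :=
      (hcop.of_isCoprime_of_dvd_left (EuclideanDomain.gcd_dvd_right _ _)).of_isCoprime_of_dvd_right
        (EuclideanDomain.gcd_dvd_right _ _)
    exact_mod_cast N_le_gcd (mul_ne_zero h0 hb.ne_zero)
      (h2.mul_dvd (EuclideanDomain.gcd_dvd_left _ _) (EuclideanDomain.gcd_dvd_left _ _))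
      (mul_dvd_mul (EuclideanDomain.gcd_dvd_right _ _) (EuclideanDomain.gcd_dvd_right _ _))

/-! ### Reciprocity form -/

/-- twisted multiplicativity for primary coprime `a, b` -/
theorem gs_mul_primary (μ : O) {a b : O} (ha : Primary a) (hb : Primary b) (hab : IsCoprime a b) :
    gs μ (a * b) = (starRingEnd ℂ) (toC (sym a b)) * (gs μ a * gs μ b) := by
  rw [gs_crt μ ha.ne_zero hb.ne_zero hab, recip hb ha, conj_sym, sq]

/-- `g(μ,ab) = g(μ,a) g(μ a, b)` for primary coprime `a, b` -/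
theorem gs_mul_primary' (μ : O) {a b : O} (ha : Primary a) (hb : Primary b) (hab : IsCoprime a b) :
    gs μ (a * b) = gs μ a * gs (a * μ) b := by
  rw [gs_mul_primary μ ha hb hab, gs_mul μ hab]; ring

theorem not_squarefree_mul {a b : O} (hab : ¬ IsCoprime a b) (hb : b ≠ 0) :
    ¬ Squarefree (a * b) := by
  intro h
  apply hab
  apply isCoprime_of_prime_dvd (fun h => hb h.2)
  intro π hπ h1 h2
  exact hπ.not_isUnit (h π (mul_dvd_mul h1 h2))

/-- `g(1,ab) = conj (a/b) g(1,a) g(1,b)` for ALL primary `a, b` -/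
theorem gs_one_mul {a b : O} (ha : Primary a) (hb : Primary b) :
    gs 1 (a * b) = (starRingEnd ℂ) (toC (sym a b)) * (gs 1 a * gs 1 b) := by
  by_cases hab : IsCoprime a b
  · exact gs_mul_primary 1 ha hb hab
  · rw [sym_eq_zero.2 hab, map_zero, map_zero, zero_mul,
      gs_one_eq_zero (ha.mul hb).not_lam_dvd (not_squarefree_mul hab hb.ne_zero)]

/-! ### The normalised Gauss sum -/


theorem sqrt_N_mul (a b : O) :
    ((Real.sqrt (N (a * b)) : ℝ) : ℂ) = (Real.sqrt (N a) : ℝ) * (Real.sqrt (N b) : ℝ) := by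
  rw [N_mul, Nat.cast_mul, Real.sqrt_mul (Nat.cast_nonneg _), Complex.ofReal_mul]

theorem gt_periodic {μ ν c : O} (h : c ∣ μ - ν) : gt μ c = gt ν c := by
  rw [gt, gt, gs_periodic h]

theorem gt_mul {ν : O} (μ : O) {c : O} (h : IsCoprime ν c) :
    gt (ν * μ) c = (starRingEnd ℂ) (toC (sym ν c)) * gt μ c := by
  rw [gt, gt, gs_mul μ h, mul_div_assoc]

theorem gt_coprime {ν c : O} (h : IsCoprime ν c) :
    gt ν c = (starRingEnd ℂ) (toC (sym ν c)) * gt 1 c := by
  rw [gt, gt, gs_coprime h, mul_div_assoc]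

theorem gt_neg (μ c : O) : gt (-μ) c = gt μ c := by rw [gt, gt, gs_neg]

theorem gt_squarefree {c : O} (hc : Primary c) (hs : Squarefree c) (μ : O) :
    gt μ c = (starRingEnd ℂ) (toC (sym μ c)) * gt 1 c := by
  rw [gt, gt, gs_squarefree hc hs, mul_div_assoc]

theorem gt_mul_primary (μ : O) {a b : O} (ha : Primary a) (hb : Primary b) (hab : IsCoprime a b) :
    gt μ (a * b) = (starRingEnd ℂ) (toC (sym a b)) * (gt μ a * gt μ b) := by
  rw [gt, gt, gt, gs_mul_primary μ ha hb hab, sqrt_N_mul]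
  ring

theorem gt_mul_primary' (μ : O) {a b : O} (ha : Primary a) (hb : Primary b) (hab : IsCoprime a b) :
    gt μ (a * b) = gt μ a * gt (a * μ) b := by
  rw [gt_mul_primary μ ha hb hab, gt_mul μ hab]; ring

theorem gt_one_mul {a b : O} (ha : Primary a) (hb : Primary b) :
    gt 1 (a * b) = (starRingEnd ℂ) (toC (sym a b)) * (gt 1 a * gt 1 b) := by
  rw [gt, gt, gt, gs_one_mul ha hb, sqrt_N_mul]
  ring

theorem gt_star (μ c : O) : gt (star μ) (star c) = (starRingEnd ℂ) (gt μ c) := by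
  rw [gt, gt, gs_star, N_star, map_div₀, Complex.conj_ofReal]

theorem normSq_gt_eq (μ c : O) : ‖gt μ c‖ ^ 2 = ‖gs μ c‖ ^ 2 / N c := by
  rw [gt, norm_div, div_pow, Complex.norm_real, Real.norm_of_nonneg (Real.sqrt_nonneg _),
    Real.sq_sqrt (Nat.cast_nonneg _)]

theorem norm_gt {c : O} (hc : Primary c) (hs : Squarefree c) {μ : O} (h : IsCoprime μ c) :
    ‖gt μ c‖ = 1 := by
  have h1 := normSq_gt_eq μ c
  have h2 : (N c : ℝ) ≠ 0 := by exact_mod_cast (N_pos hc.ne_zero).ne'
  rw [normSq_gs hc hs h, div_self h2] at h1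
  exact (pow_eq_one_iff_of_nonneg (norm_nonneg _) two_ne_zero).1 h1

theorem norm_gt_one_le {c : O} (hc : Primary c) : ‖gt 1 c‖ ≤ 1 := by
  by_cases hs : Squarefree c
  · exact (norm_gt hc hs isCoprime_one_left).le
  · rw [gt, gs_one_eq_zero hc.not_lam_dvd hs, zero_div, norm_zero]; exact zero_le_one

theorem gt_one_eq_zero {c : O} (hc : Primary c) (hs : ¬ Squarefree c) : gt 1 c = 0 := by
  rw [gt, gs_one_eq_zero hc.not_lam_dvd hs, zero_div]

theorem normSq_gt_le {c : O} (hc : Primary c) (μ : O) :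
    ‖gt μ c‖ ^ 2 ≤ N (EuclideanDomain.gcd μ c) := by
  have h2 : (0 : ℝ) < N c := by exact_mod_cast N_pos hc.ne_zero
  rw [normSq_gt_eq, div_le_iff₀ h2, mul_comm]
  exact normSq_gs_le hc μ

theorem conj_gt_mul_gt {c : O} (hc : Primary c) (hs : Squarefree c) :
    (starRingEnd ℂ) (gt 1 c) * gt 1 c = 1 := by
  rw [Complex.conj_mul', norm_gt hc hs isCoprime_one_left]; simp

end Vale.Agent.P006.CRB
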