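import Vale.Agent.P006.CR.GaussSumB
import Vale.Agent.P006.CR.Bridge
import Mathlib.GroupTheory.Perm.Cycle.Type
import Mathlib.Analysis.Asymptotics.AsymptoticEquivalent
import Mathlib.Analysis.SpecialFunctions.Gamma.Basic
import Mathlib.Analysis.SpecialFunctions.Pow.Asymptotics

/-!
P006, block CR4: the bridge between cubic Gauss sums over primary primes of `ℤ[ω]` and Kummer's
cubic exponential sums `S_p = ∑_{x mod p} e(x³/p)`.
-/

namespace Vale.Agent.P006

open scoped BigOperators
open CRB (gs_eq)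

/-! ### Cube roots in the residue field -/

section CubeRoots

variable {π : O}

theorem exists_cube_of_chi_eq_one' [Fact (Prime π)] (hl : ¬ lam ∣ π) {z : Rs π} (hz : z ≠ 0)
    (h : chi π z = 1) : ∃ y : Rs π, y ^ 3 = z := by
  have hπ : Prime π := Fact.out
  have h4 := four_le_N hπ hl
  have hm := N_mod_of_not_lam_dvd hl
  obtain ⟨g, hg⟩ := IsCyclic.exists_generator (α := (Rs π)ˣ)
  obtain ⟨k, hk⟩ := Subgroup.mem_zpowers_iff.1 (hg (Units.mk0 z hz))
  have hord : orderOf g = N π - 1 := by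
    rw [orderOf_eq_card_of_forall_mem_zpowers hg, Nat.card_units, card_Rs]
  obtain ⟨a, ha⟩ := rs_surj π z
  have h1 : z ^ ((N π - 1) / 3) = 1 := by
    have h2 := rs_chiO hl z
    rw [← ha, chi_rs] at h
    have h3 : sym a π = 1 := by
      apply toC_injective; rw [h, map_one]
    rw [← h2, ← ha, chiO_rs, h3, map_one]
  have h2 : (g ^ k) ^ ((N π - 1) / 3) = 1 := by
    rw [hk]
    apply Units.ext
    rw [Units.val_pow_eq_pow_val, Units.val_mk0, h1, Units.val_one]
  rw [← zpow_natCast, ← zpow_mul] at h2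
  have h3 := orderOf_dvd_iff_zpow_eq_one.2 h2
  rw [hord] at h3
  have h5 : (3 : ℤ) ∣ k := by
    obtain ⟨m, hm'⟩ : ∃ m : ℕ, N π - 1 = 3 * m := ⟨(N π - 1) / 3, by omega⟩
    have hm0 : m ≠ 0 := by omega
    rw [hm', show 3 * m / 3 = m by omega] at h3
    obtain ⟨c, hc⟩ := h3
    refine ⟨c, ?_⟩
    have hm1 : (m : ℤ) ≠ 0 := by exact_mod_cast hm0
    apply mul_right_cancel₀ hm1
    rw [hc]; push_cast; ring
  obtain ⟨c, rfl⟩ := h5
  refine ⟨((g ^ c : (Rs π)ˣ) : Rs π), ?_⟩
  have h6 : ((g ^ c) ^ 3 : (Rs π)ˣ) = Units.mk0 z hz := by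
    rw [← hk, ← zpow_natCast, ← zpow_mul]; congr 1; push_cast; ring
  rw [← Units.val_pow_eq_pow_val, h6, Units.val_mk0]

theorem rs_om_ne_one (hπ : Prime π) (hl : ¬ lam ∣ π) : rs π om ≠ 1 := by
  rw [← map_one (rs π), Ne, rs_eq]
  intro h
  have h1 := N_dvd_N h
  have h2 : N (om - 1) = 3 := by decide
  rw [h2] at h1
  have h3 := four_le_N hπ hl
  have := Nat.le_of_dvd (by norm_num) h1
  omega

theorem card_cube_roots' [Fact (Prime π)] [DecidableEq (Rs π)] (hl : ¬ lam ∣ π) (z : Rs π) :
    ((Finset.univ.filter fun y : Rs π => y ^ 3 = z).card : ℂ) = 1 + chi π z + chi π z ^ 2 := by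
  have hπ : Prime π := Fact.out
  by_cases hz : z = 0
  · subst hz
    rw [MulChar.map_nonunit _ not_isUnit_zero]
    have : (Finset.univ.filter fun y : Rs π => y ^ 3 = 0) = {0} := by
      ext y; simp
    rw [this]; simp
  · have hu : IsUnit z := isUnit_iff_ne_zero.2 hz
    have h3 := chi_cube hu
    by_cases h : chi π z = 1
    · obtain ⟨y, hy⟩ := exists_cube_of_chi_eq_one' hl hz h
      have hy0 : y ≠ 0 := by rintro rfl; apply hz; rw [← hy]; simp
      set w := rs π om with hw
      have e1 : 1 + w + w ^ 2 = 0 := by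
        rw [hw, ← map_one (rs π), ← map_pow, ← map_add, ← map_add, one_add_om, map_zero]
      have hw1 : w ≠ 1 := rs_om_ne_one hπ hl
      have hw0 : w ≠ 0 := by
        intro h0; rw [h0] at e1; simp at e1
      have hset : (Finset.univ.filter fun x : Rs π => x ^ 3 = z) = {y, w * y, w ^ 2 * y} := by
        ext x
        simp only [Finset.mem_filter, Finset.mem_univ, true_and, Finset.mem_insert,
          Finset.mem_singleton]
        constructor
        · intro hx
          have h5 : (x - y) * ((x - w * y) * (x - w ^ 2 * y)) = 0 := by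
            linear_combination hx - hy + (-x ^ 2 * y + x * y ^ 2 * w + y ^ 3 * (1 - w)) * e1
          rcases mul_eq_zero.1 h5 with h6 | h6
          · left; exact sub_eq_zero.1 h6
          · rcases mul_eq_zero.1 h6 with h7 | h7
            · right; left; exact sub_eq_zero.1 h7
            · right; right; exact sub_eq_zero.1 h7
        · have hw3 : w ^ 3 = 1 := by linear_combination (w - 1) * e1
          rintro (rfl | rfl | rfl)
          · exact hy
          · rw [mul_pow, hw3, one_mul, hy]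
          · rw [mul_pow, ← pow_mul, mul_comm 2 3, pow_mul, hw3, one_pow, one_mul, hy]
      have d1 : y ≠ w * y := fun h => hw1 (by
        have : (w - 1) * y = 0 := by linear_combination -h
        rcases mul_eq_zero.1 this with h | h
        · exact sub_eq_zero.1 h
        · exact absurd h hy0)
      have d2 : w * y ≠ w ^ 2 * y := fun h => hw1 (by
        have : w * ((w - 1) * y) = 0 := by linear_combination -h
        rcases mul_eq_zero.1 this with h | h
        · exact absurd h hw0
        · rcases mul_eq_zero.1 h with h | h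
          · exact sub_eq_zero.1 h
          · exact absurd h hy0)
      have d3 : y ≠ w ^ 2 * y := fun h => hw1 (by
        have h7 : (w ^ 2 - 1) * y = 0 := by linear_combination -h
        rcases mul_eq_zero.1 h7 with h | h
        · have hw3 : w ^ 3 = 1 := by linear_combination (w - 1) * e1
          have h8 : w ^ 2 = 1 := sub_eq_zero.1 h
          have : w ^ 3 = w * w ^ 2 := by ring
          rw [hw3, h8, mul_one] at this
          exact this.symm
        · exact absurd h hy0)
      rw [hset, Finset.card_insert_of_notMem (by simp [d1, d3]),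
        Finset.card_insert_of_notMem (by simp [d2]), Finset.card_singleton, h]
      norm_num
    · have hset : (Finset.univ.filter fun x : Rs π => x ^ 3 = z) = ∅ := by
        rw [Finset.filter_eq_empty_iff]
        intro x _ hx
        apply h
        have hx0 : IsUnit x := by
          rw [isUnit_iff_ne_zero]; rintro rfl; apply hz; rw [← hx]; simp
        rw [← hx, map_pow, chi_cube hx0]
      rw [hset]
      have h5 : (chi π z - 1) * (1 + chi π z + chi π z ^ 2) = 0 := by
        linear_combination h3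
      rcases mul_eq_zero.1 h5 with h6 | h6
      · exact absurd (sub_eq_zero.1 h6) h
      · rw [h6]; simp

theorem sum_cube_comp [Fact (Prime π)] (hl : ¬ lam ∣ π) (f : Rs π → ℂ) :
    ∑ y : Rs π, f (y ^ 3) = ∑ z : Rs π, (1 + chi π z + chi π z ^ 2) * f z := by
  classical
  rw [← Finset.sum_fiberwise (s := Finset.univ) (g := fun y : Rs π => y ^ 3)]
  refine Finset.sum_congr rfl fun z _ => ?_
  rw [← card_cube_roots' hl z, Finset.sum_congr rfl (g := fun _ => f z) (by
    intro x hx
    rw [Finset.mem_filter] at hx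
    rw [hx.2]), Finset.sum_const, nsmul_eq_mul]

end CubeRoots

/-! ### The Kummer sum of a split prime -/

/-- Kummer's sum `S_p = ∑_{x mod p} e(x³/p)` (a real number) -/
noncomputable def kummer (p : ℕ) : ℝ :=
  ∑ x ∈ Finset.range p, Real.cos (2 * Real.pi * (x : ℝ) ^ 3 / p)

/-- the trace of `π` as an integer -/
def trO (z : O) : ℤ := 2 * z.re - z.im

theorem re_two' : (2 : O).re = 2 := rfl
theorem im_two' : (2 : O).im = 0 := rfl

theorem trO_eq (z : O) : ((trO z : ℤ) : O) = z + star z := by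
  ext
  · simp [trO, re_two']; ring
  · simp [trO, im_two']

theorem TrC_int_div (n : ℤ) {z : O} (hz : z ≠ 0) :
    TrC (toC (n : O) / toC z) = n * trO z / N z := by
  have hz' : toC z ≠ 0 := by simpa using hz
  have hN : (N z : ℂ) = toC z * toC (star z) := by
    rw [← map_mul, ← N_mul_star, toC_natCast]
  have hN0 : (N z : ℝ) ≠ 0 := by exact_mod_cast (N_pos hz).ne'
  have hs : toC (star z) ≠ 0 := by simpa using hz
  have h1 : toC (n : O) / toC z = ((n / N z : ℝ) : ℂ) * toC (star z) := by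
    rw [toC_intCast]; push_cast
    rw [hN]; field_simp
  rw [h1, TrC, Complex.re_ofReal_mul, ← mul_assoc, mul_comm 2, mul_assoc]
  have h2 : 2 * (toC (star z)).re = trO z := by
    have := TrC_toC z
    rw [← CRB.TrC_conj, ← toC_star, TrC] at this
    rw [this]; rfl
  rw [h2]; ring

theorem star_ne_self {π : O} {p : ℕ} (hp : p.Prime) (hN : N π = p) : star π ≠ π := by
  intro h
  have h1 : π.im = 0 := by
    have := congrArg QuadraticAlgebra.im h
    rw [QuadraticAlgebra.im_star] at this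
    omega
  have h2 := N_cast_int' π
  rw [h1, hN] at h2
  have h3 : p = π.re.natAbs * π.re.natAbs := by
    zify
    rw [h2]
    simp
  rw [h3] at hp
  rcases Nat.prime_mul_iff.1 hp with ⟨h4, h5⟩ | ⟨h4, h5⟩ <;> (rw [h5] at h4; exact Nat.not_prime_one h4)

theorem not_dvd_star' {π : O} (hπ : Prime π) (hpr : Primary π) {p : ℕ} (hp : p.Prime)
    (hN : N π = p) : ¬ π ∣ star π := by
  intro h
  have h1 : Associated π (star π) := hπ.associated_of_dvd (prime_star hπ) h
  exact star_ne_self hp hN (hpr.eq_of_associated hpr.star h1).symm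

/-- `(Tr π / π)_3 = 1` -/
theorem sym_trace {π : O} (hπ : Prime π) (hpr : Primary π) {p : ℕ} (hp : p.Prime)
    (hN : N π = p) : sym ((trO π : ℤ) : O) π = 1 := by
  have h1 : sym ((trO π : ℤ) : O) π = sym (star π) π := by
    apply sym_periodic
    rw [trO_eq]; exact ⟨1, by ring⟩
  rw [h1]
  have h2 := recip hpr.star hpr
  have h3 := sym_star (star π) π
  rw [star_star] at h3
  rw [← h2] at h3
  have hc : IsCoprime (star π) π := (hπ.coprime_iff_not_dvd.2 (not_dvd_star' hπ hpr hp hN)).symm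
  rcases isVal_sym (star π) π with h | h | h | h
  · exact absurd h (sym_ne_zero.2 hc)
  · exact h
  · rw [h] at h3; exact absurd h3 (by decide)
  · rw [h] at h3; exact absurd h3 (by decide)

theorem sum_range_rs {π : O} [Fact (Prime π)] {p : ℕ} (hp : p.Prime) (hN : N π = p)
    (f : Rs π → ℂ) : ∑ x ∈ Finset.range p, f (rs π (x : O)) = ∑ y : Rs π, f y := by
  classical
  have hinj : ∀ x ∈ Finset.range p, ∀ y ∈ Finset.range p, rs π (x : O) = rs π (y : O) → x = y := by
    intro x hx y hy h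
    rw [Finset.mem_range] at hx hy
    rw [rs_eq] at h
    have h1 : (x : O) - (y : O) = ((x - y : ℤ) : O) := by push_cast; ring
    rw [h1] at h
    have h2 := N_dvd_N h
    rw [hN, N_intCast] at h2
    have h3 := hp.dvd_of_dvd_pow h2
    have h4 : (p : ℤ) ∣ (x : ℤ) - y := Int.natCast_dvd.2 h3
    have h5 : (x : ℤ) - y = 0 := by
      apply Int.eq_zero_of_abs_lt_dvd h4
      rw [abs_lt]; constructor <;> omega
    omega
  rw [← Finset.sum_image (s := Finset.range p) (g := fun x : ℕ => rs π (x : O)) (f := f) hinj]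
  congr 1
  apply Finset.eq_univ_of_card
  rw [Finset.card_image_of_injOn (by intro x hx y hy h; exact hinj x hx y hy h), Finset.card_range,
    fcard_Rs, hN]

/-- `S_p = g(π) + conj g(π)` -/
theorem kummer_eq {π : O} (hπ : Prime π) (hpr : Primary π) {p : ℕ} (hp : p.Prime)
    (hN : N π = p) : (kummer p : ℂ) = gs 1 π + (starRingEnd ℂ) (gs 1 π) := by
  have : Fact (Prime π) := ⟨hπ⟩
  have hl := hpr.not_lam_dvd
  have hp0 : (p : ℝ) ≠ 0 := by exact_mod_cast hp.ne_zero
  -- inverse of the trace mod p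
  have hcopT : IsCoprime ((trO π : ℤ)) (p : ℤ) := by
    rw [Int.isCoprime_iff_gcd_eq_one, Int.gcd_comm]
    have h1 : ¬ (p : ℤ) ∣ trO π := by
      intro h
      apply not_dvd_star' hπ hpr hp hN
      have h2 : π ∣ ((trO π : ℤ) : O) := by
        have h3 : ((p : ℤ) : O) ∣ ((trO π : ℤ) : O) := by
          obtain ⟨c, hc⟩ := h
          exact ⟨(c : O), by rw [hc]; push_cast; ring⟩
        refine dvd_trans ?_ h3
        refine ⟨star π, ?_⟩
        rw [← N_mul_star, hN]; simp
      rw [trO_eq] at h2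
      exact (dvd_add_right dvd_rfl).1 h2
    exact Int.isCoprime_iff_gcd_eq_one.1 ((Nat.prime_iff_prime_int.1 hp).coprime_iff_not_dvd.2 h1)
  obtain ⟨t, u, htu⟩ := hcopT
  have hsymt : sym (t : O) π = 1 := by
    have h1 : sym ((t * trO π : ℤ) : O) π = 1 := by
      have : sym ((t * trO π : ℤ) : O) π = sym 1 π := by
        apply sym_periodic
        have h2 : ((t * trO π : ℤ) : O) - 1 = -(((p : ℤ) : O) * (u : O)) := by
          have : (t * trO π : ℤ) = 1 - u * p := by linarith
          rw [this]; push_cast; ring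
        rw [h2, dvd_neg]
        refine Dvd.dvd.mul_right ⟨star π, ?_⟩ _
        rw [← N_mul_star, hN]; simp
      rw [this, sym_one_left]
    rw [Int.cast_mul, sym_mul_left, sym_trace hπ hpr hp hN, mul_one] at h1
    exact h1
  have hcopt : IsCoprime (t : O) π := by
    rw [← sym_ne_zero, hsymt]; exact one_ne_zero
  -- exponential form
  have hterm : ∀ x : ℕ, e ((x : ℝ) ^ 3 / p) = psi π (rs π (t : O) * (rs π (x : O)) ^ 3) := by
    intro x
    rw [← map_pow, ← map_mul, psi_rs]
    have h1 : ((t : O) * (x : O) ^ 3) = ((t * (x : ℤ) ^ 3 : ℤ) : O) := by push_cast; ring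
    rw [h1, TrC_int_div _ hπ.ne_zero, hN]
    have h2 : (((t * (x : ℤ) ^ 3 : ℤ) : ℝ) * trO π / p) =
        (x : ℝ) ^ 3 / p + ((-(u * (x : ℤ) ^ 3) : ℤ) : ℝ) := by
      have h3 : (t : ℝ) * trO π = 1 - u * p := by
        have : ((t * trO π : ℤ) : ℝ) = ((1 - u * p : ℤ) : ℝ) := by congr 1; linarith
        push_cast at this; linarith
      push_cast
      field_simp
      linear_combination (x : ℝ) ^ 3 * h3
    rw [h2, e_add, e_int, mul_one]
  have hS : ∑ x ∈ Finset.range p, e ((x : ℝ) ^ 3 / p) = gs 1 π + (starRingEnd ℂ) (gs 1 π) := by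
    rw [Finset.sum_congr rfl fun x _ => hterm x,
      sum_range_rs hp hN (fun y => psi π (rs π (t : O) * y ^ 3)),
      sum_cube_comp hl (fun z => psi π (rs π (t : O) * z))]
    simp only [add_mul, one_mul, Finset.sum_add_distrib]
    have h0 : ∑ z : Rs π, psi π (rs π (t : O) * z) = 0 := by
      rw [sum_psi_mul, if_neg]
      intro h
      have h1 := (CRB.isCoprime_lam_of_prime hl).dvd_of_dvd_mul_left h
      exact (hπ.coprime_iff_not_dvd.1 hcopt.symm) h1
    have h1 : ∑ z : Rs π, chi π z * psi π (rs π (t : O) * z) = gs 1 π := by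
      rw [← gs_eq, CRB.gs_coprime hcopt, hsymt, map_one, map_one, one_mul]
    have h2 : ∑ z : Rs π, chi π z ^ 2 * psi π (rs π (t : O) * z) = (starRingEnd ℂ) (gs 1 π) := by
      rw [← h1, map_sum]
      rw [← Equiv.sum_comp (Equiv.neg (Rs π))]
      refine Finset.sum_congr rfl fun z _ => ?_
      have h3 : chi π (-z) = chi π z := by
        obtain ⟨z, rfl⟩ := rs_surj π z
        rw [← map_neg, chi_rs, chi_rs, sym_neg_left]
      rw [Equiv.neg_apply, h3, map_mul (starRingEnd ℂ), conj_chi, conj_psi, mul_neg]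
    rw [h0, h1, h2, zero_add]
  -- the sum is real
  have hre : ((kummer p : ℝ) : ℂ) = (((∑ x ∈ Finset.range p, e ((x : ℝ) ^ 3 / p)).re : ℝ) : ℂ) := by
    congr 1
    rw [Complex.re_sum, kummer]
    refine Finset.sum_congr rfl fun x _ => ?_
    rw [e, show (2 * (Real.pi : ℂ) * Complex.I * (((x : ℝ) ^ 3 / p : ℝ) : ℂ)) =
      ((2 * Real.pi * (x : ℝ) ^ 3 / p : ℝ) : ℂ) * Complex.I by push_cast; ring,
      Complex.exp_ofReal_mul_I_re]
  rw [hre, hS, Complex.add_re, Complex.conj_re, Complex.add_conj]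
  push_cast; ring

/-! ### The primary primes -/

theorem exists_split {p : ℕ} (hp : p.Prime) (h3 : p % 3 = 1) :
    ∃ π : O, Prime π ∧ Primary π ∧ N π = p := by
  have : Fact p.Prime := ⟨hp⟩
  -- an element of order 3 mod p
  obtain ⟨g, hg⟩ : ∃ g : (ZMod p)ˣ, orderOf g = 3 := by
    have : Fact (Nat.Prime 3) := ⟨Nat.prime_three⟩
    apply exists_prime_orderOf_dvd_card 3
    rw [ZMod.card_units]
    omega
  have h1 : (g : ZMod p) ^ 3 = 1 := by
    have := pow_orderOf_eq_one g
    rw [hg] at this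
    rw [← Units.val_pow_eq_pow_val, this, Units.val_one]
  have h2 : (g : ZMod p) ≠ 1 := by
    intro h
    have h5 : g = 1 := Units.ext (by rw [h, Units.val_one])
    rw [h5, orderOf_one] at hg
    exact absurd hg (by norm_num)
  have h4 : (g : ZMod p) ^ 2 + g + 1 = 0 := by
    have : ((g : ZMod p) - 1) * ((g : ZMod p) ^ 2 + g + 1) = 0 := by linear_combination h1
    rcases mul_eq_zero.1 this with h | h
    · exact absurd (sub_eq_zero.1 h) h2
    · exact h
  set n : ℤ := ((g : ZMod p).val : ℤ) with hn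
  have hng : ((n : ℤ) : ZMod p) = g := by rw [hn, Int.cast_natCast, ZMod.natCast_zmod_val]
  have h5 : (p : ℤ) ∣ n ^ 2 + n + 1 := by
    rw [← ZMod.intCast_zmod_eq_zero_iff_dvd _ p]
    push_cast
    rw [hng]
    exact h4
  -- p is not prime in O
  have h6 : ((p : ℕ) : O) ∣ ((n : O) - om) * ((n : O) - om ^ 2) := by
    have e1 : ((n : O) - om) * ((n : O) - om ^ 2) = ((n ^ 2 + n + 1 : ℤ) : O) := by
      push_cast
      linear_combination (-(n : O)) * one_add_om + om_cube
    rw [e1]
    obtain ⟨c, hc⟩ := h5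
    exact ⟨(c : O), by rw [hc]; push_cast; ring⟩
  have hdvd_im : ∀ z : O, ((p : ℕ) : O) ∣ z → (p : ℤ) ∣ z.im := by
    rintro z ⟨c, rfl⟩
    refine ⟨c.im, ?_⟩
    simp
  have hp2 := hp.two_le
  have h7 : ¬ Prime ((p : ℕ) : O) := by
    intro h
    rcases h.dvd_or_dvd h6 with h8 | h8
    · have h9 := hdvd_im _ h8
      have e2 : ((n : O) - om).im = -1 := by simp [om]
      rw [e2] at h9
      have := Int.le_of_dvd (by norm_num) ((dvd_neg).1 h9)
      omega
    · have h9 := hdvd_im _ h8
      have e2 : ((n : O) - om ^ 2).im = 1 := by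
        have : om ^ 2 = ⟨-1, -1⟩ := by decide
        rw [this]; simp
      rw [e2] at h9
      have := Int.le_of_dvd (by norm_num) h9
      omega
  have hp0 : ((p : ℕ) : O) ≠ 0 := by
    intro h
    have := congrArg N h
    rw [N_natCast, N_zero] at this
    exact hp.ne_zero (by simpa using this)
  have hpu : ¬ IsUnit ((p : ℕ) : O) := by
    rw [isUnit_iff_N, N_natCast]
    intro h
    have : p = 1 := by
      have := (Nat.pow_eq_one).1 h
      omega
    exact hp.one_lt.ne' this
  obtain ⟨α, hα, hd⟩ := WfDvdMonoid.exists_irreducible_factor hpu hp0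
  obtain ⟨β, hβ⟩ := hd
  have hβu : ¬ IsUnit β := by
    intro hu
    apply h7
    have : Associated α ((p : ℕ) : O) := by
      rw [hβ]; exact (associated_mul_unit_right α β hu)
    exact this.prime hα.prime
  have hNN : N α * N β = p ^ 2 := by
    rw [← N_mul, ← hβ, N_natCast]
  have hNα1 : N α ≠ 1 := fun h => hα.not_isUnit (isUnit_iff_N.2 h)
  have hNβ1 : N β ≠ 1 := fun h => hβu (isUnit_iff_N.2 h)
  have hNα : N α = p := by
    have h8 : N α ∣ p ^ 2 := Dvd.intro _ hNN
    rcases (Nat.dvd_prime_pow hp).1 h8 with ⟨k, hk, hk2⟩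
    interval_cases k
    · exact absurd (by simpa using hk2) hNα1
    · simpa using hk2
    · exfalso
      rw [hk2] at hNN
      have : N β = 1 := by
        have h9 : 0 < p ^ 2 := by positivity
        exact Nat.eq_of_mul_eq_mul_left h9 (by rw [hNN, mul_one])
      exact hNβ1 this
  have hl : ¬ lam ∣ α := by
    intro h
    have := N_dvd_N h
    rw [N_lam, hNα] at this
    have h9 := (Nat.prime_dvd_prime_iff_eq Nat.prime_three hp).1 this
    omega
  obtain ⟨u, hu, hpr⟩ := exists_unit_mul_primary hl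
  have has : Associated α (u * α) := associated_unit_mul_right α u hu
  refine ⟨u * α, has.prime hα.prime, hpr, ?_⟩
  rw [← N_eq_of_associated has, hNα]

theorem eq_or_eq_star {π ρ : O} (hρ : Prime ρ) (hπp : Primary π)
    (hρp : Primary ρ) (hπ : Prime π) (h : N π = N ρ) : ρ = π ∨ ρ = star π := by
  have h1 : ρ ∣ π * star π := by
    rw [← N_mul_star, h, N_mul_star]; exact dvd_mul_right _ _
  rcases hρ.dvd_or_dvd h1 with h2 | h2
  · left; exact hρp.eq_of_associated hπp (hρ.associated_of_dvd hπ h2)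
  · right; exact hρp.eq_of_associated hπp.star (hρ.associated_of_dvd (prime_star hπ) h2)

/-- a prime of `O` has norm a rational prime, or is associated to a rational prime `q` -/
theorem N_prime_cases {π : O} (hπ : Prime π) :
    (N π).Prime ∨ ∃ q : ℕ, q.Prime ∧ N π = q ^ 2 ∧ Associated π ((q : ℕ) : O) := by
  have h1 : N π ≠ 1 := N_ne_one hπ
  have h0 : N π ≠ 0 := (N_pos hπ.ne_zero).ne'
  -- π divides a rational prime
  obtain ⟨q, hq, hd⟩ : ∃ q : ℕ, q.Prime ∧ π ∣ ((q : ℕ) : O) := by
    have h2 : π ∣ ((N π : ℕ) : O) := by rw [N_mul_star]; exact dvd_mul_right _ _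
    have h3 : ((N π : ℕ) : O) = ((N π).primeFactorsList.map (fun q : ℕ => (q : O))).prod := by
      conv_lhs => rw [← Nat.prod_primeFactorsList h0]
      rw [Nat.cast_list_prod]
    rw [h3] at h2
    obtain ⟨x, hx, hdx⟩ := (hπ.dvd_prod_iff).1 h2
    rw [List.mem_map] at hx
    obtain ⟨q, hq, rfl⟩ := hx
    exact ⟨q, Nat.prime_of_mem_primeFactorsList hq, hdx⟩
  have h2 := N_dvd_N hd
  rw [N_natCast] at h2
  obtain ⟨k, hk, hk2⟩ := (Nat.dvd_prime_pow hq).1 h2
  interval_cases k
  · exact absurd (by simpa using hk2) h1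
  · left; rw [hk2, pow_one]; exact hq
  · right
    refine ⟨q, hq, hk2, ?_⟩
    obtain ⟨c, hc⟩ := hd
    have h3 : N π * N c = N π * 1 := by
      rw [← N_mul, ← hc, N_natCast, hk2, mul_one]
    have h4 : N c = 1 := Nat.eq_of_mul_eq_mul_left (Nat.pos_of_ne_zero h0) h3
    rw [hc]
    exact associated_mul_unit_right π c (isUnit_iff_N.2 h4)

/-! ### The bridge -/

/-- the finite set of primary primes of norm at most `n` -/
noncomputable def primaryPrimes (n : ℕ) : Finset O := by
  classical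
  exact ((Finset.Icc (-(2 * n : ℤ)) (2 * n) ×ˢ Finset.Icc (-(2 * n : ℤ)) (2 * n)).image
    (fun p => (⟨p.1, p.2⟩ : O))).filter (fun π => Prime π ∧ Primary π ∧ N π ≤ n)

theorem abs_re_le {z : O} {n : ℕ} (h : N z ≤ n) : |z.re| ≤ 2 * n ∧ |z.im| ≤ 2 * n := by
  have h1 := N_cast_int' z
  have h2 : (N z : ℤ) ≤ n := by exact_mod_cast h
  have h3 : z.re * z.re ≤ 2 * n := by nlinarith [sq_nonneg (z.re - 2 * z.im)]
  have h4 : z.im * z.im ≤ 2 * n := by nlinarith [sq_nonneg (2 * z.re - z.im)]
  have h5 : ∀ a : ℤ, a * a ≤ 2 * n → |a| ≤ 2 * n := by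
    intro a ha
    have h6 : |a| * |a| = a * a := abs_mul_abs_self a
    by_contra hc
    push Not at hc
    have h7 : 1 ≤ |a| := by omega
    nlinarith
  exact ⟨h5 _ h3, h5 _ h4⟩

theorem mem_primaryPrimes {n : ℕ} {π : O} :
    π ∈ primaryPrimes n ↔ Prime π ∧ Primary π ∧ N π ≤ n := by
  classical
  rw [primaryPrimes, Finset.mem_filter, and_iff_right_of_imp]
  rintro ⟨_, _, h⟩
  rw [Finset.mem_image]
  refine ⟨(π.re, π.im), ?_, rfl⟩
  rw [Finset.mem_product, Finset.mem_Icc, Finset.mem_Icc]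
  have := abs_re_le h
  rw [abs_le, abs_le] at this
  exact this

/-- Kummer sums over the rational primes `p ≡ 1 mod 3`, `p ≤ n` -/
noncomputable def kummerSum (n : ℕ) : ℝ :=
  ∑ p ∈ (Finset.range (n + 1)).filter (fun p => p.Prime ∧ p % 3 = 1),
    kummer p / (2 * Real.sqrt p)

theorem sum_fiber {n p : ℕ} (hp : p.Prime) (h3 : p % 3 = 1) (hpn : p ≤ n) [DecidableEq O] :
    ∑ π ∈ (primaryPrimes n).filter (fun π => N π = p), gt 1 π = (kummer p / Real.sqrt p : ℝ) := by
  obtain ⟨π, hπ, hpr, hN⟩ := exists_split hp h3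
  have hset : (primaryPrimes n).filter (fun π => N π = p) = {π, star π} := by
    ext ρ
    simp only [Finset.mem_filter, mem_primaryPrimes, Finset.mem_insert, Finset.mem_singleton]
    constructor
    · rintro ⟨⟨hρ, hρp, _⟩, hρN⟩
      exact eq_or_eq_star hρ hpr hρp hπ (by rw [hN, hρN])
    · rintro (rfl | rfl)
      · exact ⟨⟨hπ, hpr, by omega⟩, hN⟩
      · exact ⟨⟨prime_star hπ, hpr.star, by rw [N_star]; omega⟩, by rw [N_star]; exact hN⟩
  rw [hset, Finset.sum_pair (star_ne_self hp hN).symm]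
  have h1 : gt 1 (star π) = (starRingEnd ℂ) (gt 1 π) := by
    rw [← CRB.gt_star, star_one]
  rw [h1, gt, map_div₀, Complex.conj_ofReal, ← add_div, ← kummer_eq hπ hpr hp hN, hN,
    Complex.ofReal_div]

theorem norm_sum_sub_le (n : ℕ) :
    ‖∑ π ∈ primaryPrimes n, gt 1 π - 2 * (kummerSum n : ℂ)‖ ≤ Real.sqrt n := by
  classical
  have h1 := Finset.sum_filter_add_sum_filter_not (primaryPrimes n) (fun π => (N π).Prime)
    (fun π => gt 1 π)
  have h2 : ∑ π ∈ (primaryPrimes n).filter (fun π => (N π).Prime), gt 1 π =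
      2 * (kummerSum n : ℂ) := by
    have hmaps : ∀ π ∈ (primaryPrimes n).filter (fun π => (N π).Prime),
        N π ∈ (Finset.range (n + 1)).filter (fun p => p.Prime ∧ p % 3 = 1) := by
      intro π hπ
      rw [Finset.mem_filter, mem_primaryPrimes] at hπ
      rw [Finset.mem_filter, Finset.mem_range]
      exact ⟨by omega, hπ.2, hπ.1.2.1.N_mod⟩
    rw [← Finset.sum_fiberwise_of_maps_to hmaps, kummerSum, Complex.ofReal_sum, Finset.mul_sum]
    refine Finset.sum_congr rfl fun p hp => ?_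
    rw [Finset.mem_filter, Finset.mem_range] at hp
    rw [Finset.filter_filter]
    have : (primaryPrimes n).filter (fun π => (N π).Prime ∧ N π = p) =
        (primaryPrimes n).filter (fun π => N π = p) := by
      apply Finset.filter_congr
      intro π _
      constructor
      · exact fun h => h.2
      · intro h; exact ⟨h ▸ hp.2.1, h⟩
    rw [this, sum_fiber hp.2.1 hp.2.2 (by omega)]
    push_cast
    ring
  rw [← h1, h2, add_sub_cancel_left]
  refine (norm_sum_le _ _).trans ?_
  -- the inert primes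
  have h3 : ((primaryPrimes n).filter (fun π => ¬ (N π).Prime)).card ≤ Nat.sqrt n := by
    rw [← Finset.card_range (Nat.sqrt n)]
    apply Finset.card_le_card_of_injOn (fun π => Nat.sqrt (N π) - 1)
    · intro π hπ
      simp only [Finset.coe_filter, Set.mem_ofPred_eq, mem_primaryPrimes] at hπ
      rcases N_prime_cases hπ.1.1 with h | ⟨q, hq, hN, _⟩
      · exact absurd h hπ.2
      · have h4 : q ≤ Nat.sqrt n := by
          rw [Nat.le_sqrt, ← sq, ← hN]; exact hπ.1.2.2
        have h5 := hq.pos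
        simp only [Finset.coe_range, Set.mem_Iio]
        rw [hN, Nat.sqrt_eq' q]
        omega
    · intro π hπ ρ hρ h
      simp only [Finset.coe_filter, Set.mem_ofPred_eq, mem_primaryPrimes] at hπ hρ
      rcases N_prime_cases hπ.1.1 with h4 | ⟨q, hq, hN, ha⟩
      · exact absurd h4 hπ.2
      rcases N_prime_cases hρ.1.1 with h4 | ⟨r, hr, hN', ha'⟩
      · exact absurd h4 hρ.2
      simp only at h
      rw [hN, hN', Nat.sqrt_eq', Nat.sqrt_eq'] at h
      have h5 := hq.pos
      have h6 := hr.pos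
      have h7 : q = r := by omega
      subst h7
      exact hπ.1.2.1.eq_of_associated hρ.1.2.1 (ha.trans ha'.symm)
  calc ∑ π ∈ (primaryPrimes n).filter (fun π => ¬ (N π).Prime), ‖gt 1 π‖
      ≤ ∑ π ∈ (primaryPrimes n).filter (fun π => ¬ (N π).Prime), (1 : ℝ) := by
        refine Finset.sum_le_sum fun π hπ => ?_
        rw [Finset.mem_filter, mem_primaryPrimes] at hπ
        exact CRB.norm_gt_one_le hπ.1.2.1
    _ = ((primaryPrimes n).filter (fun π => ¬ (N π).Prime)).card := by simp
    _ ≤ (Nat.sqrt n : ℝ) := by exact_mod_cast h3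
    _ ≤ Real.sqrt n := Real.nat_sqrt_le_real_sqrt

/-- the constant `c_* = (2π)^(2/3) / (3 Γ(2/3))` -/
noncomputable def cstar : ℝ := (2 * Real.pi) ^ ((2 : ℝ) / 3) / (3 * Real.Gamma (2 / 3))

theorem cstar_pos : 0 < cstar := by
  unfold cstar
  have := Real.Gamma_pos_of_pos (show (0 : ℝ) < 2 / 3 by norm_num)
  have := Real.pi_pos
  positivity

open Filter Topology

theorem sqrt_mul_log_div_tendsto :
    Tendsto (fun X : ℝ => Real.sqrt X * (Real.log X / X ^ ((5 : ℝ) / 6))) atTop (𝓝 0) := by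
  have h1 : Tendsto (fun X : ℝ => Real.log X / X ^ ((1 : ℝ) / 3)) atTop (𝓝 0) :=
    (isLittleO_log_rpow_atTop (by norm_num : (0 : ℝ) < 1 / 3)).tendsto_div_nhds_zero
  refine h1.congr' ?_
  filter_upwards [eventually_gt_atTop 0] with X hX
  have h2 : X ^ ((5 : ℝ) / 6) = Real.sqrt X * X ^ ((1 : ℝ) / 3) := by
    rw [Real.sqrt_eq_rpow, ← Real.rpow_add hX]; norm_num
  have h3 : Real.sqrt X ≠ 0 := (Real.sqrt_pos.2 hX).ne'
  rw [h2]; field_simp

theorem primary_sub_tendsto :
    Tendsto (fun X : ℝ => (∑ π ∈ primaryPrimes ⌊X⌋₊, gt 1 π - 2 * (kummerSum ⌊X⌋₊ : ℂ)) *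
      ((Real.log X / X ^ ((5 : ℝ) / 6) : ℝ) : ℂ)) atTop (𝓝 0) := by
  rw [tendsto_zero_iff_norm_tendsto_zero]
  refine squeeze_zero' (Eventually.of_forall fun _ => norm_nonneg _) ?_ sqrt_mul_log_div_tendsto
  filter_upwards [eventually_ge_atTop 1] with X hX
  have h2 : 0 ≤ Real.log X / X ^ ((5 : ℝ) / 6) :=
    div_nonneg (Real.log_nonneg hX) (Real.rpow_nonneg (by linarith) _)
  rw [norm_mul, Complex.norm_real, Real.norm_of_nonneg h2]
  refine mul_le_mul_of_nonneg_right ((norm_sum_sub_le _).trans ?_) h2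
  exact Real.sqrt_le_sqrt (Nat.floor_le (by linarith))

/-- The primary-prime form implies the rational-prime form. -/
theorem kummer_tendsto_of
    (h : Tendsto (fun X : ℝ => (∑ π ∈ primaryPrimes ⌊X⌋₊, gt 1 π) *
      ((Real.log X / X ^ ((5 : ℝ) / 6) : ℝ) : ℂ)) atTop (𝓝 ((6 / 5 * cstar : ℝ) : ℂ))) :
    Tendsto (fun X : ℝ => kummerSum ⌊X⌋₊ * (Real.log X / X ^ ((5 : ℝ) / 6))) atTop
      (𝓝 ((2 * Real.pi) ^ ((2 : ℝ) / 3) / (5 * Real.Gamma (2 / 3)))) := by
  have hG := Real.Gamma_pos_of_pos (show (0 : ℝ) < 2 / 3 by norm_num)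
  have hc : (2 * Real.pi) ^ ((2 : ℝ) / 3) / (5 * Real.Gamma (2 / 3)) = (6 / 5 * cstar) / 2 := by
    unfold cstar; field_simp; ring
  rw [hc]
  have h1 := primary_sub_tendsto
  have h2 := (h.sub h1).div_const 2
  rw [sub_zero] at h2
  have h3 : Tendsto (fun X : ℝ => (((kummerSum ⌊X⌋₊ * (Real.log X / X ^ ((5 : ℝ) / 6)) : ℝ)) : ℂ))
      atTop (𝓝 (((6 / 5 * cstar / 2 : ℝ)) : ℂ)) := by
    refine (h2.congr fun X => ?_).trans_eq ?_
    · push_cast; ring
    · congr 1; push_cast; ring
  exact (Complex.continuous_re.tendsto _).comp h3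

/-- The rational-prime form implies the primary-prime form. -/
theorem primary_tendsto_of
    (h : Tendsto (fun X : ℝ => kummerSum ⌊X⌋₊ * (Real.log X / X ^ ((5 : ℝ) / 6))) atTop
      (𝓝 ((2 * Real.pi) ^ ((2 : ℝ) / 3) / (5 * Real.Gamma (2 / 3))))) :
    Tendsto (fun X : ℝ => (∑ π ∈ primaryPrimes ⌊X⌋₊, gt 1 π) *
      ((Real.log X / X ^ ((5 : ℝ) / 6) : ℝ) : ℂ)) atTop (𝓝 ((6 / 5 * cstar : ℝ) : ℂ)) := by
  have hG := Real.Gamma_pos_of_pos (show (0 : ℝ) < 2 / 3 by norm_num)
  have hc : (2 * Real.pi) ^ ((2 : ℝ) / 3) / (5 * Real.Gamma (2 / 3)) = (6 / 5 * cstar) / 2 := by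
    unfold cstar; field_simp; ring
  rw [hc] at h
  have h1 := primary_sub_tendsto
  have h2 : Tendsto (fun X : ℝ => (((kummerSum ⌊X⌋₊ * (Real.log X / X ^ ((5 : ℝ) / 6)) : ℝ)) : ℂ))
      atTop (𝓝 (((6 / 5 * cstar / 2 : ℝ)) : ℂ)) :=
    (Complex.continuous_ofReal.tendsto _).comp h
  refine ((h2.const_mul 2).add h1).congr (fun X => ?_) |>.trans_eq ?_
  · push_cast; ring
  · congr 1; push_cast; ring

end Vale.Agent.P006
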